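import Mathlib
import Vale.Agent.P150.Edge
import Vale.Agent.P150.Beta1.Secular

/-!
# A Gaussian matrix revealed along an adaptive orthogonal family

For orthogonal vectors `u l` of length one or zero, `rr u l` reads off from a matrix a standard
Gaussian vector (the symmetrised image of `u l`, completed on the span), and `tt u l` is its
adjoint. If `u l` only depends on the vectors read before, then gluing independent vectors `z`
along `u z` to an independent matrix gives again a standard Gaussian matrix (`adaptive_law`), so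
statements about the revealed vectors and the rest may be proved on the product space.
-/

namespace Vale.Agent.P150.Beta1

open MeasureTheory ProbabilityTheory Finset Function Real

variable {n k : ℕ}

section linear

variable {ι : Type*} [Fintype ι]

lemma dot_add (x y z : ι → ℝ) : dot x (y + z) = dot x y + dot x z := by
  simp [dot, mul_add, sum_add_distrib]

lemma dot_sub (x y z : ι → ℝ) : dot x (y - z) = dot x y - dot x z := by
  simp [dot, mul_sub, sum_sub_distrib]

lemma dot_smul (c : ℝ) (x y : ι → ℝ) : dot x (c • y) = c * dot x y := by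
  simp only [dot, Pi.smul_apply, smul_eq_mul, mul_sum]
  exact sum_congr rfl fun i _ => by ring

lemma dot_zero_right (x : ι → ℝ) : dot x 0 = 0 := by simp [dot]

lemma dot_finset_sum {σ : Type*} (s : Finset σ) (x : ι → ℝ) (y : σ → ι → ℝ) :
    dot x (∑ a ∈ s, y a) = ∑ a ∈ s, dot x (y a) := by
  simp only [dot, Finset.sum_apply, mul_sum]
  exact sum_comm

lemma add_dot (x y z : ι → ℝ) : dot (x + y) z = dot x z + dot y z := by
  simp [dot, add_mul, sum_add_distrib]

lemma sub_dot (x y z : ι → ℝ) : dot (x - y) z = dot x z - dot y z := by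
  simp [dot, sub_mul, sum_sub_distrib]

lemma smul_dot (c : ℝ) (x y : ι → ℝ) : dot (c • x) y = c * dot x y := by
  rw [dot_comm, dot_smul, dot_comm]

lemma sum_dot {σ : Type*} (s : Finset σ) (x : σ → ι → ℝ) (y : ι → ℝ) :
    dot (∑ a ∈ s, x a) y = ∑ a ∈ s, dot (x a) y := by
  simp only [dot, Finset.sum_apply, sum_mul]
  exact sum_comm

end linear

/-- An outer product as a square array. -/
def op (f g : Fin n → ℝ) : Fin n × Fin n → ℝ := fun q => f q.1 * g q.2

/-- A square array applied to a vector. -/
def mv (G : Fin n × Fin n → ℝ) (w : Fin n → ℝ) : Fin n → ℝ := fun i => ∑ b, G (i, b) * w b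

/-- The transpose of a square array applied to a vector. -/
def mvT (G : Fin n × Fin n → ℝ) (w : Fin n → ℝ) : Fin n → ℝ := fun i => ∑ a, G (a, i) * w a

/-- The bilinear form of a square array. -/
def bil (G : Fin n × Fin n → ℝ) (v w : Fin n → ℝ) : ℝ := dot (op v w) G

lemma dot_mv (G : Fin n × Fin n → ℝ) (z w : Fin n → ℝ) : dot z (mv G w) = bil G z w := by
  simp only [dot, mv, bil, op, mul_sum]
  rw [Fintype.sum_prod_type]
  exact sum_congr rfl fun a _ => sum_congr rfl fun b _ => by ring

lemma dot_mvT (G : Fin n × Fin n → ℝ) (z w : Fin n → ℝ) : dot z (mvT G w) = bil G w z := by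
  simp only [dot, mvT, bil, op, mul_sum]
  rw [Fintype.sum_prod_type, sum_comm]
  exact sum_congr rfl fun a _ => sum_congr rfl fun b _ => by ring

lemma mv_op (f g w : Fin n → ℝ) : mv (op f g) w = dot g w • f := by
  funext i
  simp only [mv, op, dot, Pi.smul_apply, smul_eq_mul, sum_mul]
  exact sum_congr rfl fun b _ => by ring

lemma mvT_op (f g w : Fin n → ℝ) : mvT (op f g) w = dot f w • g := by
  funext i
  simp only [mvT, op, dot, Pi.smul_apply, smul_eq_mul, sum_mul]
  exact sum_congr rfl fun b _ => by ring

lemma bil_op (f g v w : Fin n → ℝ) : bil (op f g) v w = dot f v * dot g w := by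
  simp only [bil, dot, op, sum_mul_sum]
  rw [Fintype.sum_prod_type]
  exact sum_congr rfl fun a _ => sum_congr rfl fun b _ => by ring

/-- `mv` as a linear map in the array. -/
def mvL (w : Fin n → ℝ) : (Fin n × Fin n → ℝ) →ₗ[ℝ] Fin n → ℝ where
  toFun G := mv G w
  map_add' G H := by funext i; simp [mv, add_mul, sum_add_distrib]
  map_smul' c G := by funext i; simp [mv, mul_sum, mul_assoc]

/-- `mvT` as a linear map in the array. -/
def mvTL (w : Fin n → ℝ) : (Fin n × Fin n → ℝ) →ₗ[ℝ] Fin n → ℝ where
  toFun G := mvT G w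
  map_add' G H := by funext i; simp [mvT, add_mul, sum_add_distrib]
  map_smul' c G := by funext i; simp [mvT, mul_sum, mul_assoc]

/-- The Gaussian vector read off along `u l`. -/
noncomputable def rr (u : Fin k → Fin n → ℝ) (l : Fin k) (G : Fin n × Fin n → ℝ) : Fin n → ℝ :=
  (√2)⁻¹ • (mv G (u l) + mvT G (u l)) - ((√2 - 1) * bil G (u l) (u l)) • u l
    - √2 • ∑ p ∈ univ.filter (· < l), bil G (u p) (u l) • u p

/-- The adjoint of `rr`. -/
noncomputable def tt (u : Fin k → Fin n → ℝ) (l : Fin k) (z : Fin n → ℝ) : Fin n × Fin n → ℝ :=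
  (√2)⁻¹ • (op z (u l) + op (u l) z) - ((√2 - 1) * dot (u l) z) • op (u l) (u l)
    - √2 • ∑ p ∈ univ.filter (· < l), dot (u p) z • op (u p) (u l)

/-- Orthogonal vectors of length one or zero. -/
structure OrthoFam (u : Fin k → Fin n → ℝ) : Prop where
  ortho : ∀ p l, p ≠ l → dot (u p) (u l) = 0
  unit : ∀ l, u l = 0 ∨ dot (u l) (u l) = 1

lemma op_zero_left (g : Fin n → ℝ) : op 0 g = 0 := by funext q; simp [op]

lemma op_zero_right (f : Fin n → ℝ) : op f 0 = 0 := by funext q; simp [op]

lemma bil_zero_left (G : Fin n × Fin n → ℝ) (w : Fin n → ℝ) : bil G 0 w = 0 := by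
  simp [bil, op_zero_left, dot]

lemma bil_zero_right (G : Fin n × Fin n → ℝ) (w : Fin n → ℝ) : bil G w 0 = 0 := by
  simp [bil, op_zero_right, dot]

lemma tt_zero {u : Fin k → Fin n → ℝ} {l : Fin k} (h : u l = 0) (z : Fin n → ℝ) :
    tt u l z = 0 := by
  simp [tt, h, op_zero_left, op_zero_right]

lemma rr_zero {u : Fin k → Fin n → ℝ} {l : Fin k} (h : u l = 0) (G : Fin n × Fin n → ℝ) :
    rr u l G = 0 := by
  have e1 : mv G 0 = 0 := by funext i; simp [mv]
  have e2 : mvT G 0 = 0 := by funext i; simp [mvT]
  simp [rr, h, e1, e2, bil_zero_right]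

/-- `rr` as a linear map. -/
noncomputable def rrL (u : Fin k → Fin n → ℝ) (l : Fin k) :
    (Fin n × Fin n → ℝ) →ₗ[ℝ] Fin n → ℝ where
  toFun := rr u l
  map_add' G H := by
    simp only [rr, show mv (G + H) (u l) = mv G (u l) + mv H (u l) from map_add (mvL (u l)) G H,
      show mvT (G + H) (u l) = mvT G (u l) + mvT H (u l) from map_add (mvTL (u l)) G H,
      bil, dot_add, add_smul, sum_add_distrib, smul_add, mul_add]
    abel
  map_smul' c G := by
    simp only [rr, show mv (c • G) (u l) = c • mv G (u l) from map_smul (mvL (u l)) c G,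
      show mvT (c • G) (u l) = c • mvT G (u l) from map_smul (mvTL (u l)) c G,
      bil, dot_smul, RingHom.id_apply, smul_sub, smul_add, smul_smul, smul_sum]
    congr 2
    · congr 1 <;> ring_nf
    · ring_nf
    · funext p; ring_nf

/-- `tt` is the adjoint of `rr`. -/
lemma tt_adjoint (u : Fin k → Fin n → ℝ) (l : Fin k) (z : Fin n → ℝ) (G : Fin n × Fin n → ℝ) :
    dot (tt u l z) G = dot z (rr u l G) := by
  simp only [tt, rr, sub_dot, smul_dot, add_dot, sum_dot, dot_sub, dot_smul, dot_add,
    dot_finset_sum, dot_mv, dot_mvT, dot_comm z (u _)]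
  simp only [bil]
  congr 1
  · ring
  · congr 1
    exact sum_congr rfl fun p _ => by ring

/-- The value of `rr` on an outer product. -/
lemma rr_op (u : Fin k → Fin n → ℝ) (l : Fin k) (f g : Fin n → ℝ) :
    rr u l (op f g) = (√2)⁻¹ • (dot g (u l) • f + dot f (u l) • g)
      - ((√2 - 1) * (dot f (u l) * dot g (u l))) • u l
      - √2 • ∑ p ∈ univ.filter (· < l), (dot f (u p) * dot g (u l)) • u p := by
  simp only [rr, mv_op, mvT_op, bil_op]

/-- Reading back what was glued. -/
theorem rr_tt {u : Fin k → Fin n → ℝ} (hu : OrthoFam u) (l q : Fin k) (z : Fin n → ℝ) :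
    rr u l (tt u q z) = if l = q then dot (u l) (u l) • z else 0 := by
  rcases hu.unit l with hl | hl
  · rw [rr_zero hl]; split_ifs <;> simp [hl, dot]
  have e : rr u l (tt u q z) = (√2)⁻¹ • (rr u l (op z (u q)) + rr u l (op (u q) z))
      - ((√2 - 1) * dot (u q) z) • rr u l (op (u q) (u q))
      - √2 • ∑ p ∈ univ.filter (· < q), dot (u p) z • rr u l (op (u p) (u q)) := by
    show rrL u l _ = _
    simp only [tt, map_sub, map_smul, map_add, map_sum]
    rfl
  have h2 : √2 * √2 = 2 := mul_self_sqrt zero_le_two
  have h3 : (√2)⁻¹ = √2 / 2 := by field_simp; linarith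
  set c := dot z (u l)
  have hc : dot (u l) z = c := dot_comm _ _
  set F := univ.filter (· < l)
  rw [e]
  rcases eq_or_ne l q with rfl | hne
  · rw [if_pos rfl, hl, one_smul]
    have s1 : ∀ p ∈ F, dot (u p) (u l) = 0 := fun p hp => hu.ortho p l (mem_filter.1 hp).2.ne
    have s2 : ∀ p ∈ F, dot (u l) (u p) = 0 := fun p hp => by rw [dot_comm]; exact s1 p hp
    have hA : rr u l (op z (u l)) = (√2)⁻¹ • (z + c • u l) - ((√2 - 1) * c) • u l
        - √2 • ∑ p ∈ F, dot z (u p) • u p := by
      simp only [rr_op, hl, one_smul, mul_one, F, c]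
    have hB : rr u l (op (u l) z) = (√2)⁻¹ • (c • u l + z) - ((√2 - 1) * c) • u l := by
      rw [rr_op, sum_eq_zero fun p hp => by rw [s2 p hp, zero_mul, zero_smul], smul_zero, sub_zero,
        hl, one_smul, one_mul]
    have hC : rr u l (op (u l) (u l)) = ((√2)⁻¹ * 2 - (√2 - 1)) • u l := by
      rw [rr_op, sum_eq_zero fun p hp => by rw [s2 p hp, zero_mul, zero_smul], smul_zero, sub_zero,
        hl, one_smul, mul_one, mul_one, ← two_smul ℝ (u l), smul_smul, ← sub_smul]
    have hD : ∀ p ∈ F, dot (u p) z • rr u l (op (u p) (u l))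
        = ((√2)⁻¹ - √2) • (dot z (u p) • u p) := fun p hp => by
      have e1 : ∑ r ∈ F, (dot (u p) (u r) * dot (u l) (u l)) • u r = u p := by
        rw [sum_eq_single p
          (fun r _ hr => by rw [hu.ortho p r hr.symm, zero_mul, zero_smul])
          (fun h => absurd hp h)]
        rcases hu.unit p with h | h
        · simp [h]
        · rw [h, hl, one_mul, one_smul]
      rw [rr_op, e1, s1 p hp, hl]
      simp only [zero_mul, mul_zero, zero_smul, sub_zero, one_smul, add_zero]
      rw [← sub_smul, dot_comm (u p) z, smul_comm]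
    rw [hA, hB, hC, hc, sum_congr rfl hD, ← smul_sum]
    set W := ∑ p ∈ F, dot z (u p) • u p
    funext i
    simp only [Pi.sub_apply, Pi.add_apply, Pi.smul_apply, smul_eq_mul, h3]
    linear_combination (z i / 2 - (c * u l i) / 2) * h2
  · rw [if_neg hne]
    have hql : dot (u q) (u l) = 0 := hu.ortho q l hne.symm
    have hA : rr u l (op z (u q)) = ((√2)⁻¹ * c) • u q := by
      rw [rr_op, sum_eq_zero fun p _ => by rw [hql, mul_zero, zero_smul], smul_zero, sub_zero,
        hql, mul_zero, mul_zero, zero_smul, zero_smul, zero_add, sub_zero, smul_smul]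
    have hC : rr u l (op (u q) (u q)) = 0 := by
      rw [rr_op, sum_eq_zero fun p _ => by rw [hql, mul_zero, zero_smul], hql]
      simp
    rcases hne.lt_or_gt with hlt | hlt
    · have hB : rr u l (op (u q) z) = ((√2)⁻¹ * c) • u q := by
        rw [rr_op, sum_eq_zero fun p hp => by
            rw [hu.ortho q p ((mem_filter.1 hp).2.trans hlt).ne', zero_mul, zero_smul],
          smul_zero, sub_zero, hql, zero_mul, mul_zero, zero_smul, zero_smul, add_zero, sub_zero,
          smul_smul]
      have hD : ∑ p ∈ univ.filter (· < q), dot (u p) z • rr u l (op (u p) (u q))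
          = ((√2)⁻¹ * c) • u q := by
        rw [sum_eq_single l]
        · rw [rr_op, sum_eq_zero fun p _ => by rw [hql, mul_zero, zero_smul], smul_zero, sub_zero,
            hql, hl]
          simp only [mul_zero, zero_smul, one_smul, zero_add, sub_zero]
          rw [smul_smul, hc, mul_comm]
        · intro p _ hp
          rw [rr_op, sum_eq_zero fun r _ => by rw [hql, mul_zero, zero_smul], hql,
            hu.ortho p l hp]
          simp
        · exact fun h => absurd (mem_filter.2 ⟨mem_univ l, hlt⟩) h
      rw [hA, hB, hC, hD]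
      funext i
      simp only [Pi.sub_apply, Pi.add_apply, Pi.smul_apply, smul_eq_mul, h3, Pi.zero_apply]
      linear_combination 0 * h2
    · have hB : rr u l (op (u q) z)
          = ((√2)⁻¹ * c - √2 * (dot (u q) (u q) * c)) • u q := by
        rw [rr_op, sum_eq_single q (fun p _ hp => by rw [hu.ortho q p hp.symm, zero_mul, zero_smul])
            (fun h => absurd (mem_filter.2 ⟨mem_univ q, hlt⟩) h),
          hql, zero_mul, mul_zero, zero_smul, zero_smul, add_zero, sub_zero, smul_smul, smul_smul,
          ← sub_smul]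
      have hD : ∑ p ∈ univ.filter (· < q), dot (u p) z • rr u l (op (u p) (u q)) = 0 :=
        sum_eq_zero fun p hp => by
          rw [rr_op, sum_eq_zero fun r _ => by rw [hql, mul_zero, zero_smul], hql,
            hu.ortho p l ((mem_filter.1 hp).2.trans hlt).ne]
          simp
      rw [hA, hB, hC, hD]
      rcases hu.unit q with h | h
      · simp [h]
      · rw [h]
        funext i
        simp only [Pi.sub_apply, Pi.add_apply, Pi.smul_apply, smul_eq_mul, h3, Pi.zero_apply,
          smul_zero, sub_zero]
        linear_combination 0 * h2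

section continuity

variable {α : Type*} [TopologicalSpace α]

@[fun_prop]
lemma continuous_dot {ι : Type*} [Fintype ι] {f g : α → ι → ℝ} (hf : Continuous f)
    (hg : Continuous g) : Continuous fun a => dot (f a) (g a) :=
  continuous_finsetSum _ fun i _ =>
    ((continuous_apply i).comp hf).mul ((continuous_apply i).comp hg)

@[fun_prop]
lemma continuous_op {f g : α → Fin n → ℝ} (hf : Continuous f) (hg : Continuous g) :
    Continuous fun a => op (f a) (g a) :=
  continuous_pi fun q => ((continuous_apply q.1).comp hf).mul ((continuous_apply q.2).comp hg)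

lemma continuous_rr (l : Fin k) {u : α → Fin k → Fin n → ℝ} {G : α → Fin n × Fin n → ℝ}
    (hu : Continuous u) (hG : Continuous G) : Continuous fun a => rr (u a) l (G a) := by
  have hup : ∀ p, Continuous fun a => u a p := fun p => (continuous_apply p).comp hu
  have hb : ∀ p q, Continuous fun a => bil (G a) (u a p) (u a q) := fun p q =>
    continuous_dot (continuous_op (hup p) (hup q)) hG
  have hm : Continuous fun a => mv (G a) (u a l) + mvT (G a) (u a l) := by
    refine Continuous.add (continuous_pi fun i => ?_) (continuous_pi fun i => ?_)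
    · exact continuous_finsetSum _ fun b _ =>
        ((continuous_apply _).comp hG).mul ((continuous_apply b).comp (hup l))
    · exact continuous_finsetSum _ fun b _ =>
        ((continuous_apply _).comp hG).mul ((continuous_apply b).comp (hup l))
  simp only [rr]
  exact ((hm.const_smul (√2)⁻¹).sub ((continuous_const.mul (hb l l)).smul (hup l))).sub
    ((continuous_finsetSum _ fun p _ => (hb p l).smul (hup p)).const_smul (√2))

lemma continuous_tt (l : Fin k) {u : α → Fin k → Fin n → ℝ} {z : α → Fin n → ℝ}
    (hu : Continuous u) (hz : Continuous z) : Continuous fun a => tt (u a) l (z a) := by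
  have hup : ∀ p, Continuous fun a => u a p := fun p => (continuous_apply p).comp hu
  have hb : ∀ p, Continuous fun a => dot (u a p) (z a) := fun p => continuous_dot (hup p) hz
  simp only [tt]
  exact ((((continuous_op hz (hup l)).add (continuous_op (hup l) hz)).const_smul (√2)⁻¹).sub
    ((continuous_const.mul (hb l)).smul (continuous_op (hup l) (hup l)))).sub
    ((continuous_finsetSum _ fun p _ =>
      (hb p).smul (continuous_op (hup p) (hup l))).const_smul (√2))

end continuity

/-- A linear map whose adjoint is a right inverse preserves the standard Gaussian law. -/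
lemma gauss_map_adjointInv {κ ι : Type*} [Fintype κ] [Fintype ι] [DecidableEq ι]
    (L : (κ → ℝ) → ι → ℝ) (L' : (ι → ℝ) → κ → ℝ) (hadj : ∀ x Y, dot (L x) Y = dot x (L' Y))
    (hinv : ∀ Y, L (L' Y) = Y) : (gauss κ).map L = gauss ι := by
  set e : ι → ι → ℝ := fun i => Pi.single i 1
  have hdot : ∀ (v : ι → ℝ) i, dot v (e i) = v i := fun v i => by
    simp [dot, e, Pi.single_apply]
  have hL : L = rowMap fun i => L' (e i) := by
    funext x i
    rw [← hdot (L x) i, hadj]
    exact sum_congr rfl fun k _ => mul_comm _ _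
  rw [hL]
  refine gauss_map_rowMap _ fun i j => ?_
  have : dot (L' (e i)) (L' (e j)) = if i = j then 1 else 0 := by
    rw [← hadj, hinv, hdot]
    simp only [e, Pi.single_apply]
    exact if_congr eq_comm rfl rfl
  exact this

/-- The part of an array that the family does not see. -/
noncomputable def resid (u : Fin k → Fin n → ℝ) (G : Fin n × Fin n → ℝ) : Fin n × Fin n → ℝ :=
  G - ∑ l, tt u l (rr u l G)

/-- Vectors `z` glued along the family to the unseen part of `G`. -/
noncomputable def gluef (u : Fin k → Fin n → ℝ) (z : Fin k → Fin n → ℝ)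
    (G : Fin n × Fin n → ℝ) : Fin n × Fin n → ℝ :=
  (∑ l, tt u l (z l)) + resid u G

/-- `tt` as a linear map. -/
noncomputable def ttL (u : Fin k → Fin n → ℝ) (l : Fin k) :
    (Fin n → ℝ) →ₗ[ℝ] Fin n × Fin n → ℝ where
  toFun := tt u l
  map_add' x y := by
    funext q
    simp only [tt, op, dot_add, add_smul, sum_add_distrib, Pi.add_apply, Pi.sub_apply,
      Pi.smul_apply, Finset.sum_apply, smul_eq_mul]
    ring
  map_smul' c x := by
    funext q
    simp only [tt, op, dot_smul, Pi.add_apply, Pi.sub_apply, Pi.smul_apply, Finset.sum_apply,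
      smul_eq_mul, RingHom.id_apply, mul_assoc, ← mul_sum]
    ring

lemma tt_unit {u : Fin k → Fin n → ℝ} (hu : OrthoFam u) (l : Fin k) (z : Fin n → ℝ) :
    tt u l (dot (u l) (u l) • z) = tt u l z := by
  rcases hu.unit l with h | h
  · rw [tt_zero h, tt_zero h]
  · rw [h, one_smul]

lemma rr_gluef {u : Fin k → Fin n → ℝ} (hu : OrthoFam u) {l : Fin k} (hl : dot (u l) (u l) = 1)
    (z : Fin k → Fin n → ℝ) (G : Fin n × Fin n → ℝ) : rr u l (gluef u z G) = z l := by
  have h : ∀ w : Fin k → Fin n → ℝ, rr u l (∑ q, tt u q (w q)) = w l := fun w => by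
    show rrL u l _ = _
    rw [map_sum]
    simp only [show ∀ x, rrL u l x = rr u l x from fun _ => rfl, rr_tt hu, hl, one_smul]
    simp
  show rrL u l _ = _
  rw [gluef, resid, map_add, map_sub]
  simp only [show ∀ x, rrL u l x = rr u l x from fun _ => rfl, h]
  abel

/-- Off the span the glued array is the fresh one. -/
lemma bil_gluef (u z : Fin k → Fin n → ℝ) (G : Fin n × Fin n → ℝ) (b : Fin n → ℝ)
    (hb : ∀ l, dot (u l) b = 0) : bil (gluef u z G) b b = bil G b b := by
  have h : ∀ l w, dot (op b b) (tt u l w) = 0 := by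
    intro l w
    rw [dot_comm, tt_adjoint]
    have e : rr u l (op b b) = 0 := by
      rw [rr_op, dot_comm b, hb l]
      simp
    rw [e, dot_zero_right]
  simp only [bil, gluef, resid, dot_add, dot_sub, dot_finset_sum, h, sum_const_zero, zero_add,
    sub_zero]

/-- The first `j` vectors of a family. -/
def cut (j : ℕ) (u : Fin k → Fin n → ℝ) : Fin k → Fin n → ℝ :=
  fun l => if (l : ℕ) < j then u l else 0

lemma cut_ortho {u : Fin k → Fin n → ℝ} (hu : OrthoFam u) (j : ℕ) : OrthoFam (cut j u) := by
  constructor
  · intro p l h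
    simp only [cut]
    split_ifs <;> first | exact hu.ortho p l h | simp [dot]
  · intro l
    simp only [cut]
    split_ifs
    · exact hu.unit l
    · exact Or.inl rfl

lemma tt_cut {u : Fin k → Fin n → ℝ} {j : ℕ} {l : Fin k} (h : (l : ℕ) < j) (z : Fin n → ℝ) :
    tt (cut j u) l z = tt u l z := by
  have : ∀ p ∈ univ.filter (· < l), cut j u p = u p := fun p hp =>
    if_pos ((Fin.lt_def.1 (mem_filter.1 hp).2).trans h)
  simp only [tt, show cut j u l = u l from if_pos h]
  rw [sum_congr rfl fun p hp => by rw [this p hp]]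

lemma rr_cut {u : Fin k → Fin n → ℝ} {j : ℕ} {l : Fin k} (h : (l : ℕ) < j)
    (G : Fin n × Fin n → ℝ) : rr (cut j u) l G = rr u l G := by
  have : ∀ p ∈ univ.filter (· < l), cut j u p = u p := fun p hp =>
    if_pos ((Fin.lt_def.1 (mem_filter.1 hp).2).trans h)
  simp only [rr, show cut j u l = u l from if_pos h]
  rw [sum_congr rfl fun p hp => by rw [this p hp]]

/-- One more vector: glue `w` along `u j` inside the unseen part. -/
lemma gluef_cut_succ {u : Fin k → Fin n → ℝ} (hu : OrthoFam u) (j : Fin k)
    (z : Fin k → Fin n → ℝ) (G : Fin n × Fin n → ℝ) :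
    gluef (cut (j + 1) u) z G
      = gluef (cut j u) z (tt u j (z j) + (G - tt u j (rr u j G))) := by
  have hsplit : ∀ w : Fin k → Fin n → ℝ, ∑ l, tt (cut (j + 1) u) l (w l)
      = (∑ l, tt (cut j u) l (w l)) + tt u j (w j) := by
    intro w
    rw [← sum_erase_add _ _ (mem_univ j), ← sum_erase_add (s := univ)
      (fun l => tt (cut j u) l (w l)) (mem_univ j), tt_cut (Nat.lt_succ_self _),
      tt_zero (u := cut j u) (if_neg (lt_irrefl _)), add_zero]
    congr 1
    refine sum_congr rfl fun l hl => ?_
    have hlj : (l : ℕ) ≠ j := fun h => ne_of_mem_erase hl (Fin.ext h)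
    rcases lt_or_ge (l : ℕ) j with h | h
    · rw [tt_cut h, tt_cut (h.trans (Nat.lt_succ_self _))]
    · rw [tt_zero (u := cut j u) (if_neg (by omega)),
        tt_zero (u := cut (j + 1) u) (if_neg (by omega))]
  have hr : ∀ l, tt (cut j u) l (rr (cut j u) l
      (tt u j (z j) + (G - tt u j (rr u j G)))) = tt (cut j u) l (rr (cut j u) l G) := by
    intro l
    rcases lt_or_ge (l : ℕ) j with h | h
    · have hne : l ≠ j := fun e => by simp [e] at h
      congr 1
      show rrL (cut j u) l _ = _
      rw [map_add, map_sub]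
      simp only [show ∀ x, rrL (cut j u) l x = rr (cut j u) l x from fun _ => rfl, rr_cut h,
        rr_tt hu, if_neg hne]
      abel
    · rw [tt_zero (u := cut j u) (if_neg (by omega)), tt_zero (u := cut j u) (if_neg (by omega))]
  have hr' : ∀ l, tt (cut (j + 1) u) l (rr (cut (j + 1) u) l G)
      = tt (cut (j + 1) u) l (rr u l G) := fun l => by
    rcases lt_or_ge (l : ℕ) (j + 1) with h | h
    · rw [rr_cut h]
    · rw [tt_zero (u := cut (j + 1) u) (if_neg (by omega)),
        tt_zero (u := cut (j + 1) u) (if_neg (by omega))]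
  have hr'' : ∀ l, tt (cut j u) l (rr u l G) = tt (cut j u) l (rr (cut j u) l G) := fun l => by
    rcases lt_or_ge (l : ℕ) j with h | h
    · rw [rr_cut h]
    · rw [tt_zero (u := cut j u) (if_neg (by omega)), tt_zero (u := cut j u) (if_neg (by omega))]
  simp only [gluef, resid, hr, hr', hsplit z, hsplit fun l => rr u l G, hr'']
  abel

/-- The inner step preserves the Gaussian law. -/
lemma step_law {u : Fin k → Fin n → ℝ} (hu : OrthoFam u) (j : Fin k) :
    ((gauss (Fin n)).prod (gauss (Fin n × Fin n))).map
        (fun p => tt u j p.1 + (p.2 - tt u j (rr u j p.2)))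
      = gauss (Fin n × Fin n) := by
  set L : (Fin n ⊕ Fin n × Fin n → ℝ) → Fin n × Fin n → ℝ := fun x =>
    tt u j (fun i => x (.inl i)) + ((fun q => x (.inr q)) - tt u j (rr u j fun q => x (.inr q)))
  have h : (gauss (Fin n ⊕ Fin n × Fin n)).map L = gauss (Fin n × Fin n) := by
    refine gauss_map_adjointInv L
      (fun Y => Sum.elim (rr u j Y) (Y - tt u j (rr u j Y))) (fun x Y => ?_) fun Y => ?_
    · have e : ∀ (v : Fin n → ℝ) (V : Fin n × Fin n → ℝ),
          dot x (Sum.elim v V) = dot (fun i => x (.inl i)) v + dot (fun q => x (.inr q)) V :=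
        fun v V => by simp [dot, Fintype.sum_sum_type]
      simp only [L, e, add_dot, sub_dot, dot_sub, tt_adjoint]
      rw [dot_comm (fun q => x (.inr q)) (tt u j _), tt_adjoint, dot_comm (rr u j Y)]
    · simp only [L, Sum.elim_inl, Sum.elim_inr]
      show tt u j (rr u j Y) + ((Y - tt u j (rr u j Y)) - ttL u j (rrL u j (Y - tt u j (rr u j Y))))
        = Y
      rw [map_sub, map_sub]
      simp only [show ∀ x, ttL u j x = tt u j x from fun _ => rfl,
        show ∀ x, rrL u j x = rr u j x from fun _ => rfl, rr_tt hu, if_true, tt_unit hu]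
      abel
  have hs := measurePreserving_sumPiEquivProdPi_symm
    (fun _ : Fin n ⊕ Fin n × Fin n => gaussianReal 0 1)
  have e : (fun p : (Fin n → ℝ) × (Fin n × Fin n → ℝ) =>
      tt u j p.1 + (p.2 - tt u j (rr u j p.2)))
      = L ∘ (MeasurableEquiv.sumPiEquivProdPi fun _ : Fin n ⊕ Fin n × Fin n => ℝ).symm := by
    funext p
    simp [L, MeasurableEquiv.sumPiEquivProdPi, Equiv.sumPiEquivProdPi]
  have hm : Measurable L := by
    have h2 : Continuous fun x : Fin n ⊕ Fin n × Fin n → ℝ => fun q => x (.inr q) := by fun_prop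
    exact ((continuous_tt j continuous_const (by fun_prop)).add
      (h2.sub (continuous_tt j continuous_const (continuous_rr j continuous_const h2)))).measurable
  rw [e, ← Measure.map_map hm (MeasurableEquiv.measurable _)]
  erw [hs.map_eq]
  exact h

/-- Replacing one of finitely many independent vectors by a fresh one. -/
lemma update_law {α : Type*} [MeasurableSpace α] (μ : Measure α) [IsProbabilityMeasure μ]
    (j : Fin k) :
    MeasurePreserving (fun p : (Fin k → α) × α => update p.1 j p.2)
      ((Measure.pi fun _ : Fin k => μ).prod μ) (Measure.pi fun _ : Fin k => μ) := by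
  refine ⟨measurable_update' (a := j), (Measure.pi_eq fun s hs => ?_).symm⟩
  rw [Measure.map_apply measurable_update' (MeasurableSet.univ_pi hs)]
  have e : (fun p : (Fin k → α) × α => update p.1 j p.2) ⁻¹' Set.univ.pi s
      = (Set.univ.pi (update s j Set.univ)) ×ˢ s j := by
    ext p
    simp only [Set.mem_preimage, Set.mem_univ_pi, Set.mem_prod]
    constructor
    · intro h
      refine ⟨fun i => ?_, by simpa using h j⟩
      rcases eq_or_ne i j with rfl | hi
      · simp
      · simpa [hi] using h i
    · intro h i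
      rcases eq_or_ne i j with rfl | hi
      · simpa using h.2
      · simpa [hi] using h.1 i
  rw [e, Measure.prod_prod, Measure.pi_pi, ← prod_erase_mul univ _ (mem_univ j),
    ← prod_erase_mul univ (fun i => μ (s i)) (mem_univ j), update_self, measure_univ, mul_one]
  congr 1
  exact prod_congr rfl fun i hi => by rw [update_of_ne (ne_of_mem_erase hi)]

/-- The inner step, as a map. -/
noncomputable def inner' (u : Fin k → Fin n → ℝ) (j : Fin k)
    (p : (Fin n → ℝ) × (Fin n × Fin n → ℝ)) : Fin n × Fin n → ℝ :=
  tt u j p.1 + (p.2 - tt u j (rr u j p.2))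

lemma measurable_inner' {u : (Fin k → Fin n → ℝ) → Fin k → Fin n → ℝ} (hum : Measurable u)
    (j : Fin k) : Measurable (uncurry fun z => inner' (u z) j) := by
  let α := (Fin k → Fin n → ℝ) × (Fin n → ℝ) × (Fin n × Fin n → ℝ)
  have h1 : Continuous fun q : α => q.2.1 := continuous_fst.comp continuous_snd
  have h2 : Continuous fun q : α => q.2.2 := continuous_snd.comp continuous_snd
  have h0 : Continuous fun q : α => q.1 := continuous_fst
  have hr : Continuous fun q : α => rr q.1 j q.2.2 := continuous_rr j h0 h2
  have hg : Continuous fun q : α => inner' q.1 j q.2 := by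
    simp only [inner']
    exact (continuous_tt j h0 h1).add (h2.sub (continuous_tt j h0 hr))
  have e : (uncurry fun z => inner' (u z) j)
      = (fun q : α => inner' q.1 j q.2) ∘ fun p => (u p.1, p.2) := rfl
  rw [e]
  exact hg.measurable.comp ((hum.comp measurable_fst).prodMk measurable_snd)

lemma continuous_gluef :
    Continuous fun q : (Fin k → Fin n → ℝ) × (Fin k → Fin n → ℝ) × (Fin n × Fin n → ℝ) =>
      gluef q.1 q.2.1 q.2.2 := by
  let α := (Fin k → Fin n → ℝ) × (Fin k → Fin n → ℝ) × (Fin n × Fin n → ℝ)
  have h0 : Continuous fun q : α => q.1 := continuous_fst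
  have h1 : ∀ l, Continuous fun q : α => q.2.1 l := fun l =>
    (continuous_apply l).comp (continuous_fst.comp continuous_snd)
  have h2 : Continuous fun q : α => q.2.2 := continuous_snd.comp continuous_snd
  have hr : ∀ l, Continuous fun q : α => rr q.1 l q.2.2 := fun l => continuous_rr l h0 h2
  have s1 : Continuous fun q : α => ∑ l, tt q.1 l (q.2.1 l) :=
    continuous_finsetSum _ fun l _ => continuous_tt l h0 (h1 l)
  have s2 : Continuous fun q : α => ∑ l, tt q.1 l (rr q.1 l q.2.2) :=
    continuous_finsetSum _ fun l _ => continuous_tt l h0 (hr l)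
  have s3 : Continuous fun q : α => (∑ l, tt q.1 l (q.2.1 l))
      + (q.2.2 - ∑ l, tt q.1 l (rr q.1 l q.2.2)) := s1.add (h2.sub s2)
  simp only [gluef, resid]
  exact s3

lemma measurable_gluef {u : (Fin k → Fin n → ℝ) → Fin k → Fin n → ℝ} (hum : Measurable u)
    (j : ℕ) : Measurable fun p : (Fin k → Fin n → ℝ) × (Fin n × Fin n → ℝ) =>
      gluef (cut j (u p.1)) p.1 p.2 := by
  have hc : Measurable fun p : (Fin k → Fin n → ℝ) × (Fin n × Fin n → ℝ) =>
      cut j (u p.1) := by
    refine measurable_pi_lambda _ fun l => ?_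
    simp only [cut]
    split_ifs
    · exact (measurable_pi_apply l).comp (hum.comp measurable_fst)
    · exact measurable_const
  have hg := (continuous_gluef (k := k) (n := n)).measurable
  generalize hG : (gluef : (Fin k → Fin n → ℝ) → (Fin k → Fin n → ℝ) →
    (Fin n × Fin n → ℝ) → Fin n × Fin n → ℝ) = H at hg ⊢
  exact Measurable.comp (g := fun q => H q.1 q.2.1 q.2.2) hg
    (hc.prodMk (measurable_fst.prodMk measurable_snd))

lemma cut_congr {u v : Fin k → Fin n → ℝ} {j : ℕ} (h : ∀ l : Fin k, (l : ℕ) < j → u l = v l) :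
    cut j u = cut j v :=
  funext fun l => by simp only [cut]; split_ifs with hl; exacts [h l hl, rfl]

/-- The pointwise identity behind the induction. -/
lemma gluef_update {u : (Fin k → Fin n → ℝ) → Fin k → Fin n → ℝ} (hu : ∀ z, OrthoFam (u z))
    (hpast : ∀ z (j l : Fin k) (w : Fin n → ℝ), l ≤ j → u (update z j w) l = u z l) (J : Fin k)
    (z : Fin k → Fin n → ℝ) (w : Fin n → ℝ) (G : Fin n × Fin n → ℝ) :
    gluef (cut (J + 1) (u (update z J w))) (update z J w) G
      = gluef (cut J (u z)) z (inner' (u z) J (w, G)) := by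
  have e1 : ∀ l, l ≤ J → u (update z J w) l = u z l := fun l hl => hpast z J l w hl
  have ec : cut J (u (update z J w)) = cut J (u z) :=
    cut_congr fun l hl => e1 l (Fin.le_def.2 hl.le)
  have ec1 : cut (J + 1) (u (update z J w)) = cut (J + 1) (u z) :=
    cut_congr fun l hl => e1 l (Fin.le_def.2 (Nat.lt_succ_iff.1 hl))
  have et : ∀ x, tt (u (update z J w)) J x = tt (u z) J x := fun x => by
    rw [← tt_cut (u := u (update z J w)) (Nat.lt_succ_self (J : ℕ)) x, ec1,
      tt_cut (Nat.lt_succ_self (J : ℕ))]
  have er : rr (u (update z J w)) J G = rr (u z) J G := by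
    rw [← rr_cut (u := u (update z J w)) (Nat.lt_succ_self (J : ℕ)) G, ec1,
      rr_cut (Nat.lt_succ_self (J : ℕ))]
  rw [gluef_cut_succ (hu _) J, update_self, et, er, et, ec]
  simp only [gluef, inner']
  congr 1
  refine sum_congr rfl fun l _ => ?_
  rcases lt_or_ge (l : ℕ) J with h | h
  · rw [update_of_ne (fun e => by simp [e] at h)]
  · rw [tt_zero (u := cut J (u z)) (if_neg (by omega)),
      tt_zero (u := cut J (u z)) (if_neg (by omega))]

/-- The law of the adaptively glued array. -/
theorem adaptive_law (u : (Fin k → Fin n → ℝ) → Fin k → Fin n → ℝ) (hum : Measurable u)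
    (hu : ∀ z, OrthoFam (u z))
    (hpast : ∀ z (j l : Fin k) (w : Fin n → ℝ), l ≤ j → u (update z j w) l = u z l) :
    ((Measure.pi fun _ : Fin k => gauss (Fin n)).prod (gauss (Fin n × Fin n))).map
        (fun p => gluef (u p.1) p.1 p.2)
      = gauss (Fin n × Fin n) := by
  set μz := Measure.pi fun _ : Fin k => gauss (Fin n)
  set μG := gauss (Fin n × Fin n)
  have key : ∀ j, j ≤ k → (μz.prod μG).map (fun p => gluef (cut j (u p.1)) p.1 p.2) = μG := by
    intro j
    induction j with
    | zero =>
      intro _
      have e : (fun p : (Fin k → Fin n → ℝ) × (Fin n × Fin n → ℝ) =>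
          gluef (cut 0 (u p.1)) p.1 p.2) = Prod.snd := by
        funext p
        have : cut 0 (u p.1) = 0 := by funext l; simp [cut]
        simp [gluef, resid, this, tt_zero]
      rw [e, Measure.map_snd_prod, measure_univ, one_smul]
    | succ j ih =>
      intro hj
      set J : Fin k := ⟨j, hj⟩
      have hP : MeasurePreserving (fun p => (p.1, inner' (u p.1) J p.2))
          (μz.prod ((gauss (Fin n)).prod μG)) (μz.prod μG) :=
        (MeasurePreserving.id μz).skew_product (measurable_inner' hum J)
          (ae_of_all _ fun z => step_law (hu z) J)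
      have hQ : MeasurePreserving (fun p => (update p.1 J p.2.1, p.2.2))
          (μz.prod ((gauss (Fin n)).prod μG)) (μz.prod μG) :=
        ((update_law (gauss (Fin n)) J).prod (MeasurePreserving.id μG)).comp
          (measurePreserving_prodAssoc μz (gauss (Fin n)) μG).symm
      rw [← hQ.map_eq, Measure.map_map (measurable_gluef hum _) hQ.measurable]
      conv_rhs => rw [← ih (by omega), ← hP.map_eq,
        Measure.map_map (measurable_gluef hum _) hP.measurable]
      congr 1
      funext p
      exact gluef_update hu hpast J p.1 p.2.1 p.2.2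
  have := key k le_rfl
  have e : ∀ z, cut k (u z) = u z := fun z => funext fun l => if_pos l.2
  simpa only [e] using this

end Vale.Agent.P150.Beta1
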