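import Mathlib
import Vale.Agent.P150.Edge
import Vale.Agent.P150.Beta1.GaussCompare

/-!
# Translations of a Gaussian vector and the Nishimori identities of one site

`nishimori`: for an odd observable the law of `g + a` may be reweighted by `tanh ⟨a, g + a⟩`.
The consequence used by state evolution is `E tanh γ' tanh γ = E tanh² γ'` when `γ'` is the less
informative of two fields, and the properties of `psi s = E tanh² (s + √s G)`.
-/

namespace Vale.Agent.P150.Beta1

open MeasureTheory ProbabilityTheory Finset Real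

variable {κ : Type*} [Fintype κ]

/-- Squared length. -/
def sqn (a : κ → ℝ) : ℝ := ∑ k, a k ^ 2

lemma sqn_nonneg (a : κ → ℝ) : 0 ≤ sqn a := sum_nonneg fun _ _ => sq_nonneg _

lemma lin_self (a : κ → ℝ) : lin a a = sqn a := sum_congr rfl fun _ _ => (sq _).symm

lemma lin_add_right (a g h : κ → ℝ) : lin a (g + h) = lin a g + lin a h := by
  simp only [lin, Pi.add_apply, mul_add, sum_add_distrib]

lemma continuous_tanh_real : Continuous tanh := by
  rw [show tanh = fun x => sinh x / cosh x from funext tanh_eq_sinh_div_cosh]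
  exact continuous_sinh.div₀ continuous_cosh fun x => (cosh_pos x).ne'

@[fun_prop]
lemma continuous_lin (a : κ → ℝ) : Continuous (lin a) := by unfold lin; fun_prop

/-- The density of a translate. -/
noncomputable def shiftW (a g : κ → ℝ) : ℝ := exp (lin a g - sqn a / 2)

lemma integrable_exp_lin (a : κ → ℝ) : Integrable (fun g => exp (lin a g)) (gauss κ) := by
  simp only [lin, exp_sum]
  exact Integrable.fintype_prod fun k => integrable_exp_mul_gaussianReal (a k)

lemma integrable_shiftW (a : κ → ℝ) : Integrable (shiftW a) (gauss κ) := by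
  have e : shiftW a = fun g => exp (-(sqn a / 2)) * exp (lin a g) := by
    funext g; rw [shiftW, ← exp_add]; ring_nf
  rw [e]
  exact (integrable_exp_lin a).const_mul _

lemma gauss_shift_real (v : ℝ) (s : Set ℝ) (hs : MeasurableSet s) :
    gaussianReal v 1 s
      = ENNReal.ofReal (∫ y in s, exp (v * y - v ^ 2 / 2) ∂(gaussianReal 0 1)) := by
  rw [gaussianReal_apply_eq_integral v one_ne_zero s, ← integral_indicator hs,
    ← integral_indicator hs, integral_gaussianReal_eq_integral_smul one_ne_zero]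
  congr 1
  refine integral_congr_ae (ae_of_all _ fun y => ?_)
  by_cases hy : y ∈ s
  · simp only [Set.indicator_of_mem hy, smul_eq_mul, gaussianPDFReal_def, NNReal.coe_one, mul_one,
      sub_zero, mul_assoc]
    rw [← exp_add]
    ring_nf
  · simp [Set.indicator_of_notMem hy]

/-- Cameron–Martin. -/
theorem gauss_map_add (a : κ → ℝ) :
    (gauss κ).map (fun g => g + a) = (gauss κ).withDensity fun g => ENNReal.ofReal (shiftW a g) := by
  have h := Measure.pi_map_pi (μ := fun _ : κ => gaussianReal 0 1) (f := fun k y => y + a k)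
    (fun k => (measurable_id.add_const _).aemeasurable)
  simp only [gaussianReal_map_add_const, zero_add] at h
  refine h.trans (Measure.pi_eq (μ := fun k => gaussianReal (a k) 1) fun s hs => ?_)
  have e : shiftW a = fun g => ∏ k, exp (a k * g k - a k ^ 2 / 2) := by
    funext g
    rw [← exp_sum, shiftW, lin, sqn, sum_sub_distrib, sum_div]
  rw [withDensity_apply _ (MeasurableSet.univ_pi hs),
    ← ofReal_integral_eq_lintegral_ofReal (integrable_shiftW a).restrict
      (ae_of_all _ fun g => (exp_pos _).le), gauss, Measure.restrict_pi_pi, e]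
  rw [integral_fintype_prod_eq_prod (fun k y => exp (a k * y - a k ^ 2 / 2)),
    ENNReal.ofReal_prod_of_nonneg fun k _ => integral_nonneg fun y => (exp_pos _).le]
  exact prod_congr rfl fun k _ => (gauss_shift_real (a k) (s k) (hs k)).symm

theorem integral_shift (a : κ → ℝ) {F : (κ → ℝ) → ℝ} (hF : Measurable F) :
    ∫ g, F (g + a) ∂gauss κ = ∫ g, shiftW a g * F g ∂gauss κ := by
  have hw : Measurable (shiftW a) :=
    measurable_exp.comp ((continuous_lin a).measurable.sub_const _)
  have h := integral_map (μ := gauss κ) (φ := fun g => g + a)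
    (measurable_add_const a).aemeasurable (f := F) hF.aestronglyMeasurable
  rw [← h, gauss_map_add, integral_withDensity_eq_integral_toReal_smul hw.ennreal_ofReal
    (ae_of_all _ fun _ => ENNReal.ofReal_lt_top)]
  refine integral_congr_ae (ae_of_all _ fun g => ?_)
  simp [ENNReal.toReal_ofReal (exp_pos _).le, shiftW]

lemma gauss_neg_invariant (F : (κ → ℝ) → ℝ) :
    ∫ g, F (-g) ∂gauss κ = ∫ g, F g ∂gauss κ := by
  classical
  have h := gauss_map_rowMap (κ := κ) (ι := κ) (fun p k => if p = k then (-1 : ℝ) else 0)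
    fun p q => by rcases eq_or_ne p q with rfl | hpq <;> simp [*]
  have e : rowMap (fun p k : κ => if p = k then (-1 : ℝ) else 0)
      = (MeasurableEquiv.neg (κ → ℝ) : (κ → ℝ) → κ → ℝ) := by
    funext g p; simp [rowMap]
  rw [e] at h
  exact MeasurePreserving.integral_comp ⟨MeasurableEquiv.measurable _, h⟩
    (MeasurableEquiv.measurableEmbedding _) F

/-- The Nishimori identity. -/
theorem nishimori (a : κ → ℝ) {F : (κ → ℝ) → ℝ} (hF : Measurable F) {B : ℝ}
    (hB : ∀ g, |F g| ≤ B) (hodd : ∀ g, F (-g) = -F g) :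
    ∫ g, F (g + a) ∂gauss κ = ∫ g, F (g + a) * tanh (lin a (g + a)) ∂gauss κ := by
  have hG : Measurable fun g => F g * tanh (lin a g) :=
    hF.mul (continuous_tanh_real.comp (continuous_lin a)).measurable
  rw [integral_shift a hF, integral_shift a hG]
  have hw := integrable_shiftW a
  have i1 : Integrable (fun g => shiftW a g * F g) (gauss κ) :=
    hw.mul_bdd hF.aestronglyMeasurable (ae_of_all _ hB)
  have i2 : Integrable (fun g => shiftW a g * (F g * tanh (lin a g))) (gauss κ) :=
    hw.mul_bdd hG.aestronglyMeasurable (ae_of_all _ fun g => by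
      rw [norm_eq_abs, abs_mul]
      exact (mul_le_of_le_one_right (abs_nonneg _) (abs_tanh_lt_one _).le).trans (hB g))
  set D := fun g => shiftW a g * (F g * (1 - tanh (lin a g)))
  have hD : ∀ g, D (-g) = -D g := by
    intro g
    have hl : lin a (-g) = -lin a g := by simp [lin]
    have e : 1 + tanh (lin a g) = exp (lin a g) ^ 2 * (1 - tanh (lin a g)) := by
      rw [tanh_eq, exp_neg]
      field_simp
      ring
    have es : shiftW a (-g) * exp (lin a g) ^ 2 = shiftW a g := by
      rw [shiftW, shiftW, hl, ← exp_nat_mul, ← exp_add]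
      congr 1
      push_cast
      ring
    simp only [D, hl, hodd, tanh_neg, sub_neg_eq_add, e]
    linear_combination -(F g * (1 - tanh (lin a g))) * es
  have h0 : ∫ g, D g ∂gauss κ = 0 := by
    have := gauss_neg_invariant D
    simp only [hD, integral_neg] at this
    linarith
  have e : D = fun g => shiftW a g * F g - shiftW a g * (F g * tanh (lin a g)) := by
    funext g; simp only [D]; ring
  rw [e, integral_sub i1 i2] at h0
  linarith

/-- The field of one site along `a`, planted at `+1`. -/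
noncomputable def sfield (a g : κ → ℝ) : ℝ := lin a g + sqn a

lemma continuous_sfield (a : κ → ℝ) : Continuous (sfield a) := by unfold sfield; fun_prop

lemma abs_tanh_le_one (x : ℝ) : |tanh x| ≤ 1 := (abs_tanh_lt_one x).le

lemma tanh_sq_le_one (x : ℝ) : tanh x ^ 2 ≤ 1 := (tanh_sq_lt_one x).le

lemma integrable_bdd {F : (κ → ℝ) → ℝ} (hF : Continuous F) {B : ℝ} (hB : ∀ g, |F g| ≤ B) :
    Integrable F (gauss κ) :=
  Integrable.of_bound hF.aestronglyMeasurable B (ae_of_all _ hB)

/-- An odd bounded observable of the field. -/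
theorem nishimori_field (a : κ → ℝ) {f : ℝ → ℝ} (hf : Continuous f) {B : ℝ}
    (hB : ∀ x, |f x| ≤ B) (hodd : ∀ x, f (-x) = -f x) :
    ∫ g, f (sfield a g) ∂gauss κ = ∫ g, f (sfield a g) * tanh (sfield a g) ∂gauss κ := by
  have h := nishimori a (F := fun g => f (lin a g)) (hf.comp (continuous_lin a)).measurable
    (fun g => hB _) (fun g => by simp [lin, hodd])
  simpa only [sfield, lin_add_right, lin_self] using h

/-- Two fields: the correlation is the square of the less informative one. -/
theorem tanh_pair (a a' : κ → ℝ) (h : lin a' a = sqn a') :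
    ∫ g, tanh (sfield a' g) * tanh (sfield a g) ∂gauss κ
      = ∫ g, tanh (sfield a' g) ^ 2 ∂gauss κ := by
  have h1 := nishimori a (F := fun g => tanh (lin a' g))
    (continuous_tanh_real.comp (continuous_lin a')).measurable
    (fun g => abs_tanh_le_one _) (fun g => by simp [lin])
  simp only [lin_add_right, h, lin_self] at h1
  have h2 := nishimori_field a' continuous_tanh_real abs_tanh_le_one tanh_neg
  simp only [sfield] at h2 ⊢
  simp only [sq]
  linarith

lemma integral_lin (a : κ → ℝ) {f : ℝ → ℝ} (hf : Continuous f) :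
    ∫ g, f (lin a g) ∂gauss κ = ∫ x, f (√(sqn a) * x) ∂gaussianReal 0 1 := by
  rcases (sqn_nonneg a).eq_or_lt with h | h
  · have ha : ∀ k, a k = 0 := fun k => by
      have := (sum_eq_zero_iff_of_nonneg fun k _ => sq_nonneg (a k)).1 h.symm k (mem_univ k)
      exact pow_eq_zero_iff two_ne_zero |>.1 this
    simp [← h, lin, ha]
  · have hr : (0:ℝ) < √(sqn a) := sqrt_pos.2 h
    have hR := gauss_map_rowMap (κ := κ) (ι := Fin 1) (fun _ k => a k / √(sqn a)) fun i j => by
      rw [if_pos (Subsingleton.elim i j)]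
      simp only [div_mul_div_comm, ← sum_div, mul_self_sqrt h.le]
      rw [div_eq_one_iff_eq h.ne']
      exact sum_congr rfl fun k _ => (sq _).symm
    have h1 : (gauss (Fin 1)).map (fun x => x 0) = gaussianReal 0 1 :=
      (measurePreserving_eval (fun _ : Fin 1 => gaussianReal 0 1) 0).map_eq
    have hc : Continuous fun x => f (√(sqn a) * x) := by fun_prop
    rw [← h1, integral_map (measurable_pi_apply 0).aemeasurable hc.aestronglyMeasurable, ← hR,
      integral_map (measurable_rowMap _).aemeasurable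
        (show Continuous fun x : Fin 1 → ℝ => f (√(sqn a) * x 0) by fun_prop).aestronglyMeasurable]
    refine integral_congr_ae (ae_of_all _ fun g => ?_)
    simp only [rowMap, lin, mul_sum]
    congr 1
    exact sum_congr rfl fun k _ => by field_simp

/-- The one-site map of state evolution. -/
noncomputable def psi (s : ℝ) : ℝ := ∫ x, tanh (√s * x + s) ^ 2 ∂gaussianReal 0 1

lemma integral_sfield (a : κ → ℝ) {f : ℝ → ℝ} (hf : Continuous f) :
    ∫ g, f (sfield a g) ∂gauss κ
      = ∫ x, f (√(sqn a) * x + sqn a) ∂gaussianReal 0 1 :=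
  integral_lin a (f := fun x => f (x + sqn a)) (by fun_prop)

lemma psi_sfield (a : κ → ℝ) : ∫ g, tanh (sfield a g) ^ 2 ∂gauss κ = psi (sqn a) :=
  integral_sfield a (f := fun x => tanh x ^ 2) (continuous_tanh_real.pow 2)

lemma psi_zero : psi 0 = 0 := by simp [psi]

lemma psi_nonneg (s : ℝ) : 0 ≤ psi s := integral_nonneg fun _ => sq_nonneg _

lemma psi_le_one (s : ℝ) : psi s ≤ 1 := by
  refine (integral_mono_of_nonneg (ae_of_all _ fun x => sq_nonneg _) (integrable_const 1)
    (ae_of_all _ fun x => tanh_sq_le_one _)).trans ?_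
  simp

/-- The increment of `psi` is a mean square. -/
theorem psi_diff (a a' : κ → ℝ) (h : lin a' a = sqn a') :
    psi (sqn a) - psi (sqn a')
      = ∫ g, (tanh (sfield a g) - tanh (sfield a' g)) ^ 2 ∂gauss κ := by
  have hc : ∀ b : κ → ℝ, Continuous fun g => tanh (sfield b g) := fun b =>
    continuous_tanh_real.comp (continuous_sfield b)
  have e : ∀ g, (tanh (sfield a g) - tanh (sfield a' g)) ^ 2 = tanh (sfield a g) ^ 2
      + tanh (sfield a' g) ^ 2 - 2 * (tanh (sfield a' g) * tanh (sfield a g)) := fun g => by ring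
  have i : ∀ b, Integrable (fun g => tanh (sfield b g) ^ 2) (gauss κ) := fun b =>
    integrable_bdd ((hc b).pow 2) (B := 1) fun g => by
      rw [abs_of_nonneg (sq_nonneg _)]; exact tanh_sq_le_one _
  have i2 : Integrable (fun g => tanh (sfield a' g) * tanh (sfield a g)) (gauss κ) :=
    integrable_bdd ((hc a').mul (hc a)) (B := 1) fun g => by
      rw [abs_mul]; exact mul_le_one₀ (abs_tanh_le_one _) (abs_nonneg _) (abs_tanh_le_one _)
  simp only [e]
  rw [integral_sub ((i a).fun_add (i a')) (i2.const_mul 2), integral_add (i a) (i a'),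
    integral_const_mul, tanh_pair a a' h, psi_sfield, psi_sfield]
  ring

lemma tanh_sub (x y : ℝ) : tanh x - tanh y = tanh (x - y) * (1 - tanh x * tanh y) := by
  have hx := (cosh_pos x).ne'
  have hy := (cosh_pos y).ne'
  have hxy := (cosh_pos (x - y)).ne'
  simp only [tanh_eq_sinh_div_cosh, sinh_sub, cosh_sub] at hxy ⊢
  field_simp

lemma hasDerivAt_tanh (x : ℝ) : HasDerivAt tanh (1 - tanh x ^ 2) x := by
  have h := (hasDerivAt_sinh x).div (hasDerivAt_cosh x) (cosh_pos x).ne'
  have e : (cosh x * cosh x - sinh x * sinh x) / cosh x ^ 2 = 1 - tanh x ^ 2 := by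
    rw [tanh_eq_sinh_div_cosh]
    field_simp
  rw [e] at h
  exact h.congr_of_eventuallyEq (Filter.Eventually.of_forall tanh_eq_sinh_div_cosh)

lemma tanh_dist_le (x y : ℝ) : |tanh x - tanh y| ≤ |x - y| := by
  have h := Convex.norm_image_sub_le_of_norm_hasDerivWithin_le (𝕜 := ℝ) (f := tanh)
    (s := Set.univ) (C := 1) (fun z _ => (hasDerivAt_tanh z).hasDerivWithinAt)
    (fun z _ => by
      rw [norm_eq_abs, abs_le]
      constructor <;> nlinarith [tanh_sq_le_one z, sq_nonneg (tanh z)])
    convex_univ (Set.mem_univ y) (Set.mem_univ x)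
  simpa using h

lemma tanh_le_tanh {x y : ℝ} (h : x ≤ y) : tanh x ≤ tanh y :=
  monotone_of_deriv_nonneg (fun z => (hasDerivAt_tanh z).differentiableAt)
    (fun z => by rw [(hasDerivAt_tanh z).deriv]; linarith [tanh_sq_le_one z]) h

/-- The two directions used for the increments of `psi`. -/
noncomputable def duo (s h : ℝ) : Fin 2 → ℝ := ![√s, √h]

lemma sqn_duo {s h : ℝ} (hs : 0 ≤ s) (hh : 0 ≤ h) : sqn (duo s h) = s + h := by
  simp [sqn, duo, Fin.sum_univ_two, sq_sqrt hs, sq_sqrt hh]

lemma psi_duo {s h : ℝ} (hs : 0 ≤ s) (hh : 0 ≤ h) : psi (s + h) - psi s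
    = ∫ g, (tanh (√s * g 0 + √h * g 1 + (s + h)) - tanh (√s * g 0 + s)) ^ 2
        ∂gauss (Fin 2) := by
  have h1 := psi_diff (duo s h) (duo s 0) (by
    rw [sqn_duo hs le_rfl]; simp [lin, duo, Fin.sum_univ_two, mul_self_sqrt hs])
  rw [sqn_duo hs hh, sqn_duo hs le_rfl, add_zero] at h1
  rw [h1]
  simp only [sfield, sqn_duo hs hh, sqn_duo hs le_rfl]
  simp [lin, duo, Fin.sum_univ_two]

lemma psi_mono {s t : ℝ} (hs : 0 ≤ s) (hst : s ≤ t) : psi s ≤ psi t := by
  have h := psi_duo hs (sub_nonneg.2 hst)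
  rw [add_sub_cancel] at h
  have h0 : 0 ≤ psi t - psi s := h ▸ integral_nonneg fun _ => sq_nonneg _
  linarith

lemma psi_add_le {s h : ℝ} (hs : 0 ≤ s) (hh : 0 ≤ h) : psi (s + h) - psi s ≤ h + h ^ 2 := by
  rw [psi_duo hs hh]
  have hi : ∀ g : Fin 2 → ℝ, (√h * g 1 + h) ^ 2 = h * g 1 ^ 2 + (2 * √h * h) * g 1 + h ^ 2 :=
    fun g => by linear_combination g 1 ^ 2 * sq_sqrt hh
  have i2 : Integrable (fun g : Fin 2 → ℝ => g 1 ^ 2) (gauss (Fin 2)) :=
    (measurePreserving_eval (fun _ : Fin 2 => gaussianReal 0 1) 1).integrable_comp_of_integrable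
      (memLp_id_gaussianReal 2).integrable_sq
  have i1 : Integrable (fun g : Fin 2 → ℝ => g 1) (gauss (Fin 2)) :=
    (measurePreserving_eval (fun _ : Fin 2 => gaussianReal 0 1) 1).integrable_comp_of_integrable
      ((memLp_id_gaussianReal 1).integrable le_rfl)
  have i3 := (i2.const_mul h).fun_add (i1.const_mul (2 * √h * h))
  refine (integral_mono_of_nonneg (ae_of_all _ fun g => sq_nonneg _)
    (i3.fun_add (integrable_const (h ^ 2))) (ae_of_all _ fun g => ?_)).trans (le_of_eq ?_)
  · beta_reduce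
    rw [← hi g]
    refine sq_le_sq.2 ((tanh_dist_le _ _).trans (le_of_eq ?_))
    congr 1; ring
  · have e : (gauss (Fin 2)).map (fun g => g 1) = gaussianReal 0 1 :=
      (measurePreserving_eval (fun _ : Fin 2 => gaussianReal 0 1) 1).map_eq
    have a1 : ∫ g, g 1 ∂gauss (Fin 2) = 0 := by
      have := integral_map (μ := gauss (Fin 2)) (φ := fun g => g 1)
        (measurable_pi_apply 1).aemeasurable (f := fun x : ℝ => x) (by fun_prop)
      rw [e, integral_id_gaussianReal] at this
      exact this.symm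
    have a2 : ∫ g, g 1 ^ 2 ∂gauss (Fin 2) = 1 := by
      have := integral_map (μ := gauss (Fin 2)) (φ := fun g => g 1)
        (measurable_pi_apply 1).aemeasurable (f := fun x : ℝ => x ^ 2) (by fun_prop)
      rw [e] at this
      rw [← this]
      have hv := variance_id_gaussianReal (μ := 0) (v := 1)
      rw [variance_eq_integral aemeasurable_id] at hv
      simpa [integral_id_gaussianReal] using hv
    rw [integral_add i3 (integrable_const _), integral_add (i2.const_mul _) (i1.const_mul _),
      integral_const_mul, integral_const_mul, a1, a2]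
    simp

/-- `psi` is one-Lipschitz. -/
theorem psi_lipschitz {s t : ℝ} (hs : 0 ≤ s) (hst : s ≤ t) : psi t - psi s ≤ t - s := by
  set h := t - s
  have hh : 0 ≤ h := sub_nonneg.2 hst
  have key : ∀ N : ℕ, 0 < N → psi t - psi s ≤ h + h ^ 2 / N := by
    intro N hN
    have hN' : (0:ℝ) < N := by exact_mod_cast hN
    have hstep : ∀ i ∈ range N, psi (s + ((i + 1 : ℕ) : ℝ) * (h / N)) - psi (s + (i : ℝ) * (h / N))
        ≤ h / N + (h / N) ^ 2 := by
      intro i _
      have := psi_add_le (s := s + (i : ℝ) * (h / N)) (h := h / N) (by positivity) (by positivity)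
      push_cast
      rwa [add_one_mul, ← add_assoc]
    have := sum_le_sum hstep
    rw [sum_range_sub (fun i : ℕ => psi (s + (i : ℝ) * (h / N))), sum_const, card_range,
      nsmul_eq_mul, Nat.cast_zero, zero_mul, add_zero, mul_div_cancel₀ _ hN'.ne',
      add_sub_cancel] at this
    refine this.trans (le_of_eq ?_)
    field_simp
  refine le_of_forall_pos_le_add fun e he => ?_
  obtain ⟨N, hN⟩ := exists_nat_gt (h ^ 2 / e)
  have hN0 : 0 < N := by
    rcases Nat.eq_zero_or_pos N with rfl | h0
    · exact absurd hN (not_lt.2 (by simpa using div_nonneg (sq_nonneg h) he.le))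
    · exact h0
  have h2 : h ^ 2 / N ≤ e := by
    rw [div_le_iff₀ (by exact_mod_cast hN0)]
    rw [div_lt_iff₀ he] at hN
    linarith
  linarith [key N hN0]

/-- The mass of `[1, 2]`, squared. -/
noncomputable def boxMass : ℝ := (gaussianReal 0 1).real (Set.Icc 1 2) ^ 2

lemma boxMass_pos : 0 < boxMass := by
  refine pow_pos (ENNReal.toReal_pos (fun h => ?_) (measure_ne_top _ _)) 2
  have h1 := gaussianReal_absolutelyContinuous' (0:ℝ) one_ne_zero h
  simp only [Real.volume_Icc] at h1
  norm_num at h1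

/-- The box of the two coordinates. -/
def box2 : Set (Fin 2 → ℝ) := Set.univ.pi fun _ => Set.Icc 1 2

lemma gauss_box2 : (gauss (Fin 2)).real box2 = boxMass := by
  rw [box2, gauss, measureReal_def, Measure.pi_pi, ENNReal.toReal_prod]
  simp [boxMass, measureReal_def, sq]

lemma le_integral_box2 {F : (Fin 2 → ℝ) → ℝ} (hF : Integrable F (gauss (Fin 2)))
    (h0 : ∀ g, 0 ≤ F g) {c : ℝ} (hc : ∀ g ∈ box2, c ≤ F g) :
    c * boxMass ≤ ∫ g, F g ∂gauss (Fin 2) := by
  have hm : MeasurableSet box2 := MeasurableSet.univ_pi fun _ => measurableSet_Icc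
  rw [← gauss_box2, mul_comm, ← smul_eq_mul, ← setIntegral_const]
  exact (setIntegral_mono_on (integrable_const c).integrableOn hF.integrableOn hm hc).trans
    (setIntegral_le_integral hF (ae_of_all _ h0))

/-- Lower bound of `1 - tanh²` on the fields met on the box. -/
noncomputable def vmin (S : ℝ) : ℝ := 1 - tanh (4 * √S + S) ^ 2

lemma vmin_pos (S : ℝ) : 0 < vmin S := sub_pos.2 (tanh_sq_lt_one _)

/-- Strict increase of `psi`, quantitatively. -/
theorem psi_gap {s h S : ℝ} (hs : 0 ≤ s) (hh : 0 ≤ h) (hS : s + h ≤ S) :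
    boxMass * (tanh h * vmin S) ^ 2 ≤ psi (s + h) - psi s := by
  rw [psi_duo hs hh, mul_comm]
  refine le_integral_box2 ?_ (fun _ => sq_nonneg _) fun g hg => ?_
  · refine integrable_bdd (B := 4) ?_ fun g => ?_
    · exact ((continuous_tanh_real.comp (by fun_prop)).sub
        (continuous_tanh_real.comp (by fun_prop))).pow 2
    · rw [abs_of_nonneg (sq_nonneg _)]
      nlinarith [abs_le.1 (abs_tanh_le_one (√s * g 0 + √h * g 1 + (s + h))),
        abs_le.1 (abs_tanh_le_one (√s * g 0 + s))]
  · have g0 := hg 0 trivial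
    have g1 := hg 1 trivial
    set x := √s * g 0 + √h * g 1 + (s + h)
    set y := √s * g 0 + s
    have r1 : √s * g 0 ≤ √S * 2 :=
      mul_le_mul (sqrt_le_sqrt (by linarith)) g0.2 (by linarith [g0.1]) (sqrt_nonneg _)
    have r2 : √h * g 1 ≤ √S * 2 :=
      mul_le_mul (sqrt_le_sqrt (by linarith)) g1.2 (by linarith [g1.1]) (sqrt_nonneg _)
    have r3 : 0 ≤ √h * g 1 := mul_nonneg (sqrt_nonneg _) (by linarith [g1.1])
    have r4 : 0 ≤ √s * g 0 := mul_nonneg (sqrt_nonneg _) (by linarith [g0.1])
    have hy0 : 0 ≤ y := by simp only [y]; linarith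
    have hxy : h ≤ x - y := by simp only [x, y]; linarith
    have hx : x ≤ 4 * √S + S := by simp only [x]; linarith
    have ty : 0 ≤ tanh y := tanh_zero ▸ tanh_le_tanh hy0
    have tx := tanh_le_tanh hx
    have tyx : tanh y ≤ tanh x := tanh_le_tanh (by linarith)
    have th : 0 ≤ tanh h := tanh_zero ▸ tanh_le_tanh hh
    refine pow_le_pow_left₀ (mul_nonneg th (vmin_pos S).le) ?_ 2
    rw [tanh_sub x y]
    refine mul_le_mul (tanh_le_tanh hxy) ?_ (vmin_pos S).le (tanh_zero ▸ tanh_le_tanh (by linarith))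
    have := mul_le_mul (tyx.trans tx) tx (ty.trans tyx) (ty.trans (tyx.trans tx))
    simp only [vmin, sq]
    nlinarith [mul_le_mul tx (tyx.trans tx) ty (ty.trans (tyx.trans tx))]

/-- `psi` stays away from one. -/
theorem psi_le_one_sub {s S : ℝ} (hs : 0 ≤ s) (hS : s ≤ S) :
    psi s ≤ 1 - boxMass * vmin S := by
  have h1 : psi s = ∫ g, tanh (sfield (duo s 0) g) ^ 2 ∂gauss (Fin 2) := by
    rw [psi_sfield, sqn_duo hs le_rfl, add_zero]
  have hc : Continuous fun g => tanh (sfield (duo s 0) g) ^ 2 :=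
    (continuous_tanh_real.comp (continuous_sfield _)).pow 2
  have hi : Integrable (fun g => tanh (sfield (duo s 0) g) ^ 2) (gauss (Fin 2)) :=
    integrable_bdd hc (B := 1) fun g => by
      rw [abs_of_nonneg (sq_nonneg _)]; exact tanh_sq_le_one _
  have h2 : vmin S * boxMass ≤ ∫ g, (1 - tanh (sfield (duo s 0) g) ^ 2) ∂gauss (Fin 2) := by
    refine le_integral_box2 ((integrable_const 1).sub hi)
      (fun g => sub_nonneg.2 (tanh_sq_le_one _)) fun g hg => ?_
    have g0 := hg 0 trivial
    have r1 : √s * g 0 ≤ √S * 2 :=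
      mul_le_mul (sqrt_le_sqrt hS) g0.2 (by linarith [g0.1]) (sqrt_nonneg _)
    have r4 : 0 ≤ √s * g 0 := mul_nonneg (sqrt_nonneg _) (by linarith [g0.1])
    have e : sfield (duo s 0) g = √s * g 0 + s := by
      rw [sfield, sqn_duo hs le_rfl]; simp [lin, duo, Fin.sum_univ_two]
    have hle : tanh (sfield (duo s 0) g) ≤ tanh (4 * √S + S) :=
      tanh_le_tanh (by rw [e]; linarith [sqrt_nonneg S])
    have h0 : 0 ≤ tanh (sfield (duo s 0) g) := by
      have := tanh_le_tanh (show (0:ℝ) ≤ sfield (duo s 0) g by rw [e]; linarith)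
      rwa [tanh_zero] at this
    simp only [vmin, Pi.sub_apply]
    linarith [pow_le_pow_left₀ h0 hle 2]
  rw [integral_sub (integrable_const 1) hi, ← h1] at h2
  simp only [integral_const, probReal_univ, one_smul] at h2
  linarith

/-- `E m² (1 - m²)` stays away from zero. -/
theorem site_D_ge {s u₀ S : ℝ} (hu : 0 ≤ u₀) (hs : u₀ ≤ s) (hS : s ≤ S) :
    boxMass * (tanh u₀ ^ 2 * vmin S)
      ≤ ∫ x, tanh (√s * x + s) ^ 2 * (1 - tanh (√s * x + s) ^ 2) ∂gaussianReal 0 1 := by
  have hs0 : 0 ≤ s := hu.trans hs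
  have hc : Continuous fun x => tanh x ^ 2 * (1 - tanh x ^ 2) :=
    (continuous_tanh_real.pow 2).mul (continuous_const.sub (continuous_tanh_real.pow 2))
  have h1 := integral_sfield (duo s 0) (f := fun x => tanh x ^ 2 * (1 - tanh x ^ 2)) hc
  rw [sqn_duo hs0 le_rfl, add_zero] at h1
  rw [← h1, mul_comm]
  refine le_integral_box2 (integrable_bdd (hc.comp (continuous_sfield _)) (B := 1) fun g => ?_)
    (fun g => mul_nonneg (sq_nonneg _) (sub_nonneg.2 (tanh_sq_le_one _))) fun g hg => ?_
  · rw [Function.comp_apply, abs_mul, abs_of_nonneg (sq_nonneg _),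
      abs_of_nonneg (sub_nonneg.2 (tanh_sq_le_one _))]
    exact mul_le_one₀ (tanh_sq_le_one _) (sub_nonneg.2 (tanh_sq_le_one _))
      (sub_le_self _ (sq_nonneg _))
  · have g0 := hg 0 trivial
    have r1 : √s * g 0 ≤ √S * 2 :=
      mul_le_mul (sqrt_le_sqrt hS) g0.2 (by linarith [g0.1]) (sqrt_nonneg _)
    have r4 : 0 ≤ √s * g 0 := mul_nonneg (sqrt_nonneg _) (by linarith [g0.1])
    have e : sfield (duo s 0) g = √s * g 0 + s := by
      rw [sfield, sqn_duo hs0 le_rfl]; simp [lin, duo, Fin.sum_univ_two]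
    have hle : tanh (sfield (duo s 0) g) ≤ tanh (4 * √S + S) :=
      tanh_le_tanh (by rw [e]; linarith [sqrt_nonneg S])
    have hge : tanh u₀ ≤ tanh (sfield (duo s 0) g) := tanh_le_tanh (by rw [e]; linarith)
    have hu' : 0 ≤ tanh u₀ := tanh_zero ▸ tanh_le_tanh hu
    refine mul_le_mul (pow_le_pow_left₀ hu' hge 2) ?_ (vmin_pos S).le (sq_nonneg _)
    simp only [vmin]
    linarith [pow_le_pow_left₀ (hu'.trans hge) hle 2]

end Vale.Agent.P150.Beta1
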