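import Mathlib
import Vale.Agent.P150.Beta1.Fields.Nishimori

/-!
# Chains of state evolution

A chain has finitely many nodes with overlap parameters `q` and coefficient vectors `c` whose Gram
matrix is `min (q j) (q l)`; node `l` is `tanh` of the field driven by node `par l`. Indices `≥ k`
are the zero node. `exists_chain` gives the chain of `N` iterates started from the configuration
followed by `M` iterates started from zero, with a positive lower bound for the diagonal that is
uniform in the time.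
-/

namespace Vale.Agent.P150.Beta1

open Finset Real

/-- Iterates of the state-evolution map from `1`. -/
noncomputable def qdn (τ u : ℝ) : ℕ → ℝ
  | 0 => 1
  | l + 1 => psi (u + τ * qdn τ u l)

/-- Iterates of the state-evolution map from `0`. -/
noncomputable def qup (τ u : ℝ) : ℕ → ℝ
  | 0 => 0
  | l + 1 => psi (u + τ * qup τ u l)

lemma qdn_mem {τ u : ℝ} (_hτ : 0 ≤ τ) (_hu : 0 ≤ u) : ∀ l, qdn τ u l ∈ Set.Icc (0:ℝ) 1
  | 0 => ⟨zero_le_one, le_rfl⟩
  | _ + 1 => ⟨psi_nonneg _, psi_le_one _⟩

lemma qup_mem {τ u : ℝ} (_hτ : 0 ≤ τ) (_hu : 0 ≤ u) : ∀ l, qup τ u l ∈ Set.Icc (0:ℝ) 1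
  | 0 => ⟨le_rfl, zero_le_one⟩
  | _ + 1 => ⟨psi_nonneg _, psi_le_one _⟩

section rates

variable {τ u : ℝ} (hτ : 0 ≤ τ) (hu : 0 ≤ u)
include hτ hu

lemma arg_dn_nonneg (l : ℕ) : 0 ≤ u + τ * qdn τ u l :=
  add_nonneg hu (mul_nonneg hτ (qdn_mem hτ hu l).1)

lemma arg_up_nonneg (l : ℕ) : 0 ≤ u + τ * qup τ u l :=
  add_nonneg hu (mul_nonneg hτ (qup_mem hτ hu l).1)

lemma qup_le_qdn : ∀ a b, qup τ u b ≤ qdn τ u a
  | 0, b => (qup_mem hτ hu b).2
  | _ + 1, 0 => (qdn_mem hτ hu _).1
  | a + 1, b + 1 => psi_mono (arg_up_nonneg hτ hu b)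
      (add_le_add le_rfl (mul_le_mul_of_nonneg_left (qup_le_qdn a b) hτ))

lemma qdn_anti : ∀ l, qdn τ u (l + 1) ≤ qdn τ u l
  | 0 => psi_le_one _
  | l + 1 => psi_mono (arg_dn_nonneg hτ hu _)
      (add_le_add le_rfl (mul_le_mul_of_nonneg_left (qdn_anti l) hτ))

lemma qdn_antitone : Antitone (qdn τ u) := antitone_nat_of_succ_le (qdn_anti hτ hu)

lemma qup_monotone : Monotone (qup τ u) := by
  refine monotone_nat_of_le_succ fun l => ?_
  induction l with
  | zero => exact psi_nonneg _
  | succ l ih =>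
    exact psi_mono (arg_up_nonneg hτ hu l)
      (add_le_add le_rfl (mul_le_mul_of_nonneg_left ih hτ))

/-- The two sequences meet geometrically fast. -/
lemma qdn_sub_qup_le (hτ1 : τ ≤ 1) : ∀ a b, qdn τ u a - qup τ u b ≤ τ ^ min a b
  | 0, b => by
      simp only [Nat.zero_min, pow_zero]
      linarith [(qdn_mem hτ hu 0).2, (qup_mem hτ hu b).1]
  | a + 1, 0 => by
      simp only [Nat.min_zero, pow_zero, qup]
      linarith [(qdn_mem hτ hu (a + 1)).2]
  | a + 1, b + 1 => by
      have h := psi_lipschitz (arg_up_nonneg hτ hu b)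
        (add_le_add le_rfl (mul_le_mul_of_nonneg_left (qup_le_qdn hτ hu a b) hτ) :
          u + τ * qup τ u b ≤ u + τ * qdn τ u a)
      refine h.trans ?_
      rw [Nat.succ_min_succ, pow_succ', add_sub_add_left_eq_sub, ← mul_sub]
      exact mul_le_mul_of_nonneg_left (qdn_sub_qup_le hτ1 a b) hτ

lemma qdn_sub_le (hτ1 : τ ≤ 1) {j l : ℕ} (_h : j ≤ l) : qdn τ u j - qdn τ u l ≤ τ ^ j := by
  have h1 := qdn_sub_qup_le hτ hu hτ1 j j
  rw [min_self] at h1
  linarith [qup_le_qdn hτ hu l j]

lemma qup_le (hτ1 : τ < 1) : ∀ l, qup τ u l ≤ u / (1 - τ)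
  | 0 => div_nonneg hu (by linarith)
  | l + 1 => by
      have h := psi_lipschitz le_rfl (arg_up_nonneg hτ hu l)
      rw [psi_zero, sub_zero, sub_zero] at h
      refine h.trans ((add_le_add le_rfl (mul_le_mul_of_nonneg_left (qup_le hτ1 l) hτ)).trans
        (le_of_eq ?_))
      have : 1 - τ ≠ 0 := by linarith
      field_simp
      ring

end rates

/-- The common lower bound for a step of `psi`. -/
noncomputable def stepGap (τ S g : ℝ) : ℝ := boxMass * (tanh (τ * g) * vmin S) ^ 2

lemma stepGap_pos {τ S g : ℝ} (hτ : 0 < τ) (hg : 0 < g) : 0 < stepGap τ S g := by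
  have : 0 < tanh (τ * g) := by
    rw [tanh_eq_sinh_div_cosh]
    exact div_pos (sinh_pos_iff.2 (mul_pos hτ hg)) (cosh_pos _)
  have := boxMass_pos
  have := vmin_pos S
  rw [stepGap]
  positivity

lemma psi_step {τ S g u a b : ℝ} (hτ : 0 ≤ τ) (hg : 0 ≤ g) (hu : 0 ≤ u) (hb : 0 ≤ b)
    (hab : g ≤ a - b) (hS : u + τ * a ≤ S) : stepGap τ S g ≤ psi (u + τ * a) - psi (u + τ * b) := by
  have hh : 0 ≤ τ * (a - b) := mul_nonneg hτ (hg.trans hab)
  have h := psi_gap (s := u + τ * b) (h := τ * (a - b)) (S := S)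
    (add_nonneg hu (mul_nonneg hτ hb)) hh (by linarith)
  rw [show u + τ * b + τ * (a - b) = u + τ * a by ring] at h
  refine le_trans ?_ h
  refine mul_le_mul_of_nonneg_left (pow_le_pow_left₀ (mul_nonneg ?_ (vmin_pos S).le)
    (mul_le_mul_of_nonneg_right (tanh_le_tanh (mul_le_mul_of_nonneg_left hab hτ))
      (vmin_pos S).le) 2) boxMass_pos.le
  have := tanh_le_tanh (mul_nonneg hτ hg)
  rwa [tanh_zero] at this

/-- Positive gaps between the nodes used, uniform in the time. -/
theorem exists_gap {τ : ℝ} (hτ : 0 < τ) (hτ1 : τ ≤ 1) (T u₁ : ℝ) (hu₁ : 0 < u₁) (N : ℕ) :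
    ∃ δ > 0, ∀ u ∈ Set.Icc 0 T, (∀ l ≤ N, δ ≤ qdn τ u l - qdn τ u (l + 1) ∧ δ ≤ qdn τ u l) ∧
      (u₁ ≤ u → ∀ a ≤ N, (∀ b, δ ≤ qdn τ u a - qup τ u b) ∧
        δ ≤ qup τ u (a + 1) - qup τ u a) := by
  set S := T + 1
  set g₀ := min (boxMass * vmin S) (boxMass * (tanh u₁ * vmin S) ^ 2)
  have hg₀ : 0 < g₀ := by
    have := boxMass_pos
    have := vmin_pos S
    have : 0 < tanh u₁ := by
      rw [tanh_eq_sinh_div_cosh]; exact div_pos (sinh_pos_iff.2 hu₁) (cosh_pos _)
    exact lt_min (by positivity) (by positivity)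
  let γ : ℕ → ℝ := fun l => Nat.rec g₀ (fun _ g => min g (stepGap τ S g)) l
  have hγ : ∀ l, 0 < γ l := fun l => by
    induction l with
    | zero => exact hg₀
    | succ l ih => exact lt_min ih (stepGap_pos hτ ih)
  have hγs : ∀ l, γ (l + 1) = min (γ l) (stepGap τ S (γ l)) := fun l => rfl
  have hγa : Antitone γ := antitone_nat_of_succ_le fun l => (hγs l).trans_le (min_le_left _ _)
  refine ⟨γ N, hγ N, fun u hu => ?_⟩
  obtain ⟨hu0, huT⟩ := hu
  have hS : ∀ q ∈ Set.Icc (0:ℝ) 1, u + τ * q ≤ S := fun q hq => by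
    have := mul_le_one₀ hτ1 hq.1 hq.2
    simp only [S]; linarith
  have hq1 : qdn τ u 1 ≤ 1 - g₀ := by
    refine (psi_le_one_sub (arg_dn_nonneg hτ.le hu0 0) (hS _ (qdn_mem hτ.le hu0 0))).trans ?_
    linarith [min_le_left (boxMass * vmin S) (boxMass * (tanh u₁ * vmin S) ^ 2)]
  have hd : ∀ l, γ l ≤ qdn τ u l - qdn τ u (l + 1) := fun l => by
    induction l with
    | zero => show g₀ ≤ 1 - qdn τ u 1; linarith
    | succ l ih => exact (hγs l).trans_le ((min_le_right _ _).trans
        (psi_step hτ.le (hγ l).le hu0 (qdn_mem hτ.le hu0 _).1 ih (hS _ (qdn_mem hτ.le hu0 _))))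
  refine ⟨fun l hl => ⟨(hγa hl).trans (hd l), ?_⟩, fun hu1 a ha => ?_⟩
  · linarith [hγa hl, hd l, (qdn_mem hτ.le hu0 (l + 1)).1]
  have hup : ∀ l, γ l ≤ qup τ u (l + 1) - qup τ u l := fun l => by
    induction l with
    | zero =>
      show g₀ ≤ psi (u + τ * 0) - 0
      have h := psi_gap (s := 0) (h := u) (S := S) le_rfl hu0 (by linarith)
      rw [psi_zero, sub_zero, zero_add] at h
      rw [mul_zero, add_zero, sub_zero]
      refine (min_le_right _ _).trans (le_trans ?_ h)
      have h0 : 0 ≤ tanh u₁ := by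
        have := tanh_le_tanh hu₁.le
        rwa [tanh_zero] at this
      exact mul_le_mul_of_nonneg_left (pow_le_pow_left₀ (mul_nonneg h0 (vmin_pos S).le)
        (mul_le_mul_of_nonneg_right (tanh_le_tanh hu1) (vmin_pos S).le) 2) boxMass_pos.le
    | succ l ih => exact (hγs l).trans_le ((min_le_right _ _).trans
        (psi_step hτ.le (hγ l).le hu0 (qup_mem hτ.le hu0 _).1 ih (hS _ (qup_mem hτ.le hu0 _))))
  have hx : ∀ a b, γ a ≤ qdn τ u a - qup τ u b := fun a => by
    induction a with
    | zero =>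
      intro b
      cases b with
      | zero =>
        show g₀ ≤ 1 - 0
        linarith [(qdn_mem hτ.le hu0 1).1]
      | succ b =>
        show g₀ ≤ 1 - psi (u + τ * qup τ u b)
        linarith [psi_mono (arg_up_nonneg hτ.le hu0 b) (add_le_add le_rfl
          (mul_le_mul_of_nonneg_left (qup_mem hτ.le hu0 b).2 hτ.le) :
            u + τ * qup τ u b ≤ u + τ * 1), show qdn τ u 1 = psi (u + τ * 1) from rfl]
    | succ a ih =>
      intro b
      cases b with
      | zero =>
        show γ (a + 1) ≤ qdn τ u (a + 1) - 0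
        linarith [hd (a + 1), (qdn_mem hτ.le hu0 (a + 1 + 1)).1]
      | succ b => exact (hγs a).trans_le ((min_le_right _ _).trans
          (psi_step hτ.le (hγ a).le hu0 (qup_mem hτ.le hu0 _).1 (ih b)
            (hS _ (qdn_mem hτ.le hu0 _))))
  exact ⟨fun b => (hγa ha).trans (hx a b), (hγa ha).trans (hup a)⟩

/-- A chain of state evolution with diagonal at least `δ`. -/
structure Chain (τ u δ : ℝ) (k : ℕ) where
  /-- Overlap parameters. -/
  q : ℕ → ℝ
  /-- Coefficients on the history. -/
  c : ℕ → Fin k → ℝ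
  /-- The driving node. -/
  par : ℕ → ℕ
  kpos : 0 < k
  q_zero : q 0 = 1
  q_mem : ∀ l, q l ∈ Set.Icc (0:ℝ) 1
  none : ∀ l, k ≤ l → q l = 0 ∧ c l = 0
  par_lt : ∀ l, 0 < l → l < k → par l < l ∨ k ≤ par l
  q_par : ∀ l, 0 < l → l < k → q l = psi (u + τ * q (par l))
  tri : ∀ (l : ℕ) (p : Fin k), l < (p : ℕ) → c l p = 0
  gram : ∀ j l, ∑ p, c j p * c l p = min (q j) (q l)
  diag : ∀ p : Fin k, δ ≤ c p p

section build

variable {k : ℕ} (q : ℕ → ℝ) (lo hi : ℕ → ℕ)

/-- Weight of the lower neighbour. -/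
noncomputable def wlo (l : ℕ) : ℝ := (q (hi l) - q l) / (q (hi l) - q (lo l))

/-- Weight of the upper neighbour. -/
noncomputable def whi (l : ℕ) : ℝ := (q l - q (lo l)) / (q (hi l) - q (lo l))

/-- Length of the new direction. -/
noncomputable def dnew (l : ℕ) : ℝ :=
  √((q l - q (lo l)) * (q (hi l) - q l) / (q (hi l) - q (lo l)))

/-- Coefficients built by interpolation between two earlier nodes. -/
noncomputable def coef (k : ℕ) (l : ℕ) : Fin k → ℝ :=
  fun p => if k ≤ l then 0 else if l = 0 then (if (p : ℕ) = 0 then 1 else 0) else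
    (if _h : lo l < l then wlo q lo hi l * coef k (lo l) p else 0)
      + (if _h : hi l < l then whi q lo hi l * coef k (hi l) p else 0)
      + if (p : ℕ) = l then dnew q lo hi l else 0
termination_by l

lemma coef_none {l : ℕ} (h : k ≤ l) : coef q lo hi k l = 0 := by
  funext p; rw [coef, if_pos h]; rfl

lemma coef_tri : ∀ (l : ℕ) (p : Fin k), l < (p : ℕ) → coef q lo hi k l p = 0 := by
  intro l
  induction l using Nat.strong_induction_on with
  | _ l ih =>
    intro p hp
    rw [coef]
    have h1 : lo l < l → coef q lo hi k (lo l) p = 0 := fun h => ih _ h p (by omega)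
    have h2 : hi l < l → coef q lo hi k (hi l) p = 0 := fun h => ih _ h p (by omega)
    split_ifs <;> first | rfl | (exfalso; omega) | simp [*]

variable {q lo hi}

/-- The hypotheses of the interpolation: two neighbours with nothing in between. -/
structure Interp (δ : ℝ) (k : ℕ) (q : ℕ → ℝ) (lo hi : ℕ → ℕ) : Prop where
  q_zero : q 0 = 1
  q_none : ∀ l, k ≤ l → q l = 0
  q_nonneg : ∀ l, 0 ≤ q l
  lo_lt : ∀ l, 0 < l → l < k → lo l < l ∨ k ≤ lo l
  hi_lt : ∀ l, 0 < l → l < k → hi l < l
  gap : ∀ l, 0 < l → l < k → δ ≤ q l - q (lo l) ∧ δ ≤ q (hi l) - q l ∧ q (hi l) ≤ 1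
  between : ∀ l j, 0 < l → l < k → j < l → q j ≤ q (lo l) ∨ q (hi l) ≤ q j

lemma coef_gram {δ : ℝ} (hδ : 0 < δ) (I : Interp δ k q lo hi) :
    ∀ l j, j ≤ l → ∑ p, coef q lo hi k j p * coef q lo hi k l p = min (q j) (q l) := by
  intro l
  induction l using Nat.strong_induction_on with
  | _ l ih =>
    intro j hj
    rcases le_or_gt k l with hl | hl
    · rw [coef_none q lo hi hl, I.q_none l hl, min_eq_right (I.q_nonneg j)]
      simp
    rcases Nat.eq_zero_or_pos l with rfl | hl0
    · obtain rfl : j = 0 := by omega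
      rw [min_self, I.q_zero, sum_eq_single ⟨0, hl⟩]
      · rw [coef]; simp [hl.not_ge]
      · intro p _ hp
        rw [coef, if_neg hl.not_ge, if_pos rfl, if_neg fun h => hp (Fin.ext h)]; simp
      · simp
    obtain ⟨g1, g2, -⟩ := I.gap l hl0 hl
    set A := q (lo l)
    set B := q (hi l)
    have hBA : 0 < B - A := by linarith
    have hcl : ∀ i, i < l → ∑ p, coef q lo hi k i p * coef q lo hi k l p
        = wlo q lo hi l * min (q i) A + whi q lo hi l * min (q i) B := by
      intro i hi'
      have e1 : (∑ p, coef q lo hi k i p * (if _h : lo l < l then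
          wlo q lo hi l * coef q lo hi k (lo l) p else 0)) = wlo q lo hi l * min (q i) A := by
        rcases I.lo_lt l hl0 hl with h | h
        · simp only [dif_pos h]
          rw [sum_congr rfl fun p _ => mul_left_comm _ _ _, ← mul_sum]
          congr 1
          rcases le_total i (lo l) with h' | h'
          · exact ih _ h i h'
          · rw [min_comm, ← ih i hi' (lo l) h']; exact sum_congr rfl fun p _ => mul_comm _ _
        · simp only [dif_neg (show ¬lo l < l by omega), A, I.q_none _ h,
            min_eq_right (I.q_nonneg i)]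
          simp
      have e2 : (∑ p, coef q lo hi k i p * (if _h : hi l < l then
          whi q lo hi l * coef q lo hi k (hi l) p else 0)) = whi q lo hi l * min (q i) B := by
        simp only [dif_pos (I.hi_lt l hl0 hl)]
        rw [sum_congr rfl fun p _ => mul_left_comm _ _ _, ← mul_sum]
        congr 1
        rcases le_total i (hi l) with h' | h'
        · exact ih _ (I.hi_lt l hl0 hl) i h'
        · rw [min_comm, ← ih i hi' (hi l) h']; exact sum_congr rfl fun p _ => mul_comm _ _
      have e3 : ∑ p : Fin k, coef q lo hi k i p * (if (p : ℕ) = l then dnew q lo hi l else 0) = 0 :=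
        sum_eq_zero fun p _ => by
          split_ifs with h
          · rw [coef_tri q lo hi i p (by omega)]; ring
          · ring
      conv_lhs => enter [2, p, 2]; rw [coef, if_neg hl.not_ge, if_neg hl0.ne']
      simp only [mul_add, sum_add_distrib, e1, e2, e3, add_zero]
    have hne : q (hi l) - q (lo l) ≠ 0 := hBA.ne'
    have hw : wlo q lo hi l + whi q lo hi l = 1 := by
      simp only [wlo, whi]; field_simp; ring
    have hlin : wlo q lo hi l * A + whi q lo hi l * B = q l := by
      simp only [wlo, whi, A, B]; field_simp; ring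
    rcases hj.lt_or_eq with hj | rfl
    · rw [hcl j hj]
      rcases I.between l j hl0 hl hj with h | h
      · rw [min_eq_left h, min_eq_left (h.trans (by linarith)), min_eq_left (h.trans (by linarith)),
          ← add_mul, hw, one_mul]
      · rw [min_eq_right ((by linarith : A ≤ B).trans h), min_eq_right h, hlin,
          min_eq_right ((by linarith : q l ≤ B).trans h)]
    · rw [min_self]
      have hd : dnew q lo hi j * dnew q lo hi j = (q j - A) * (B - q j) / (B - A) :=
        mul_self_sqrt (div_nonneg (mul_nonneg (by linarith) (by linarith)) hBA.le)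
      have e : ∀ p : Fin k, coef q lo hi k j p * coef q lo hi k j p =
          (if _h : lo j < j then wlo q lo hi j * (coef q lo hi k (lo j) p * coef q lo hi k j p)
            else 0)
          + whi q lo hi j * (coef q lo hi k (hi j) p * coef q lo hi k j p)
          + if (p : ℕ) = j then dnew q lo hi j * dnew q lo hi j else 0 := fun p => by
        conv_lhs => arg 1; rw [coef, if_neg hl.not_ge, if_neg hl0.ne', dif_pos (I.hi_lt j hl0 hl)]
        by_cases hp : (p : ℕ) = j
        · have z1 : coef q lo hi k (hi j) p = 0 :=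
            coef_tri q lo hi _ p (by have := I.hi_lt j hl0 hl; omega)
          have z2 : lo j < j → coef q lo hi k (lo j) p = 0 := fun h =>
            coef_tri q lo hi _ p (by omega)
          have z3 : coef q lo hi k j p = dnew q lo hi j := by
            rw [coef, if_neg hl.not_ge, if_neg hl0.ne', dif_pos (I.hi_lt j hl0 hl), z1, if_pos hp]
            split_ifs with h
            · rw [z2 h]; ring
            · ring
          rw [if_pos hp, if_pos hp, z3, z1]
          split_ifs with h
          · rw [z2 h]; ring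
          · ring
        · rw [if_neg hp, if_neg hp]
          split_ifs <;> ring
      rw [sum_congr rfl fun p _ => e p, sum_add_distrib, sum_add_distrib, ← mul_sum,
        hcl (hi j) (I.hi_lt j hl0 hl), sum_eq_single (⟨j, hl⟩ : Fin k)
          (fun p _ hp => if_neg fun h => hp (Fin.ext h)) (by simp), if_pos rfl, hd]
      have e1 : (∑ p, if _h : lo j < j then
          wlo q lo hi j * (coef q lo hi k (lo j) p * coef q lo hi k j p) else 0)
          = wlo q lo hi j * (wlo q lo hi j * A + whi q lo hi j * A) := by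
        rcases I.lo_lt j hl0 hl with h | h
        · simp only [dif_pos h, ← mul_sum, hcl (lo j) h, A, B]
          rw [min_self, min_eq_left (show q (lo j) ≤ q (hi j) by linarith)]
        · simp [show ¬lo j < j by omega, A, I.q_none _ h]
      rw [e1]
      simp only [min_self, min_eq_right (show A ≤ q (hi j) by linarith), B, A, wlo, whi]
      have : q (hi j) - q (lo j) ≠ 0 := hBA.ne'
      field_simp
      ring

lemma coef_diag {δ : ℝ} (hδ : 0 < δ) (hδ1 : δ ≤ 1) (I : Interp δ k q lo hi) (p : Fin k) :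
    δ ≤ coef q lo hi k p p := by
  rw [coef, if_neg p.2.not_ge]
  rcases Nat.eq_zero_or_pos (p : ℕ) with h | h
  · rw [if_pos h, if_pos h]; exact hδ1
  · obtain ⟨g1, g2, g3⟩ := I.gap p h p.2
    rw [if_neg h.ne', if_pos rfl, dif_pos (I.hi_lt p h p.2),
      coef_tri q lo hi (hi p) p (I.hi_lt p h p.2)]
    have hz : (if _h : lo p < p then wlo q lo hi p * coef q lo hi k (lo p) p else 0) = 0 := by
      split_ifs with h'
      · rw [coef_tri q lo hi (lo p) p h']; ring
      · rfl
    rw [hz, mul_zero, zero_add, zero_add]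
    refine le_sqrt_of_sq_le ?_
    have hq := I.q_nonneg (lo p)
    rw [sq, le_div_iff₀ (by linarith)]
    have h1 := mul_le_mul g1 g2 hδ.le (by linarith)
    have h2 : δ * δ * (q (hi p) - q (lo p)) ≤ δ * δ * 1 :=
      mul_le_mul_of_nonneg_left (by linarith) (mul_nonneg hδ.le hδ.le)
    linarith

end build

/-- Parameters of the chain with `N` iterates from the configuration and then iterates from zero. -/
noncomputable def qjoin (τ u : ℝ) (N k l : ℕ) : ℝ :=
  if k ≤ l then 0 else if l < N then qdn τ u l else qup τ u (l - N + 1)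

/-- The chain of `N ≥ 1` iterates from the configuration followed by `M` iterates from zero. -/
theorem exists_chain {τ : ℝ} (hτ : 0 < τ) (hτ1 : τ ≤ 1) (T u₁ : ℝ) (hu₁ : 0 < u₁) (N M : ℕ)
    (hN : 0 < N) : ∃ δ > 0, ∀ u ∈ Set.Icc 0 T, (0 < M → u₁ ≤ u) →
      ∃ C : Chain τ u δ (N + M), (∀ l < N, C.q l = qdn τ u l ∧ (0 < l → C.par l = l - 1)) ∧
        ∀ i < M, C.q (N + i) = qup τ u (i + 1) ∧
          C.par (N + i) = if i = 0 then N + M else N + i - 1 := by
  obtain ⟨δ, hδ, hgap⟩ := exists_gap hτ hτ1 T u₁ hu₁ (N + M)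
  refine ⟨min δ 1, lt_min hδ one_pos, fun u hu hM => ?_⟩
  obtain ⟨hd, hu'⟩ := hgap u hu
  have hu0 := hu.1
  set q := qjoin τ u N (N + M)
  let lo : ℕ → ℕ := fun l => if l < N then N + M else if l = N then N + M else l - 1
  let hi : ℕ → ℕ := fun l => if l < N then l - 1 else N - 1
  have hqd : ∀ l < N, q l = qdn τ u l := fun l hl => by
    simp only [q, qjoin, if_pos hl, if_neg (show ¬N + M ≤ l by omega)]
  have hqu : ∀ i < M, q (N + i) = qup τ u (i + 1) := fun i hi => by
    simp only [q, qjoin, if_neg (show ¬N + M ≤ N + i by omega), if_neg (show ¬N + i < N by omega),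
      show N + i - N + 1 = i + 1 by omega]
  have hqn : ∀ l, N + M ≤ l → q l = 0 := fun l hl => if_pos hl
  have hmem : ∀ l, q l ∈ Set.Icc (0:ℝ) 1 := fun l => by
    simp only [q, qjoin]
    split_ifs
    exacts [⟨le_rfl, zero_le_one⟩, qdn_mem hτ.le hu0 l, qup_mem hτ.le hu0 _]
  have hq0 : q 0 = 1 := hqd 0 hN
  have hlo : ∀ l, N ≤ l → l < N + M → q (lo l) = qup τ u (l - N) := fun l h h' => by
    rcases h.lt_or_eq with h | rfl
    · obtain ⟨i, rfl⟩ : ∃ i, l = N + i + 1 := ⟨l - N - 1, by omega⟩
      simp only [lo, if_neg (show ¬N + i + 1 < N by omega), if_neg (show ¬N + i + 1 = N by omega),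
        show N + i + 1 - 1 = N + i by omega, show N + i + 1 - N = i + 1 by omega]
      exact hqu i (by omega)
    · simp only [lo, lt_irrefl, if_false, if_true, Nat.sub_self, qup]
      exact hqn _ le_rfl
  have hI : Interp (min δ 1) (N + M) q lo hi := by
    refine ⟨hq0, hqn, fun l => (hmem l).1, fun l _ _ => ?_, fun l hl _ => ?_, fun l hl hl' => ?_,
      fun l j hl hl' hj => ?_⟩
    · simp only [lo]; split_ifs <;> omega
    · simp only [hi]; split_ifs <;> omega
    · rcases lt_or_ge l N with h | h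
      · simp only [lo, hi, if_pos h]
        rw [hqn (N + M) le_rfl, sub_zero, hqd l h, hqd (l - 1) (by omega)]
        have h1 := (hd (l - 1) (by omega)).1
        rw [Nat.sub_add_cancel hl] at h1
        exact ⟨(min_le_left _ _).trans (hd l (by omega)).2, (min_le_left _ _).trans h1,
          (qdn_mem hτ.le hu0 _).2⟩
      · obtain ⟨i, rfl⟩ : ∃ i, l = N + i := ⟨l - N, by omega⟩
        obtain ⟨hx, -⟩ := hu' (hM (by omega)) (N - 1) (by omega)
        obtain ⟨-, hy⟩ := hu' (hM (by omega)) i (by omega)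
        rw [hlo _ h hl', hqu i (by omega), show N + i - N = i by omega]
        simp only [hi, if_neg (show ¬N + i < N by omega)]
        rw [hqd (N - 1) (by omega)]
        exact ⟨(min_le_left _ _).trans hy, (min_le_left _ _).trans (hx _),
          (qdn_mem hτ.le hu0 _).2⟩
    · rcases lt_or_ge l N with h | h
      · simp only [hi, if_pos h]
        right
        rw [hqd j (by omega), hqd (l - 1) (by omega)]
        exact qdn_antitone hτ.le hu0 (by omega)
      · rcases lt_or_ge j N with h' | h'
        · simp only [hi, if_neg (show ¬l < N by omega)]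
          right
          rw [hqd j h', hqd (N - 1) (by omega)]
          exact qdn_antitone hτ.le hu0 (by omega)
        · obtain ⟨i, rfl⟩ : ∃ i, j = N + i := ⟨j - N, by omega⟩
          left
          rw [hqu i (by omega), hlo l h hl']
          exact qup_monotone hτ.le hu0 (by omega)
  refine ⟨{
    q := q
    c := coef q lo hi (N + M)
    par := fun l => if l < N then l - 1 else lo l
    kpos := by omega
    q_zero := hq0
    q_mem := hmem
    none := fun l hl => ⟨hqn l hl, coef_none q lo hi hl⟩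
    par_lt := fun l hl _ => by simp only [lo]; split_ifs <;> omega
    q_par := fun l hl hl' => ?_
    tri := coef_tri q lo hi
    gram := fun j l => ?_
    diag := coef_diag (lt_min hδ one_pos) (min_le_right _ _) hI },
    fun l hl => ⟨hqd l hl, fun _ => if_pos hl⟩, fun i hi => ⟨hqu i hi, ?_⟩⟩
  · rcases lt_or_ge l N with h | h
    · rw [if_pos h, hqd l h, hqd (l - 1) (by omega)]
      obtain ⟨l', rfl⟩ : ∃ l', l = l' + 1 := ⟨l - 1, by omega⟩
      rfl
    · rw [if_neg (show ¬l < N by omega), hlo l h hl']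
      obtain ⟨i, rfl⟩ : ∃ i, l = N + i := ⟨l - N, by omega⟩
      rw [hqu i (by omega), show N + i - N = i by omega]
      rfl
  · rcases le_total j l with h | h
    · exact coef_gram (lt_min hδ one_pos) hI l j h
    · rw [min_comm, ← coef_gram (lt_min hδ one_pos) hI j l h]
      exact sum_congr rfl fun p _ => mul_comm _ _
  · simp only [lo, if_neg (show ¬N + i < N by omega), Nat.add_eq_left]

end Vale.Agent.P150.Beta1
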