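import Mathlib
import Vale.Agent.P150.Beta1.Fields.Adaptive

/-!
# Orthonormalisation with a prescribed Gram matrix

`gsv v` orthonormalises `v` (a degenerate step gives the zero vector). When the Gram matrix of `v`
is near `C Cᵀ` for a lower triangular `C` with diagonal at least `δ`, the coefficients are near `C`
and vectors almost orthogonal to `v` are almost orthogonal to the orthonormalised family.
-/

namespace Vale.Agent.P150.Beta1

open Finset Real

variable {n : ℕ}

/-- Gram–Schmidt, zero at a degenerate step. -/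
noncomputable def gsv (v : ℕ → Fin n → ℝ) (l : ℕ) : Fin n → ℝ :=
  let r := v l - ∑ p : Fin l, dot (gsv v p) (v l) • gsv v p
  (√(dot r r))⁻¹ • r
termination_by l
decreasing_by all_goals exact p.2

/-- The residual of a step. -/
noncomputable def gres (v : ℕ → Fin n → ℝ) (l : ℕ) : Fin n → ℝ :=
  v l - ∑ p : Fin l, dot (gsv v p) (v l) • gsv v p

lemma gsv_eq (v : ℕ → Fin n → ℝ) (l : ℕ) :
    gsv v l = (√(dot (gres v l) (gres v l)))⁻¹ • gres v l := by rw [gsv]; rfl

lemma gsv_congr {v w : ℕ → Fin n → ℝ} {l : ℕ} (h : ∀ r ≤ l, v r = w r) : gsv v l = gsv w l := by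
  induction l using Nat.strong_induction_on with
  | _ l ih =>
    have e : gres v l = gres w l := by
      simp only [gres, h l le_rfl]
      congr 1
      exact sum_congr rfl fun p _ => by rw [ih p p.2 fun r hr => h r (hr.trans p.2.le)]
    rw [gsv_eq, gsv_eq, e]

lemma dot_self_eq_zero {ι : Type*} [Fintype ι] {x : ι → ℝ} (h : dot x x = 0) : x = 0 := by
  funext i
  exact mul_self_eq_zero.1 ((sum_eq_zero_iff_of_nonneg fun j _ => mul_self_nonneg (x j)).1 h i
    (mem_univ i))

lemma dot_self_nonneg {ι : Type*} [Fintype ι] (x : ι → ℝ) : 0 ≤ dot x x :=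
  sum_nonneg fun _ _ => mul_self_nonneg _

lemma gsv_unit (v : ℕ → Fin n → ℝ) (l : ℕ) :
    gsv v l = 0 ∨ dot (gsv v l) (gsv v l) = 1 := by
  rcases (dot_self_nonneg (gres v l)).eq_or_lt with h | h
  · left; rw [gsv_eq, ← h]; simp
  · right
    rw [gsv_eq, smul_dot, dot_smul, ← mul_assoc, ← mul_inv, mul_self_sqrt h.le,
      inv_mul_cancel₀ h.ne']

lemma gres_eq_smul (v : ℕ → Fin n → ℝ) (l : ℕ) :
    gres v l = √(dot (gres v l) (gres v l)) • gsv v l := by
  rcases (dot_self_nonneg (gres v l)).eq_or_lt with h | h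
  · rw [← h, sqrt_zero, zero_smul, dot_self_eq_zero h.symm]
  · rw [gsv_eq, smul_smul, mul_inv_cancel₀ (sqrt_pos.2 h).ne', one_smul]

lemma gsv_ortho (v : ℕ → Fin n → ℝ) : ∀ l p, p < l → dot (gsv v p) (gsv v l) = 0 := by
  intro l
  induction l using Nat.strong_induction_on with
  | _ l ih =>
    intro p hp
    have h0 : dot (gsv v p) (gres v l) = 0 := by
      rw [gres, dot_sub, dot_finset_sum, sum_eq_single (⟨p, hp⟩ : Fin l)]
      · rw [dot_smul]
        rcases gsv_unit v p with h | h
        · simp [h, dot]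
        · rw [h, mul_one, sub_self]
      · intro q _ hq
        rw [dot_smul]
        rcases lt_or_gt_of_ne (show (q : ℕ) ≠ p from fun e => hq (Fin.ext e)) with h | h
        · rw [dot_comm (gsv v p), ih p hp q h, mul_zero]
        · rw [ih q q.2 p h, mul_zero]
      · simp
    rw [gsv_eq v l, dot_smul, h0, mul_zero]

lemma gsv_orthoFam (v : ℕ → Fin n → ℝ) (k : ℕ) : OrthoFam fun l : Fin k => gsv v l where
  ortho p l h := by
    rcases lt_or_gt_of_ne (show (p : ℕ) ≠ l from fun e => h (Fin.ext e)) with h | h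
    · exact gsv_ortho v l p h
    · rw [dot_comm]; exact gsv_ortho v p l h
  unit l := gsv_unit v l

/-- A coefficient. -/
noncomputable def gcoef (v : ℕ → Fin n → ℝ) (l p : ℕ) : ℝ := dot (gsv v p) (v l)

lemma gcoef_diag (v : ℕ → Fin n → ℝ) (l : ℕ) :
    gcoef v l l = √(dot (gres v l) (gres v l)) := by
  have h : v l = (∑ p : Fin l, dot (gsv v p) (v l) • gsv v p) + gres v l := by
    rw [gres]; abel
  rw [gcoef]
  conv_lhs => rw [h]
  rw [dot_add, dot_finset_sum, sum_eq_zero fun p _ => by
    rw [dot_smul, dot_comm (gsv v l), gsv_ortho v l p p.2, mul_zero], zero_add, gres_eq_smul, dot_smul]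
  rcases gsv_unit v l with h' | h'
  · have : gres v l = 0 := by rw [gres_eq_smul, h', smul_zero]
    simp [h', this, dot]
  · rw [h', mul_one]
    congr 1
    rw [smul_dot, dot_smul, h']
    ring_nf
    exact (sq_sqrt (dot_self_nonneg _)).symm

/-- Each vector is the combination of the family up to it. -/
lemma gsv_expand (v : ℕ → Fin n → ℝ) (l : ℕ) :
    v l = ∑ p ∈ range (l + 1), gcoef v l p • gsv v p := by
  rw [sum_range_succ, gcoef_diag, ← gres_eq_smul,
    ← Fin.sum_univ_eq_sum_range (fun p => gcoef v l p • gsv v p) l]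
  simp only [gres, gcoef]
  abel

lemma dot_expand (v : ℕ → Fin n → ℝ) (p : ℕ) (x : Fin n → ℝ) :
    dot (v p) x = (∑ q ∈ range p, gcoef v p q * dot (gsv v q) x)
      + gcoef v p p * dot (gsv v p) x := by
  conv_lhs => rw [gsv_expand v p]
  rw [sum_dot, sum_range_succ]
  simp only [smul_dot]

lemma abs_sum_range_sub_le {p : ℕ} {a b c d : ℕ → ℝ} {ε : ℝ} (hε : 0 ≤ ε) (hε1 : ε ≤ 1)
    (ha : ∀ q < p, |a q - c q| ≤ ε) (hb : ∀ q < p, |b q - d q| ≤ ε) (hc : ∀ q < p, |c q| ≤ 1)
    (hd : ∀ q < p, |d q| ≤ 1) :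
    |(∑ q ∈ range p, a q * b q) - ∑ q ∈ range p, c q * d q| ≤ p * (3 * ε) := by
  rw [← sum_sub_distrib]
  refine (abs_sum_le_sum_abs _ _).trans
    ((sum_le_card_nsmul _ _ (3 * ε) fun q hq => ?_).trans (le_of_eq (by simp)))
  have hq := mem_range.1 hq
  rw [show a q * b q - c q * d q
    = (a q - c q) * (b q - d q) + (a q - c q) * d q + c q * (b q - d q) by ring]
  refine (abs_add_three _ _ _).trans ?_
  rw [abs_mul, abs_mul, abs_mul]
  have := mul_le_mul (ha q hq) ((hb q hq).trans hε1) (abs_nonneg _) hε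
  have := mul_le_mul (ha q hq) (hd q hq) (abs_nonneg _) hε
  have := mul_le_mul (hc q hq) (hb q hq) (abs_nonneg _) zero_le_one
  linarith

/-- Coefficients and projections are continuous in the Gram data. -/
theorem gsv_close (k : ℕ) {δ : ℝ} (hδ : 0 < δ) {ε : ℝ} (hε : 0 < ε) :
    ∃ η > 0, ∀ (n : ℕ) (v : ℕ → Fin n → ℝ) (Q : ℕ → ℕ → ℝ) (c : ℕ → ℕ → ℝ),
      (∀ l p, l < p → c l p = 0) → (∀ l p, |c l p| ≤ 1) → (∀ p < k, δ ≤ c p p) →
      (∀ l, ∀ p < k, Q p l = (∑ q ∈ range p, c p q * c l q) + c p p * c l p) →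
      (∀ j < k, ∀ l < k, |dot (v j) (v l) - Q j l| ≤ η) →
      ∀ p < k, dot (gsv v p) (gsv v p) = 1 ∧
        (∀ l < k, |gcoef v l p - c l p| ≤ ε) ∧
        ∀ x : Fin n → ℝ, (∀ r ≤ p, |dot (v r) x| ≤ η) → |dot (gsv v p) x| ≤ ε := by
  suffices H : ∀ P, ∀ ε : ℝ, 0 < ε → ∃ η > 0, ∀ (n : ℕ) (v : ℕ → Fin n → ℝ)
      (Q : ℕ → ℕ → ℝ) (c : ℕ → ℕ → ℝ),
      (∀ l p, l < p → c l p = 0) → (∀ l p, |c l p| ≤ 1) → (∀ p < k, δ ≤ c p p) →
      (∀ l, ∀ p < k, Q p l = (∑ q ∈ range p, c p q * c l q) + c p p * c l p) →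
      (∀ j < k, ∀ l < k, |dot (v j) (v l) - Q j l| ≤ η) →
      ∀ p < P, p < k → dot (gsv v p) (gsv v p) = 1 ∧
        (∀ l < k, |gcoef v l p - c l p| ≤ ε) ∧
        ∀ x : Fin n → ℝ, (∀ r ≤ p, |dot (v r) x| ≤ η) → |dot (gsv v p) x| ≤ ε by
    obtain ⟨η, hη, h⟩ := H k ε hε
    exact ⟨η, hη, fun n v Q c h1 h2 h3 h4 h5 p hp => h n v Q c h1 h2 h3 h4 h5 p hp hp⟩
  intro P
  induction P with
  | zero => exact fun ε _ => ⟨1, one_pos, fun _ _ _ _ _ _ _ _ _ p hp => absurd hp (Nat.not_lt_zero p)⟩
  | succ P ih =>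
    intro ε hε
    set ε' := min (min ε 1) (δ / 2) with hε'
    have hε'0 : 0 < ε' := lt_min (lt_min hε one_pos) (by linarith)
    set e₁ := ε' * δ ^ 2 / (16 * (P + 1))
    have he₁ : 0 < e₁ := by positivity
    obtain ⟨η₀, hη₀, h0⟩ := ih (min e₁ ε') (lt_min he₁ hε'0)
    refine ⟨min η₀ (ε' * δ ^ 2 / 16), lt_min hη₀ (by positivity),
      fun n v Q c htri hc hdiag hQ hG p hp hpk => ?_⟩
    have hG0 : ∀ j < k, ∀ l < k, |dot (v j) (v l) - Q j l| ≤ η₀ :=
      fun j hj l hl => (hG j hj l hl).trans (min_le_left _ _)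
    have hprev := h0 n v Q c htri hc hdiag hQ hG0
    rcases (Nat.lt_succ_iff.1 hp).lt_or_eq with hp | rfl
    · obtain ⟨a1, a2, a3⟩ := hprev p hp hpk
      have hle : min e₁ ε' ≤ ε := (min_le_right _ _).trans ((min_le_left _ _).trans (min_le_left _ _))
      exact ⟨a1, fun l hl => (a2 l hl).trans hle,
        fun x hx => (a3 x fun r hr => (hx r hr).trans (min_le_left _ _)).trans hle⟩
    have hd := hdiag p hpk
    have hd1 : δ ≤ 1 := hd.trans ((le_abs_self _).trans (hc p p))
    have hε1 : ε' ≤ 1 := (min_le_left _ _).trans (min_le_right _ _)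
    have he1 : e₁ ≤ 1 := by
      simp only [e₁]
      rw [div_le_one (by positivity)]
      have := mul_le_one₀ hε1 (sq_nonneg δ) (pow_le_one₀ hδ.le hd1)
      linarith [p.cast_nonneg (α := ℝ)]
    have key : ∀ l < k, |gcoef v p p * gcoef v l p - c p p * c l p| ≤ ε' * δ ^ 2 / 4 := by
      intro l hl
      have e : gcoef v p p * gcoef v l p
          = dot (v p) (v l) - ∑ q ∈ range p, gcoef v p q * gcoef v l q := by
        rw [dot_expand v p (v l)]; simp only [gcoef]; ring
      have hs := abs_sum_range_sub_le (p := p) (a := fun q => gcoef v p q)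
        (b := fun q => gcoef v l q) (c := fun q => c p q) (d := fun q => c l q) he₁.le he1
        (fun q hq => ((hprev q hq (hq.trans hpk)).2.1 p hpk).trans (min_le_left _ _))
        (fun q hq => ((hprev q hq (hq.trans hpk)).2.1 l hl).trans (min_le_left _ _))
        (fun q _ => hc p q) (fun q _ => hc l q)
      have hb : (p:ℝ) * (3 * e₁) ≤ ε' * δ ^ 2 * (3 / 16) := by
        simp only [e₁]
        rw [← mul_div_assoc, ← mul_div_assoc, div_le_iff₀ (by positivity)]
        linarith [show 0 ≤ ε' * δ ^ 2 by positivity]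
      have h1 := abs_sub (dot (v p) (v l) - Q p l) ((∑ q ∈ range p, gcoef v p q * gcoef v l q)
        - ∑ q ∈ range p, c p q * c l q)
      rw [e, show dot (v p) (v l) - (∑ q ∈ range p, gcoef v p q * gcoef v l q) - c p p * c l p
        = (dot (v p) (v l) - Q p l) - ((∑ q ∈ range p, gcoef v p q * gcoef v l q)
          - ∑ q ∈ range p, c p q * c l q) by rw [hQ l p hpk]; ring]
      linarith [(hG p hpk l hl).trans (min_le_right _ _)]
    have hpp : |gcoef v p p - c p p| ≤ ε' * δ / 4 := by
      have ha : 0 ≤ gcoef v p p := by rw [gcoef_diag]; exact sqrt_nonneg _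
      have h := key p hpk
      rw [show gcoef v p p * gcoef v p p - c p p * c p p
        = (gcoef v p p + c p p) * (gcoef v p p - c p p) by ring, abs_mul,
        abs_of_pos (show 0 < gcoef v p p + c p p by linarith)] at h
      have h2 := mul_le_mul_of_nonneg_right (show δ ≤ gcoef v p p + c p p by linarith)
        (abs_nonneg (gcoef v p p - c p p))
      refine le_of_mul_le_mul_left ((h2.trans h).trans (le_of_eq ?_)) hδ
      ring
    have hlow : δ / 2 ≤ gcoef v p p := by
      have := (abs_le.1 hpp).1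
      have := mul_le_of_le_one_left hδ.le hε1
      linarith
    have hunit : dot (gsv v p) (gsv v p) = 1 := by
      rcases gsv_unit v p with h | h
      · simp [gcoef, h, dot] at hlow; linarith
      · exact h
    refine ⟨hunit, fun l hl => ?_, fun x hx => ?_⟩
    · have h := key l hl
      have h2 : gcoef v p p * |gcoef v l p - c l p| ≤ ε' * δ / 2 := by
        rw [show gcoef v p p * |gcoef v l p - c l p| = |gcoef v p p * (gcoef v l p - c l p)| by
            rw [abs_mul, abs_of_nonneg (show 0 ≤ gcoef v p p by linarith)],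
          show gcoef v p p * (gcoef v l p - c l p) = (gcoef v p p * gcoef v l p - c p p * c l p)
            - c l p * (gcoef v p p - c p p) by ring]
        refine (abs_sub _ _).trans ?_
        rw [abs_mul]
        have := mul_le_mul (hc l p) hpp (abs_nonneg _) zero_le_one
        have : ε' * δ ^ 2 ≤ ε' * δ := by
          rw [sq, ← mul_assoc]; exact mul_le_of_le_one_right (by positivity) hd1
        linarith
      have h3 := (mul_le_mul_of_nonneg_right hlow (abs_nonneg (gcoef v l p - c l p))).trans h2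
      have h4 : |gcoef v l p - c l p| ≤ ε' :=
        le_of_mul_le_mul_left (h3.trans (le_of_eq (by ring))) (half_pos hδ)
      exact h4.trans ((min_le_left _ _).trans (min_le_left _ _))
    · have e : gcoef v p p * dot (gsv v p) x
          = dot (v p) x - ∑ q ∈ range p, gcoef v p q * dot (gsv v q) x := by
        rw [dot_expand v p x]; ring
      have hs := abs_sum_range_sub_le (p := p) (a := fun q => gcoef v p q)
        (b := fun q => dot (gsv v q) x) (c := fun q => c p q) (d := fun _ => 0) he₁.le he1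
        (fun q hq => ((hprev q hq (hq.trans hpk)).2.1 p hpk).trans (min_le_left _ _))
        (fun q hq => by
          rw [sub_zero]
          exact ((hprev q hq (hq.trans hpk)).2.2 x fun r hr =>
            (hx r (hr.trans hq.le)).trans (min_le_left _ _)).trans (min_le_left _ _))
        (fun q _ => hc p q) (fun q _ => by simp)
      simp only [mul_zero, sum_const_zero, sub_zero] at hs
      have hb : (p:ℝ) * (3 * e₁) ≤ ε' * δ ^ 2 * (3 / 16) := by
        simp only [e₁]
        rw [← mul_div_assoc, ← mul_div_assoc, div_le_iff₀ (by positivity)]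
        linarith [show 0 ≤ ε' * δ ^ 2 by positivity]
      have h2 : gcoef v p p * |dot (gsv v p) x| ≤ ε' * δ / 2 := by
        rw [show gcoef v p p * |dot (gsv v p) x| = |gcoef v p p * dot (gsv v p) x| by
            rw [abs_mul, abs_of_nonneg (show 0 ≤ gcoef v p p by linarith)], e]
        refine (abs_sub _ _).trans ?_
        have : ε' * δ ^ 2 ≤ ε' * δ := by
          rw [sq, ← mul_assoc]; exact mul_le_of_le_one_right (by positivity) hd1
        have := (hx p le_rfl).trans (min_le_right _ _)
        linarith [mul_nonneg hε'0.le hδ.le]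
      have h3 := (mul_le_mul_of_nonneg_right hlow (abs_nonneg (dot (gsv v p) x))).trans h2
      exact (le_of_mul_le_mul_left (h3.trans (le_of_eq (by ring))) (half_pos hδ)).trans
        ((min_le_left _ _).trans (min_le_left _ _))

lemma measurable_gsv {α : Type*} [MeasurableSpace α] {v : α → ℕ → Fin n → ℝ}
    (hv : ∀ r, Measurable fun a => v a r) : ∀ l, Measurable fun a => gsv (v a) l := by
  intro l
  induction l using Nat.strong_induction_on with
  | _ l ih =>
    have hd : ∀ {f g : α → Fin n → ℝ}, Measurable f → Measurable g →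
        Measurable fun a => dot (f a) (g a) := fun hf hg =>
      Finset.measurable_sum _ fun i _ =>
        ((measurable_pi_apply i).comp hf).mul ((measurable_pi_apply i).comp hg)
    have hr : Measurable fun a => gres (v a) l := by
      refine measurable_pi_lambda _ fun i => ?_
      simp only [gres, Pi.sub_apply, Finset.sum_apply, Pi.smul_apply, smul_eq_mul]
      exact ((measurable_pi_apply i).comp (hv l)).sub (Finset.measurable_sum _ fun p _ =>
        (hd (ih p p.2) (hv l)).mul ((measurable_pi_apply i).comp (ih p p.2)))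
    simp only [gsv_eq]
    refine measurable_pi_lambda _ fun i => ?_
    simp only [Pi.smul_apply, smul_eq_mul]
    exact ((hd hr hr).sqrt.inv).mul ((measurable_pi_apply i).comp hr)

end Vale.Agent.P150.Beta1
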