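import Mathlib
import Vale.Agent.P150.Edge

/-!
# Averages over independent sites

A function of quadratic growth of finitely many Gaussian coordinates per site concentrates
exponentially around its mean, with constants depending only on the growth.
-/

namespace Vale.Agent.P150.Beta1

open MeasureTheory ProbabilityTheory Finset Real
open scoped ENNReal

variable {κ : Type*} [Fintype κ]

lemma integrable_exp_quarter : Integrable (fun x : ℝ => exp (x ^ 2 / 4)) (gaussianReal 0 1) := by
  refine ⟨(by fun_prop : Continuous fun x : ℝ => exp (x ^ 2 / 4)).aestronglyMeasurable, ?_⟩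
  rw [hasFiniteIntegral_iff_ofReal (ae_of_all _ fun x => (exp_pos _).le)]
  refine lt_of_le_of_lt ?_ (ENNReal.ofReal_lt_top (r := 2))
  have h := P309.lintegral_exp_sq_gaussian (a := 1 / 4) (C := 2) (by norm_num) (by norm_num)
  simpa only [div_eq_inv_mul, mul_one] using h

/-- The exponential weight of a site. -/
noncomputable def expSq (x : κ → ℝ) : ℝ := exp ((1 + ∑ k, x k ^ 2) / 4)

lemma integrable_expSq : Integrable (expSq (κ := κ)) (gauss κ) := by
  have e : expSq (κ := κ) = fun x => exp (1 / 4) * ∏ k, exp (x k ^ 2 / 4) := by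
    funext x
    rw [← exp_sum, ← exp_add, ← sum_div, expSq]
    ring_nf
  rw [e]
  exact (Integrable.fintype_prod fun _ => integrable_exp_quarter).const_mul _

lemma exp_le_quad (x : ℝ) : exp x ≤ 1 + x + x ^ 2 * exp |x| := by
  have h := Real.norm_exp_sub_one_sub_id_le (x := x)
  rcases le_or_gt |x| 1 with h1 | h1
  · have := h (by simpa using h1)
    simp only [norm_eq_abs, sq_abs] at this
    have h2 := (abs_le.1 this).2
    have h3 : x ^ 2 * 1 ≤ x ^ 2 * exp |x| :=
      mul_le_mul_of_nonneg_left (one_le_exp (abs_nonneg x)) (sq_nonneg x)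
    linarith
  · have h2 : 1 ≤ x ^ 2 := by nlinarith [sq_abs x]
    rcases le_or_gt 0 x with h3 | h3
    · rw [abs_of_nonneg h3]
      nlinarith [exp_pos x, one_le_exp h3]
    · rw [abs_of_neg h3] at h1 ⊢
      nlinarith [one_le_exp (neg_pos.2 h3).le, exp_le_one_iff.2 h3.le]

/-- Uniform exponential law of large numbers for site averages. -/
theorem site_lln (κ : Type*) [Fintype κ] (C : ℝ) {η : ℝ} (hη : 0 < η) :
    ∃ c > 0, ∀ (n : ℕ) (f : (κ → ℝ) → ℝ), Measurable f →
      (∀ x, |f x| ≤ C * (1 + ∑ k, x k ^ 2)) →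
      (Measure.pi fun _ : Fin n => gauss κ)
          {ω | η * n < |∑ i, f (ω i) - n * ∫ x, f x ∂gauss κ|}
        ≤ ENNReal.ofReal (2 * exp (-(c * n))) := by
  set d : ℝ := (Fintype.card κ : ℝ) with hd_def
  set C' := |C| * (2 + d) + 1
  have hd : 0 ≤ d := Nat.cast_nonneg _
  have hC'0 : 0 ≤ |C| * (2 + d) := by positivity
  have hC' : 0 < C' := by linarith
  set lam0 := 1 / (8 * C')
  have hlam0 : 0 < lam0 := by positivity
  set M := ∫ x, C' ^ 2 * 16 ^ 2 * expSq x ∂gauss κ with hM
  have hM0 : 0 ≤ M := integral_nonneg fun x => mul_nonneg (by positivity) (exp_pos _).le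
  set lam := min lam0 (η / (2 * (M + 1)))
  have hlam : 0 < lam := lt_min hlam0 (by positivity)
  refine ⟨lam * η / 2, by positivity, fun n f hf hfb => ?_⟩
  have hsq : ∀ k, Integrable (fun x : κ → ℝ => x k ^ 2) (gauss κ) := fun k =>
    (measurePreserving_eval (fun _ : κ => gaussianReal 0 1) k).integrable_comp_of_integrable
      (memLp_id_gaussianReal 2).integrable_sq
  have hg : Integrable (fun x : κ → ℝ => |C| * (1 + ∑ k, x k ^ 2)) (gauss κ) :=
    ((integrable_const (1:ℝ)).fun_add (integrable_finsetSum _ fun k _ => hsq k)).const_mul _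
  have hfb' : ∀ x, |f x| ≤ |C| * (1 + ∑ k, x k ^ 2) := fun x =>
    (hfb x).trans (mul_le_mul_of_nonneg_right (le_abs_self C) (by positivity))
  have hfi : Integrable f (gauss κ) :=
    hg.mono' hf.aestronglyMeasurable (ae_of_all _ hfb')
  have hmean : |∫ x, f x ∂gauss κ| ≤ |C| * (1 + d) := by
    refine (abs_integral_le_integral_abs).trans ((integral_mono hfi.abs hg hfb').trans (le_of_eq ?_))
    rw [integral_const_mul, integral_add (integrable_const _)
      (integrable_finsetSum _ fun k _ => hsq k), integral_finsetSum _ fun k _ => hsq k]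
    have h1 : ∀ k : κ, ∫ x, x k ^ 2 ∂gauss κ = 1 := fun k => by
      have h := integral_map (μ := gauss κ) (φ := fun x => x k)
        (measurable_pi_apply k).aemeasurable (f := fun x : ℝ => x ^ 2) (by fun_prop)
      rw [show (gauss κ).map (fun x => x k) = gaussianReal 0 1 from
        (measurePreserving_eval (fun _ : κ => gaussianReal 0 1) k).map_eq] at h
      rw [← h]
      have hv := variance_id_gaussianReal (μ := 0) (v := 1)
      rw [variance_eq_integral aemeasurable_id] at hv
      simpa [integral_id_gaussianReal] using hv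
    simp [h1, d]
  set μ := ∫ x, f x ∂gauss κ with hμ
  have key : ∀ s : ℝ, |s| = 1 → (Measure.pi fun _ : Fin n => gauss κ)
      {ω | η * n < s * (∑ i, f (ω i) - n * μ)}
      ≤ ENNReal.ofReal (exp (-(lam * η / 2 * n))) := by
    intro s hs
    have hX : ∀ x, |s * (f x - μ)| ≤ C' * (1 + ∑ k, x k ^ 2) := fun x => by
      have h0 : (1:ℝ) ≤ 1 + ∑ k, x k ^ 2 := le_add_of_nonneg_right (by positivity)
      rw [abs_mul, hs, one_mul]
      refine ((abs_sub _ _).trans (add_le_add (hfb' x) hmean)).trans ?_
      have := mul_le_mul_of_nonneg_left h0 (show 0 ≤ |C| * (1 + d) + 1 by positivity)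
      simp only [C']
      linarith
    have hexp : ∀ x, exp (lam * (s * (f x - μ)))
        ≤ 1 + lam * (s * (f x - μ)) + lam ^ 2 * (C' ^ 2 * 16 ^ 2 * expSq x) := by
      intro x
      refine (exp_le_quad _).trans (add_le_add le_rfl ?_)
      set S := 1 + ∑ k, x k ^ 2
      have hS : 0 ≤ S := by positivity
      have h1 : |lam * (s * (f x - μ))| ≤ S / 8 := by
        rw [abs_mul, abs_of_pos hlam]
        refine (mul_le_mul (min_le_left _ _) (hX x) (abs_nonneg _) hlam0.le).trans (le_of_eq ?_)
        simp only [lam0, S]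
        field_simp
      rw [mul_pow, mul_assoc]
      refine mul_le_mul_of_nonneg_left ?_ (sq_nonneg lam)
      have h2 : (s * (f x - μ)) ^ 2 ≤ C' ^ 2 * S ^ 2 := by
        rw [← mul_pow, ← sq_abs]
        exact pow_le_pow_left₀ (abs_nonneg _) (hX x) 2
      refine (mul_le_mul h2 (exp_le_exp.2 h1) (exp_pos _).le (by positivity)).trans ?_
      rw [mul_assoc, mul_assoc]
      refine mul_le_mul_of_nonneg_left ?_ (sq_nonneg C')
      have e : expSq x = exp (S / 8) * exp (S / 8) := by rw [← exp_add, expSq]; congr 1; ring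
      have h3 : S ^ 2 ≤ 16 ^ 2 * exp (S / 8) := by
        have h4 := pow_le_pow_left₀ (by positivity : (0:ℝ) ≤ S / 16)
          ((le_add_of_nonneg_right zero_le_one).trans (add_one_le_exp (S / 16))) 2
        have e4 : exp (S / 16) ^ 2 = exp (S / 8) := by rw [← exp_nat_mul]; push_cast; ring_nf
        rw [e4] at h4
        nlinarith [exp_pos (S / 8)]
      rw [e, ← mul_assoc]
      exact mul_le_mul_of_nonneg_right h3 (exp_pos _).le
    have iE : Integrable (fun x => C' ^ 2 * 16 ^ 2 * expSq x) (gauss κ) :=
      integrable_expSq.const_mul _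
    have iX : Integrable (fun x => lam * (s * (f x - μ))) (gauss κ) :=
      ((hfi.sub (integrable_const μ)).const_mul s).const_mul lam
    have iR : Integrable (fun x => 1 + lam * (s * (f x - μ))
        + lam ^ 2 * (C' ^ 2 * 16 ^ 2 * expSq x)) (gauss κ) :=
      ((integrable_const (1:ℝ)).fun_add iX).fun_add (iE.const_mul _)
    have hem : Measurable fun x => exp (lam * (s * (f x - μ))) :=
      measurable_exp.comp (((hf.sub_const μ).const_mul s).const_mul lam)
    have i1 : Integrable (fun x => exp (lam * (s * (f x - μ)))) (gauss κ) :=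
      iR.mono' hem.aestronglyMeasurable (ae_of_all _ fun x => by
        rw [norm_of_nonneg (exp_pos _).le]; exact hexp x)
    have hone : ∫ x, exp (lam * (s * (f x - μ))) ∂gauss κ ≤ exp (lam ^ 2 * M) := by
      refine (integral_mono i1 iR hexp).trans ?_
      rw [integral_add ((integrable_const (1:ℝ)).fun_add iX) (iE.const_mul _),
        integral_add (integrable_const _) iX, integral_const_mul, integral_const_mul,
        integral_sub hfi (integrable_const μ), integral_const_mul, ← hM]
      simp only [integral_const, probReal_univ, one_smul, ← hμ, sub_self, mul_zero, add_zero]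
      linarith [add_one_le_exp (lam ^ 2 * M)]
    have hsum : ∀ ω : Fin n → κ → ℝ, exp (lam * (s * (∑ i, f (ω i) - n * μ)))
        = ∏ i, exp (lam * (s * (f (ω i) - μ))) := fun ω => by
      rw [← exp_sum]
      congr 1
      rw [← mul_sum, ← mul_sum, sum_sub_distrib]
      simp
    have hi : Integrable (fun ω : Fin n → κ → ℝ => exp (lam * (s * (∑ i, f (ω i) - n * μ))))
        (Measure.pi fun _ : Fin n => gauss κ) := by
      simp only [hsum]
      exact Integrable.fintype_prod fun _ => i1
    have hmark := measure_ge_le_exp_mul_mgf (μ := Measure.pi fun _ : Fin n => gauss κ)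
      (X := fun ω => s * (∑ i, f (ω i) - n * μ)) (η * n) hlam.le hi
    have hmgf : mgf (fun ω : Fin n → κ → ℝ => s * (∑ i, f (ω i) - n * μ))
        (Measure.pi fun _ : Fin n => gauss κ) lam ≤ exp (n * (lam ^ 2 * M)) := by
      simp only [mgf, hsum]
      rw [integral_fintype_prod_eq_prod (fun (_ : Fin n) x => exp (lam * (s * (f x - μ)))),
        prod_const, card_univ, Fintype.card_fin, exp_nat_mul]
      exact pow_le_pow_left₀ (integral_nonneg fun x => (exp_pos _).le) hone n
    refine (measure_mono (fun ω hω => ?_)).trans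
      ((ENNReal.le_ofReal_iff_toReal_le (measure_ne_top _ _) (exp_pos _).le).2
        (hmark.trans ((mul_le_mul_of_nonneg_left hmgf (exp_pos _).le).trans ?_)))
    · exact le_of_lt (show η * n < s * (∑ i, f (ω i) - n * μ) from hω)
    · rw [← exp_add, exp_le_exp]
      have h1 : lam * M ≤ η / 2 := by
        refine (mul_le_mul_of_nonneg_right (min_le_right _ _) hM0).trans ?_
        rw [div_mul_eq_mul_div, div_le_iff₀ (by linarith)]
        nlinarith
      have := mul_le_mul_of_nonneg_left h1 (mul_nonneg hlam.le (Nat.cast_nonneg (α := ℝ) n))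
      linarith
  have hsub : {ω : Fin n → κ → ℝ | η * n < |∑ i, f (ω i) - n * μ|}
      ⊆ {ω | η * n < 1 * (∑ i, f (ω i) - n * μ)} ∪ {ω | η * n < (-1) * (∑ i, f (ω i) - n * μ)} :=
    fun ω hω => by
      rcases lt_abs.1 (show η * n < |∑ i, f (ω i) - n * μ| from hω) with h | h
      · left; show η * n < 1 * _; rw [one_mul]; exact h
      · right; show η * n < (-1) * _; rw [neg_one_mul]; exact h
  refine (measure_mono hsub).trans ((measure_union_le _ _).trans
      ((add_le_add (key 1 abs_one) (key (-1) (by simp))).trans (le_of_eq ?_)))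
  rw [← ENNReal.ofReal_add (exp_pos _).le (exp_pos _).le]
  ring_nf

end Vale.Agent.P150.Beta1
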