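import Mathlib
import Vale.Agent.P150.GaussIBP
import Vale.Agent.P150.Beta1.Fields.Chain
import Vale.Agent.P150.Beta1.Fields.LLN

/-!
# One site of a chain

The moments of one site that the residual and the edge need, and the transfer of the law of large
numbers to the pair (noise, revealed vectors).
-/

namespace Vale.Agent.P150.Beta1

open MeasureTheory ProbabilityTheory Finset Real Function

variable {τ u δ : ℝ} {k : ℕ}

lemma gauss_second_moment {κ : Type*} [Fintype κ] (p : κ) :
    ∫ g, g p ^ 2 ∂gauss κ = 1 := by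
  have h := integral_map (μ := gauss κ) (φ := fun g => g p)
    (measurable_pi_apply p).aemeasurable (f := fun x : ℝ => x ^ 2) (by fun_prop)
  rw [show (gauss κ).map (fun g => g p) = gaussianReal 0 1 from
    (measurePreserving_eval (fun _ : κ => gaussianReal 0 1) p).map_eq] at h
  rw [← h]
  have hv := variance_id_gaussianReal (μ := 0) (v := 1)
  rw [variance_eq_integral aemeasurable_id] at hv
  simpa [integral_id_gaussianReal] using hv

/-- Integration by parts for an observable of one field. -/
lemma ibp_field {κ : Type*} [Fintype κ] [DecidableEq κ] (a : κ → ℝ) (p : κ) {f f' : ℝ → ℝ}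
    (hd : ∀ x, HasDerivAt f (f' x) x) (hc' : Continuous f') {B : ℝ} (hb : ∀ x, |f x| ≤ B)
    (hb' : ∀ x, |f' x| ≤ B) :
    ∫ g, g p * f (sfield a g) ∂gauss κ = a p * ∫ g, f' (sfield a g) ∂gauss κ := by
  rw [← integral_const_mul]
  refine gauss_ibp p ((continuous_iff_continuousAt.2 fun x => (hd x).continuousAt).comp
      (continuous_sfield a)) (continuous_const.mul (hc'.comp (continuous_sfield a))) (fun g => ?_)
    ⟨B, 0, fun g => by simpa using hb _⟩
    ⟨|a p| * B, 0, fun g => by
      rw [abs_mul, pow_zero, mul_one]; exact mul_le_mul_of_nonneg_left (hb' _) (abs_nonneg _)⟩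
  have h1 : HasDerivAt (fun r => sfield a (update g p r)) (a p) (g p) := by
    simp only [sfield, lin_update]
    simpa using ((((hasDerivAt_id (g p)).sub_const (g p)).const_mul (a p)).const_add
      (lin a g)).add_const (sqn a)
  have h2 := (hd (sfield a g)).comp_of_eq (g p) h1 (by rw [update_eq_self])
  rw [mul_comm]
  exact h2

/-- Second integration by parts. -/
lemma ibp_field_two {κ : Type*} [Fintype κ] [DecidableEq κ] (a : κ → ℝ) (p q : κ)
    {f f' f'' : ℝ → ℝ} (hd : ∀ x, HasDerivAt f (f' x) x) (hd' : ∀ x, HasDerivAt f' (f'' x) x)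
    (hc'' : Continuous f'') {B : ℝ} (hb : ∀ x, |f x| ≤ B) (hb' : ∀ x, |f' x| ≤ B)
    (hb'' : ∀ x, |f'' x| ≤ B) :
    ∫ g, g p * (g q * f (sfield a g)) ∂gauss κ
      = (if p = q then ∫ g, f (sfield a g) ∂gauss κ else 0)
        + a p * a q * ∫ g, f'' (sfield a g) ∂gauss κ := by
  have hc : Continuous f := continuous_iff_continuousAt.2 fun x => (hd x).continuousAt
  have hc' : Continuous f' := continuous_iff_continuousAt.2 fun x => (hd' x).continuousAt
  have hB : 0 ≤ B := (abs_nonneg _).trans (hb 0)
  have hq : ∀ g : κ → ℝ, |g q| ≤ 1 + ∑ i, |g i| := fun g => by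
    have := single_le_sum (f := fun i => |g i|) (fun i _ => abs_nonneg _) (mem_univ q)
    linarith
  have h1g : ∀ g : κ → ℝ, (1:ℝ) ≤ 1 + ∑ i, |g i| :=
    fun g => le_add_of_nonneg_right (sum_nonneg fun i _ => abs_nonneg _)
  have h := gauss_ibp p (F := fun g => g q * f (sfield a g))
    (G := fun g => (if p = q then f (sfield a g) else 0) + a p * (g q * f' (sfield a g)))
    ((continuous_apply q).mul (hc.comp (continuous_sfield a)))
    ((by split_ifs <;> [exact hc.comp (continuous_sfield a); exact continuous_const] :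
        Continuous fun g => if p = q then f (sfield a g) else 0).add
      (continuous_const.mul ((continuous_apply q).mul (hc'.comp (continuous_sfield a)))))
    (fun g => by
      have h1 : HasDerivAt (fun r => sfield a (update g p r)) (a p) (g p) := by
        simp only [sfield, lin_update]
        simpa using ((((hasDerivAt_id (g p)).sub_const (g p)).const_mul (a p)).const_add
          (lin a g)).add_const (sqn a)
      have h2 := (hd (sfield a g)).comp_of_eq (g p) h1 (by rw [update_eq_self])
      have h3 : HasDerivAt (fun r => update g p r q) (if p = q then 1 else 0) (g p) := by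
        rcases eq_or_ne p q with rfl | hpq
        · simpa using hasDerivAt_id' (g p)
        · simpa [update_of_ne (Ne.symm hpq), hpq] using hasDerivAt_const (g p) (g q)
      have h4 := h3.mul h2
      refine h4.congr_deriv ?_
      simp only [comp_apply, update_eq_self]
      split_ifs <;> ring)
    ⟨B, 1, fun g => by
      rw [abs_mul, pow_one, mul_comm B]
      exact mul_le_mul (hq g) (hb _) (abs_nonneg _) (zero_le_one.trans (h1g g))⟩
    ⟨(1 + |a p|) * B, 1, fun g => by
      refine (abs_add_le _ _).trans ?_
      rw [pow_one, add_mul, one_mul, add_mul]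
      refine add_le_add ?_ ?_
      · split_ifs
        · exact (hb _).trans (le_mul_of_one_le_right hB (h1g g))
        · simpa using mul_nonneg hB (zero_le_one.trans (h1g g))
      · rw [abs_mul, abs_mul, mul_assoc, mul_comm B]
        exact mul_le_mul_of_nonneg_left
          (mul_le_mul (hq g) (hb' _) (abs_nonneg _) (zero_le_one.trans (h1g g))) (abs_nonneg _)⟩
  rw [h]
  have hi2 : Integrable (fun g => a p * (g q * f' (sfield a g))) (gauss κ) :=
    (PolyGrowth.integrable (F := fun g => g q * f' (sfield a g)) ⟨B, 1, fun g => by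
      rw [abs_mul, pow_one, mul_comm B]
      exact mul_le_mul (hq g) (hb' _) (abs_nonneg _) (zero_le_one.trans (h1g g))⟩
      ((continuous_apply q).mul (hc'.comp (continuous_sfield a)))).const_mul _
  have hi1 : Integrable (fun g => if p = q then f (sfield a g) else 0) (gauss κ) := by
    split_ifs
    · exact integrable_bdd (hc.comp (continuous_sfield a)) fun g => hb _
    · exact integrable_const 0
  rw [integral_add hi1 hi2, integral_const_mul, ibp_field a q hd' hc'' hb' hb'']
  split_ifs <;> simp [mul_assoc]

/-- `1 - tanh²`. -/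
noncomputable def dtanh (x : ℝ) : ℝ := 1 - tanh x ^ 2

lemma continuous_dtanh : Continuous dtanh := continuous_const.sub (continuous_tanh_real.pow 2)

lemma dtanh_mem (x : ℝ) : dtanh x ∈ Set.Icc (0:ℝ) 1 :=
  ⟨sub_nonneg.2 (tanh_sq_le_one x), sub_le_self _ (sq_nonneg _)⟩

lemma abs_dtanh_le (x : ℝ) : |dtanh x| ≤ 1 := by
  rw [abs_of_nonneg (dtanh_mem x).1]; exact (dtanh_mem x).2

lemma hasDerivAt_dtanh (x : ℝ) : HasDerivAt dtanh (-2 * (tanh x * dtanh x)) x := by
  refine (((hasDerivAt_tanh x).pow 2).const_sub 1).congr_deriv ?_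
  simp only [dtanh]; push_cast; ring

lemma hasDerivAt_tanh_dtanh (x : ℝ) :
    HasDerivAt (fun x => tanh x * dtanh x) (dtanh x ^ 2 - 2 * (tanh x ^ 2 * dtanh x)) x := by
  refine ((hasDerivAt_tanh x).mul (hasDerivAt_dtanh x)).congr_deriv ?_
  simp only [dtanh]; ring

/-- The direction of the field of node `l`. -/
noncomputable def avec (C : Chain τ u δ k) (l : ℕ) : Option (Fin k) → ℝ
  | none => √u
  | some p => √τ * C.c (C.par l) p

/-- The value of node `l` at one site. -/
noncomputable def mnode (C : Chain τ u δ k) (l : ℕ) (x : Option (Fin k) → ℝ) : ℝ :=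
  if l = 0 then 1 else if l < k then tanh (sfield (avec C l) x) else 0

variable (C : Chain τ u δ k)

lemma abs_mnode_le (l : ℕ) (x : Option (Fin k) → ℝ) : |mnode C l x| ≤ 1 := by
  simp only [mnode]; split_ifs <;> simp [abs_tanh_le_one]

lemma continuous_mnode (l : ℕ) : Continuous (mnode C l) := by
  unfold mnode
  split_ifs
  exacts [continuous_const, continuous_tanh_real.comp (continuous_sfield _), continuous_const]

variable (hτ : 0 ≤ τ) (hu : 0 ≤ u)
include hτ hu

lemma lin_avec (j l : ℕ) :
    lin (avec C j) (avec C l) = u + τ * min (C.q (C.par j)) (C.q (C.par l)) := by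
  simp only [lin, Fintype.sum_option, avec, mul_self_sqrt hu, ← C.gram, mul_sum]
  congr 1
  refine sum_congr rfl fun p _ => ?_
  linear_combination (C.c (C.par j) p * C.c (C.par l) p) * mul_self_sqrt hτ

lemma sqn_avec (l : ℕ) : sqn (avec C l) = u + τ * C.q (C.par l) := by
  rw [← lin_self, lin_avec C hτ hu, min_self]

lemma integral_mnode_sq {l : ℕ} : ∫ x, mnode C l x ^ 2 ∂gauss (Option (Fin k)) = C.q l := by
  rcases Nat.eq_zero_or_pos l with rfl | hl
  · simp [mnode, C.q_zero]
  rcases lt_or_ge l k with h | h
  · simp only [mnode, if_neg hl.ne', if_pos h]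
    rw [psi_sfield, sqn_avec C hτ hu, C.q_par l hl h]
  · simp [mnode, if_neg hl.ne', if_neg h.not_gt, (C.none l h).1]

lemma integral_mnode {l : ℕ} : ∫ x, mnode C l x ∂gauss (Option (Fin k)) = C.q l := by
  rw [← integral_mnode_sq C hτ hu (l := l)]
  rcases Nat.eq_zero_or_pos l with rfl | hl
  · simp [mnode]
  rcases lt_or_ge l k with h | h
  · simp only [mnode, if_neg hl.ne', if_pos h]
    rw [nishimori_field _ continuous_tanh_real abs_tanh_le_one tanh_neg]
    simp only [sq]
  · simp [mnode, if_neg hl.ne', if_neg h.not_gt]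

/-- The nodes have Gram matrix `min`. -/
theorem integral_mnode_mul (j l : ℕ) :
    ∫ x, mnode C j x * mnode C l x ∂gauss (Option (Fin k)) = min (C.q j) (C.q l) := by
  rcases Nat.eq_zero_or_pos j with rfl | hj
  · simp only [mnode, if_true, one_mul]
    rw [C.q_zero, min_eq_right (C.q_mem l).2]
    exact integral_mnode C hτ hu
  rcases Nat.eq_zero_or_pos l with rfl | hl
  · simp only [mnode, if_true, mul_one]
    rw [C.q_zero, min_eq_left (C.q_mem j).2]
    exact integral_mnode C hτ hu
  rcases lt_or_ge j k with hj' | hj'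
  swap
  · simp [mnode, if_neg hj.ne', if_neg hj'.not_gt, (C.none j hj').1, (C.q_mem l).1]
  rcases lt_or_ge l k with hl' | hl'
  swap
  · simp [mnode, if_neg hl.ne', if_neg hl'.not_gt, (C.none l hl').1, (C.q_mem j).1]
  wlog h : C.q (C.par j) ≤ C.q (C.par l) generalizing j l
  · rw [min_comm, ← this l j hl hj hl' hj' (le_of_not_ge h)]
    exact integral_congr_ae (ae_of_all _ fun x => mul_comm _ _)
  simp only [mnode, if_neg hj.ne', if_pos hj', if_neg hl.ne', if_pos hl']
  rw [tanh_pair _ _ (by rw [lin_avec C hτ hu, sqn_avec C hτ hu, min_eq_left h]), psi_sfield,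
    sqn_avec C hτ hu, C.q_par j hj hj', C.q_par l hl hl', min_eq_left
      (psi_mono (add_nonneg hu (mul_nonneg hτ (C.q_mem _).1))
        (add_le_add le_rfl (mul_le_mul_of_nonneg_left h hτ)))]

/-- Correlation of a node with a revealed vector. -/
theorem integral_coord_mnode (p : Fin k) {l : ℕ} (hl : l < k) :
    ∫ x, x (some p) * mnode C l x ∂gauss (Option (Fin k))
      = √τ * C.c (C.par l) p * (1 - C.q l) := by
  rcases Nat.eq_zero_or_pos l with rfl | hl0
  · simp only [mnode, if_true, mul_one, C.q_zero, sub_self, mul_zero]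
    have h := integral_map (μ := gauss (Option (Fin k))) (φ := fun x => x (some p))
      (measurable_pi_apply _).aemeasurable (f := fun x : ℝ => x) (by fun_prop)
    rw [show (gauss (Option (Fin k))).map (fun x => x (some p)) = gaussianReal 0 1 from
      (measurePreserving_eval (fun _ : Option (Fin k) => gaussianReal 0 1) _).map_eq,
      integral_id_gaussianReal] at h
    exact h.symm
  simp only [mnode, if_neg hl0.ne', if_pos hl]
  rw [ibp_field (avec C l) (some p) (f := tanh) (f' := dtanh) (fun x => hasDerivAt_tanh x)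
    continuous_dtanh abs_tanh_le_one abs_dtanh_le]
  have hsq : Integrable (fun g => tanh (sfield (avec C l) g) ^ 2) (gauss (Option (Fin k))) :=
    integrable_bdd ((continuous_tanh_real.comp (continuous_sfield _)).pow 2) (B := 1) fun g => by
      rw [abs_of_nonneg (sq_nonneg _)]; exact tanh_sq_le_one _
  simp only [dtanh, avec]
  rw [integral_sub (integrable_const _) hsq, integral_const, probReal_univ, one_smul, psi_sfield,
    sqn_avec C hτ hu, C.q_par l hl0 hl]

omit hτ hu

/-- `E m² v` of node `l`. -/
noncomputable def Dnode (C : Chain τ u δ k) (l : ℕ) : ℝ :=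
  ∫ x, tanh (sfield (avec C l) x) ^ 2 * dtanh (sfield (avec C l) x) ∂gauss (Option (Fin k))

/-- `E v²` of node `l`. -/
noncomputable def Anode (C : Chain τ u δ k) (l : ℕ) : ℝ :=
  ∫ x, dtanh (sfield (avec C l) x) ^ 2 ∂gauss (Option (Fin k))

/-- The moments of the final node used by the edge. -/
theorem node_moments (l : ℕ) (p p' : Fin k) :
    (∫ x, tanh (sfield (avec C l) x) * dtanh (sfield (avec C l) x) ∂gauss (Option (Fin k))
        = Dnode C l) ∧
    (∫ x, x (some p) * dtanh (sfield (avec C l) x) ∂gauss (Option (Fin k))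
        = avec C l (some p) * (-2 * Dnode C l)) ∧
    (∫ x, x (some p) * (tanh (sfield (avec C l) x) * dtanh (sfield (avec C l) x))
          ∂gauss (Option (Fin k)) = avec C l (some p) * (Anode C l - 2 * Dnode C l)) ∧
    (∫ x, x (some p) * (x (some p') * dtanh (sfield (avec C l) x)) ∂gauss (Option (Fin k))
        = (if p = p' then Anode C l + Dnode C l else 0)
          + avec C l (some p) * avec C l (some p') * (-2 * (Anode C l - 2 * Dnode C l))) := by
  set a := avec C l
  have hm : ∀ x, |tanh x * dtanh x| ≤ 1 := fun x => by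
    rw [abs_mul]; exact mul_le_one₀ (abs_tanh_le_one x) (abs_nonneg _) (abs_dtanh_le x)
  have hcm : Continuous fun x => tanh x * dtanh x := continuous_tanh_real.mul continuous_dtanh
  have h1 : ∫ x, tanh (sfield a x) * dtanh (sfield a x) ∂gauss (Option (Fin k)) = Dnode C l := by
    rw [nishimori_field a (f := fun x => tanh x * dtanh x) hcm hm
      fun x => by simp [dtanh]]
    exact integral_congr_ae (ae_of_all _ fun x => by simp only [a]; ring)
  have hc2 : Continuous fun x => dtanh x ^ 2 - 2 * (tanh x ^ 2 * dtanh x) :=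
    (continuous_dtanh.pow 2).sub
      (continuous_const.mul ((continuous_tanh_real.pow 2).mul continuous_dtanh))
  have hb2 : ∀ x, |dtanh x ^ 2 - 2 * (tanh x ^ 2 * dtanh x)| ≤ 3 := fun x => by
    obtain ⟨v0, v1⟩ := dtanh_mem x
    have := sq_nonneg (dtanh x)
    have := pow_le_one₀ (n := 2) v0 v1
    have := mul_nonneg (sq_nonneg (tanh x)) v0
    have := mul_le_one₀ (tanh_sq_le_one x) v0 v1
    rw [abs_le]; constructor <;> linarith
  have i2 : Integrable (fun x => dtanh (sfield a x) ^ 2) (gauss (Option (Fin k))) :=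
    integrable_bdd ((continuous_dtanh.comp (continuous_sfield a)).pow 2) (B := 1) fun x => by
      rw [abs_of_nonneg (sq_nonneg _)]; exact pow_le_one₀ (dtanh_mem _).1 (dtanh_mem _).2
  have i3 : Integrable (fun x => tanh (sfield a x) ^ 2 * dtanh (sfield a x))
      (gauss (Option (Fin k))) :=
    integrable_bdd (((continuous_tanh_real.comp (continuous_sfield a)).pow 2).mul
      (continuous_dtanh.comp (continuous_sfield a))) (B := 1) fun x => by
      rw [abs_mul, abs_of_nonneg (sq_nonneg _)]
      exact mul_le_one₀ (tanh_sq_le_one _) (abs_nonneg _) (abs_dtanh_le _)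
  have h2 : ∫ x, (dtanh (sfield a x) ^ 2 - 2 * (tanh (sfield a x) ^ 2 * dtanh (sfield a x)))
      ∂gauss (Option (Fin k)) = Anode C l - 2 * Dnode C l := by
    rw [integral_sub i2 (i3.const_mul 2), integral_const_mul]; rfl
  refine ⟨h1, ?_, ?_, ?_⟩
  · rw [ibp_field a (some p) (B := 2) hasDerivAt_dtanh (continuous_const.mul hcm)
      (fun x => (abs_dtanh_le x).trans one_le_two)
      (fun x => by rw [abs_mul]; norm_num; rw [← abs_mul]; exact hm x), integral_const_mul, h1]
  · rw [ibp_field a (some p) (B := 3) hasDerivAt_tanh_dtanh hc2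
      (fun x => (hm x).trans (by norm_num)) hb2, h2]
  · have hvv : ∫ x, dtanh (sfield a x) ∂gauss (Option (Fin k)) = Anode C l + Dnode C l := by
      rw [Anode, Dnode, ← integral_add i2 i3]
      exact integral_congr_ae (ae_of_all _ fun x => by simp only [dtanh, a]; ring)
    rw [ibp_field_two a (some p) (some p') (B := 6) (f := dtanh)
      (f'' := fun x => -2 * (dtanh x ^ 2 - 2 * (tanh x ^ 2 * dtanh x))) hasDerivAt_dtanh
      (fun x => (hasDerivAt_tanh_dtanh x).const_mul (-2)) (continuous_const.mul hc2)
      (fun x => (abs_dtanh_le x).trans (by norm_num))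
      (fun x => by rw [abs_mul]; norm_num; rw [← abs_mul]; linarith [hm x])
      (fun x => by rw [abs_mul]; norm_num; linarith [hb2 x]), integral_const_mul, h2, hvv]
    simp only [Option.some.injEq]

/-- `E m² v` is bounded below for times bounded below. -/
lemma Dnode_ge (hτ : 0 ≤ τ) {u₀ S : ℝ} (h0 : 0 ≤ u₀) (hu : u₀ ≤ u) (hS : u + τ ≤ S) (l : ℕ) :
    boxMass * (tanh u₀ ^ 2 * vmin S) ≤ Dnode C l := by
  rw [Dnode, integral_sfield _ (f := fun x => tanh x ^ 2 * dtanh x)
    ((continuous_tanh_real.pow 2).mul continuous_dtanh), sqn_avec C hτ (h0.trans hu)]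
  exact site_D_ge h0 (le_add_of_le_of_nonneg hu (mul_nonneg hτ (C.q_mem _).1))
    (le_trans (add_le_add le_rfl (mul_le_of_le_one_right hτ (C.q_mem _).2)) hS)

omit C

/-- Site `i` of the pair of noise and revealed vectors. -/
def site {n : ℕ} (ω : (Fin n → ℝ) × (Fin k → Fin n → ℝ)) (i : Fin n) : Option (Fin k) → ℝ
  | none => ω.1 i
  | some p => ω.2 p i

/-- The law of the pair. -/
noncomputable def siteLaw (n k : ℕ) : Measure ((Fin n → ℝ) × (Fin k → Fin n → ℝ)) :=
  (gauss (Fin n)).prod (Measure.pi fun _ : Fin k => gauss (Fin n))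

instance (n k : ℕ) : IsProbabilityMeasure (siteLaw n k) := by unfold siteLaw; infer_instance

lemma site_law (n k : ℕ) :
    MeasurePreserving (site (n := n) (k := k)) (siteLaw n k)
      (Measure.pi fun _ : Fin n => gauss (Option (Fin k))) := by
  have hm : Measurable (site (n := n) (k := k)) := by
    refine measurable_pi_lambda _ fun i => measurable_pi_lambda _ fun o => ?_
    cases o <;> simp only [site] <;> fun_prop
  refine ⟨hm, ?_⟩
  set e := fun p : (Fin n → ℝ) × (Fin k → Fin n → ℝ) => fun q : Fin n × Option (Fin k) =>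
    site p q.1 q.2
  have he : (siteLaw n k).map e = gauss (Fin n × Option (Fin k)) := by
    refine (Measure.pi_eq fun s hs => ?_).symm
    have hme : Measurable e := measurable_pi_lambda _ fun q =>
      (measurable_pi_apply q.2).comp ((measurable_pi_apply q.1).comp hm)
    rw [Measure.map_apply hme (MeasurableSet.univ_pi hs)]
    have hpre : e ⁻¹' Set.univ.pi s = (Set.univ.pi fun i => s (i, none))
        ×ˢ (Set.univ.pi fun p => Set.univ.pi fun i => s (i, some p)) := by
      ext ω
      simp only [Set.mem_preimage, Set.mem_univ_pi, Set.mem_prod, e]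
      exact ⟨fun h => ⟨fun i => h (i, none), fun p i => h (i, some p)⟩,
        fun h q => by obtain ⟨i, o⟩ := q; cases o; exacts [h.1 i, h.2 _ i]⟩
    rw [hpre, siteLaw, Measure.prod_prod, Measure.pi_pi]
    simp only [gauss, Measure.pi_pi]
    rw [Fintype.prod_prod_type, ← Finset.prod_comm, ← prod_mul_distrib]
    exact prod_congr rfl fun i _ => by rw [Fintype.prod_option]
  let cur : (Fin n × Option (Fin k) → ℝ) ≃ᵐ (Fin n → Option (Fin k) → ℝ) :=
    { toEquiv := Equiv.curry _ _ _
      measurable_toFun := measurable_pi_lambda _ fun i => measurable_pi_lambda _ fun o =>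
        measurable_pi_apply (i, o)
      measurable_invFun := measurable_pi_lambda _ fun q =>
        (measurable_pi_apply q.2).comp (measurable_pi_apply q.1) }
  have huc : MeasurePreserving cur.symm (Measure.pi fun _ : Fin n => gauss (Option (Fin k)))
      (gauss (Fin n × Option (Fin k))) := by
    refine ⟨cur.symm.measurable, (Measure.pi_eq fun s hs => ?_).symm⟩
    rw [Measure.map_apply cur.symm.measurable (MeasurableSet.univ_pi hs)]
    have hpre : cur.symm ⁻¹' Set.univ.pi s
        = Set.univ.pi fun i => Set.univ.pi fun o => s (i, o) := by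
      ext g
      simp only [Set.mem_preimage, Set.mem_univ_pi]
      exact ⟨fun h i o => h (i, o), fun h q => h q.1 q.2⟩
    rw [hpre, Measure.pi_pi, Fintype.prod_prod_type]
    simp only [gauss, Measure.pi_pi]
  have hme : Measurable e := measurable_pi_lambda _ fun q =>
    (measurable_pi_apply q.2).comp ((measurable_pi_apply q.1).comp hm)
  rw [← (huc.symm cur.symm).map_eq, ← he, Measure.map_map cur.symm.symm.measurable hme]
  rfl

end Vale.Agent.P150.Beta1
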