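import Mathlib
import Vale.Agent.P150.Disorder
import Vale.Agent.P150.Beta1.Defs
import Vale.Agent.P150.Beta1.Fields.Sites
import Vale.Agent.P150.Beta1.Fields.GramSchmidt

/-!
# The adapted family of a chain and the image of a node

`nvec` is a node at all sites, scaled to length `√q`; `ufam` orthonormalises the nodes. On an event
described by site averages (`NodeStats`) the planted matrix glued along the family maps a node to
its state-evolution image, with the Onsager term, up to a small error (`image_node`).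
-/

namespace Vale.Agent.P150.Beta1

open MeasureTheory Finset Real

variable {n k : ℕ}

/-- Euclidean length. -/
noncomputable def vlen {ι : Type*} [Fintype ι] (x : ι → ℝ) : ℝ := √(dot x x)

section vlen

variable {ι : Type*} [Fintype ι]

lemma vlen_eq_norm (x : ι → ℝ) : vlen x = ‖(WithLp.toLp 2 x : EuclideanSpace ℝ ι)‖ := by
  rw [EuclideanSpace.norm_eq, vlen, dot]
  congr 1
  exact sum_congr rfl fun i _ => by simp [sq]

lemma vlen_nonneg (x : ι → ℝ) : 0 ≤ vlen x := sqrt_nonneg _

lemma vlen_sq (x : ι → ℝ) : vlen x ^ 2 = dot x x := sq_sqrt (dot_self_nonneg x)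

lemma vlen_add (x y : ι → ℝ) : vlen (x + y) ≤ vlen x + vlen y := by
  simp only [vlen_eq_norm, WithLp.toLp_add]
  exact norm_add_le _ _

lemma vlen_smul (c : ℝ) (x : ι → ℝ) : vlen (c • x) = |c| * vlen x := by
  simp only [vlen_eq_norm, WithLp.toLp_smul, norm_smul, norm_eq_abs]

lemma vlen_zero : vlen (0 : ι → ℝ) = 0 := by simp [vlen, dot]

lemma vlen_sum {σ : Type*} (s : Finset σ) (f : σ → ι → ℝ) :
    vlen (∑ a ∈ s, f a) ≤ ∑ a ∈ s, vlen (f a) := by
  classical
  induction s using Finset.induction with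
  | empty => simp [vlen_zero]
  | insert a s ha ih =>
    rw [sum_insert ha, sum_insert ha]
    exact (vlen_add _ _).trans (add_le_add le_rfl ih)

lemma vlen_le_of_abs_le {x y : ι → ℝ} (h : ∀ i, |x i| ≤ |y i|) : vlen x ≤ vlen y := by
  refine sqrt_le_sqrt (sum_le_sum fun i _ => ?_)
  rw [← abs_mul_abs_self (x i), ← abs_mul_abs_self (y i)]
  exact mul_le_mul (h i) (h i) (abs_nonneg _) (abs_nonneg _)

lemma vlen_const (c : ℝ) : vlen (fun _ : ι => c) = |c| * √(Fintype.card ι) := by
  rw [vlen, dot, sum_const, card_univ, nsmul_eq_mul, sqrt_mul (Nat.cast_nonneg _),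
    ← sq, sqrt_sq_eq_abs, mul_comm]

lemma abs_dot_le (x y : ι → ℝ) : |dot x y| ≤ vlen x * vlen y := by
  have h := sum_mul_sq_le_sq_mul_sq univ x y
  rw [← sqrt_sq_eq_abs, vlen, vlen, ← sqrt_mul (dot_self_nonneg x)]
  refine sqrt_le_sqrt (h.trans (le_of_eq ?_))
  simp only [dot, sq]

end vlen

variable {τ u δ : ℝ} (C : Chain τ u δ k)

/-- A node at all sites, over `√n`. -/
noncomputable def nvec (ω : (Fin n → ℝ) × (Fin k → Fin n → ℝ)) (l : ℕ) : Fin n → ℝ :=
  fun i => mnode C l (site ω i) / √n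

/-- The orthonormalised nodes. -/
noncomputable def ufam (ω : (Fin n → ℝ) × (Fin k → Fin n → ℝ)) : Fin k → Fin n → ℝ :=
  fun l => gsv (nvec C ω) l

lemma ufam_ortho (ω : (Fin n → ℝ) × (Fin k → Fin n → ℝ)) : OrthoFam (ufam C ω) :=
  gsv_orthoFam _ k

lemma measurable_ufam (ζ : Fin n → ℝ) : Measurable fun z => ufam C (ζ, z) := by
  refine measurable_pi_lambda _ fun l => measurable_gsv (fun r => ?_) l
  refine measurable_pi_lambda _ fun i => ?_
  refine Measurable.div_const ((continuous_mnode C r).measurable.comp ?_) _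
  refine measurable_pi_lambda _ fun o => ?_
  cases o <;> simp only [site] <;> fun_prop

lemma ufam_past (ζ : Fin n → ℝ) (z : Fin k → Fin n → ℝ) (j l : Fin k) (w : Fin n → ℝ)
    (h : l ≤ j) : ufam C (ζ, Function.update z j w) l = ufam C (ζ, z) l := by
  refine gsv_congr fun r hr => ?_
  funext i
  simp only [nvec, mnode]
  rcases Nat.eq_zero_or_pos r with rfl | hr0
  · rfl
  simp only [if_neg hr0.ne']
  split_ifs with hrk
  swap; · rfl
  congr 2
  simp only [sfield, lin, Fintype.sum_option, avec, site]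
  congr 2
  refine sum_congr rfl fun p _ => ?_
  rcases eq_or_ne p j with rfl | hp
  · have hlp : (l : ℕ) ≤ p := Fin.le_def.1 h
    have : C.c (C.par r) p = 0 := by
      rcases C.par_lt r hr0 hrk with h' | h'
      · exact C.tri _ _ (by omega)
      · rw [(C.none _ h').2]; rfl
    rw [this]; ring
  · rw [Function.update_of_ne hp]

/-- The averages of nodes and revealed vectors are near their expectations. -/
structure NodeStats (η : ℝ) (ω : (Fin n → ℝ) × (Fin k → Fin n → ℝ)) : Prop where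
  mm : ∀ j < k, ∀ l < k, |dot (nvec C ω j) (nvec C ω l) - min (C.q j) (C.q l)| ≤ η
  zm : ∀ (p : Fin k) l, l < k →
    |dot (nvec C ω l) ((√n)⁻¹ • ω.2 p) - √τ * C.c (C.par l) p * (1 - C.q l)| ≤ η
  zz : ∀ p : Fin k, vlen ((√n)⁻¹ • ω.2 p) ≤ 2

/-- The coefficients as a function on all pairs of indices. -/
noncomputable def cnat (l p : ℕ) : ℝ := if h : p < k then C.c l ⟨p, h⟩ else 0

lemma abs_c_le (l : ℕ) (p : Fin k) : |C.c l p| ≤ 1 := by
  have h := C.gram l l
  rw [min_self] at h
  have h1 := single_le_sum (f := fun p => C.c l p * C.c l p) (fun p _ => mul_self_nonneg _)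
    (mem_univ p)
  rw [abs_le_one_iff_mul_self_le_one]
  linarith [(C.q_mem l).2]

lemma cnat_facts : (∀ l p, l < p → cnat C l p = 0) ∧ (∀ l p, |cnat C l p| ≤ 1) ∧
    (∀ p < k, δ ≤ cnat C p p) ∧ ∀ l, ∀ p < k, min (C.q p) (C.q l)
      = (∑ q ∈ range p, cnat C p q * cnat C l q) + cnat C p p * cnat C l p := by
  refine ⟨fun l p h => ?_, fun l p => ?_, fun p hp => ?_, fun l p hp => ?_⟩
  · simp only [cnat]; split_ifs with hp
    · exact C.tri l ⟨p, hp⟩ h
    · rfl
  · simp only [cnat]; split_ifs with hp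
    · exact abs_c_le C l _
    · simp
  · simpa only [cnat, dif_pos hp] using C.diag ⟨p, hp⟩
  · rw [← C.gram, ← sum_range_succ (fun q => cnat C p q * cnat C l q)]
    refine Eq.trans ?_ ((Fin.sum_univ_eq_sum_range (fun q => cnat C p q * cnat C l q) k).trans
      (sum_subset (range_subset_range.2 (show p + 1 ≤ k by omega)) fun q _ hq => ?_).symm)
    · exact sum_congr rfl fun q _ => by simp only [cnat, dif_pos q.2]
    · simp only [mem_range, not_lt] at hq
      simp only [cnat]
      split_ifs with h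
      · rw [C.tri p ⟨q, h⟩ (by simp only []; omega)]; ring
      · ring

/-- The coefficients of the nodes on the family. -/
noncomputable def acoef (ω : (Fin n → ℝ) × (Fin k → Fin n → ℝ)) (l : ℕ) (p : Fin k) : ℝ :=
  dot (ufam C ω p) (nvec C ω l)

lemma gcoef_upper (v : ℕ → Fin n → ℝ) {l p : ℕ} (h : l < p) : gcoef v l p = 0 := by
  rw [gcoef, gsv_expand v l, dot_finset_sum]
  refine sum_eq_zero fun q hq => ?_
  rw [dot_smul, dot_comm, gsv_ortho v p q (by have := mem_range.1 hq; omega), mul_zero]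

lemma nvec_none (ω : (Fin n → ℝ) × (Fin k → Fin n → ℝ)) {l : ℕ} (hl : k ≤ l) :
    nvec C ω l = 0 := by
  funext i
  have := C.kpos
  simp [nvec, mnode, show l ≠ 0 by omega, show ¬l < k by omega]

lemma nvec_expand (ω : (Fin n → ℝ) × (Fin k → Fin n → ℝ)) (l : ℕ) :
    nvec C ω l = ∑ p, acoef C ω l p • ufam C ω p := by
  rcases lt_or_ge l k with h | h
  · refine Eq.trans ?_ (Fin.sum_univ_eq_sum_range
      (fun p => gcoef (nvec C ω) l p • gsv (nvec C ω) p) k).symm
    rw [← sum_subset (range_subset_range.2 (show l + 1 ≤ k by omega)) fun q _ hq => ?_]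
    · exact gsv_expand _ l
    · simp only [mem_range, not_lt] at hq
      rw [gcoef_upper _ (by omega), zero_smul]
  · rw [nvec_none C ω h, sum_eq_zero fun p _ => by
      simp [acoef, nvec_none C ω h, dot]]

/-- What the orthonormalisation gives on the event. -/
theorem family_close (k : ℕ) {δ : ℝ} (hδ : 0 < δ) {ε : ℝ} (hε : 0 < ε) :
    ∃ η > 0, ∀ {τ u : ℝ} {n : ℕ} (C : Chain τ u δ k) (ω : (Fin n → ℝ) × (Fin k → Fin n → ℝ)),
      NodeStats C η ω → (∀ p, dot (ufam C ω p) (ufam C ω p) = 1) ∧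
        (∀ l p, |acoef C ω l p - C.c l p| ≤ ε) ∧
        ∀ q p : Fin k, q ≤ p → |dot (ufam C ω q) ((√n)⁻¹ • ω.2 p)| ≤ ε := by
  obtain ⟨η, hη, h⟩ := gsv_close k hδ hε
  refine ⟨η, hη, fun {τ u n} C ω S => ?_⟩
  obtain ⟨f1, f2, f3, f4⟩ := cnat_facts C
  have H := h n (nvec C ω) (fun p l => min (C.q p) (C.q l)) (cnat C) f1 f2 f3 f4 S.mm
  refine ⟨fun p => (H p p.2).1, fun l p => ?_, fun q p hqp => ?_⟩
  · rcases lt_or_ge l k with hl | hl
    · have := (H p p.2).2.1 l hl
      rwa [show cnat C l p = C.c l p from dif_pos p.2] at this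
    · simp [acoef, nvec_none C ω hl, dot, (C.none l hl).2, hε.le]
  · refine (H q q.2).2.2 _ fun r hr => ?_
    have hr' : r < k := lt_of_le_of_lt hr q.2
    have h0 := S.zm p r hr'
    have hz : C.c (C.par r) p * (1 - C.q r) = 0 := by
      rcases Nat.eq_zero_or_pos r with rfl | hr0
      · rw [C.q_zero]; ring
      · have hqp' : (q : ℕ) ≤ p := hqp
        rcases C.par_lt r hr0 hr' with h' | h'
        · rw [C.tri _ p (by omega), zero_mul]
        · rw [(C.none _ h').2]; simp
    rwa [mul_assoc (√τ), hz, mul_zero, sub_zero] at h0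

/-- The planted matrix `τ/n 11ᵀ + √τ W` of an array. -/
noncomputable def fullJ (τ : ℝ) (G : Fin n × Fin n → ℝ) : Fin n → Fin n → ℝ :=
  fun i j => τ / n + √τ * ((G (i, j) + G (j, i)) / (√2 * √n))

/-- The image of `u l`, times `√n`, in terms of the revealed vectors. -/
noncomputable def wvec (u w : Fin k → Fin n → ℝ) (l : Fin k) : Fin n → ℝ :=
  w l + ((√2 - 1) * dot (u l) (w l)) • u l
    + ∑ q ∈ univ.filter (· < l), (dot (u l) (w q) - dot (u q) (w l)) • u q

lemma dot_rr_self {u : Fin k → Fin n → ℝ} (hu : OrthoFam u) {l : Fin k}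
    (hl : dot (u l) (u l) = 1) (G : Fin n × Fin n → ℝ) :
    dot (u l) (rr u l G) = bil G (u l) (u l) := by
  have h2 : √2 * √2 = 2 := mul_self_sqrt zero_le_two
  rw [rr, dot_sub, dot_sub, dot_smul, dot_add, dot_mv, dot_mvT, dot_smul, dot_smul,
    dot_finset_sum, sum_eq_zero fun p hp => by
      rw [dot_smul, hu.ortho l p (mem_filter.1 hp).2.ne', mul_zero], hl]
  field_simp
  linear_combination -(bil G (u l) (u l)) * h2

/-- The image of a family vector. -/
theorem image_fam {u : Fin k → Fin n → ℝ} (hu : OrthoFam u) (hunit : ∀ l, dot (u l) (u l) = 1)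
    (z : Fin k → Fin n → ℝ) (G : Fin n × Fin n → ℝ) (l : Fin k) :
    (√2)⁻¹ • (mv (gluef u z G) (u l) + mvT (gluef u z G) (u l)) = wvec u z l := by
  set H := gluef u z G
  have hz : ∀ p, rr u p H = z p := fun p => rr_gluef hu (hunit p) z G
  have hs : ∀ q ∈ univ.filter (· < l),
      √2 * bil H (u q) (u l) = dot (u l) (z q) - dot (u q) (z l) := by
    intro q hq
    have hql := (mem_filter.1 hq).2
    have e1 : dot (u l) (rr u q H) = (√2)⁻¹ * (bil H (u l) (u q) + bil H (u q) (u l)) := by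
      rw [rr, dot_sub, dot_sub, dot_smul, dot_add, dot_mv, dot_mvT, dot_smul, dot_smul,
        dot_finset_sum, sum_eq_zero fun p hp => by
          rw [dot_smul, hu.ortho l p ((mem_filter.1 hp).2.trans hql).ne', mul_zero],
        hu.ortho l q hql.ne']
      ring
    have e2 : dot (u q) (rr u l H) = (√2)⁻¹ * (bil H (u q) (u l) + bil H (u l) (u q))
        - √2 * bil H (u q) (u l) := by
      rw [rr, dot_sub, dot_sub, dot_smul, dot_add, dot_mv, dot_mvT, dot_smul, dot_smul,
        dot_finset_sum, sum_eq_single q (fun p _ hp => by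
          rw [dot_smul, hu.ortho q p hp.symm, mul_zero]) (fun h => absurd hq h), dot_smul,
        hunit q, hu.ortho q l hql.ne]
      ring
    rw [← hz q, ← hz l, e1, e2]
    ring
  have hbl : bil H (u l) (u l) = dot (u l) (z l) := by rw [← hz l, dot_rr_self hu (hunit l)]
  have h := hz l
  rw [rr, sub_sub, sub_eq_iff_eq_add] at h
  rw [h, hbl, wvec, smul_sum, add_assoc]
  congr 2
  exact sum_congr rfl fun q hq => by rw [smul_smul, hs q hq]

/-- The image of a combination of the family. -/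
lemma image_comb {u : Fin k → Fin n → ℝ} (hu : OrthoFam u) (hunit : ∀ l, dot (u l) (u l) = 1)
    (z : Fin k → Fin n → ℝ) (G : Fin n × Fin n → ℝ) (a : Fin k → ℝ) (i : Fin n) :
    ∑ j, fullJ τ (gluef u z G) i j * (∑ p, a p • u p) j
      = τ / n * (∑ j, (∑ p, a p • u p) j)
        + √τ * (∑ p, a p • wvec u ((√n)⁻¹ • z) p) i := by
  set H := gluef u z G
  have hlin : ∀ p, wvec u ((√n)⁻¹ • z) p = (√n)⁻¹ • wvec u z p := by
    intro p
    simp only [wvec, Pi.smul_apply, dot_smul, smul_add, smul_sum, smul_smul]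
    congr 2
    · ring_nf
    · simp only [mul_sub]
  simp only [fullJ, add_mul, sum_add_distrib, ← mul_sum]
  congr 1
  simp only [hlin, ← image_fam hu hunit z G]
  simp only [Finset.sum_apply, Pi.smul_apply, Pi.add_apply, mv, mvT, smul_eq_mul, mul_sum]
  rw [sum_comm]
  refine sum_congr rfl fun p _ => ?_
  rw [← sum_add_distrib]
  simp only [mul_sum]
  exact sum_congr rfl fun j _ => by ring

/-- The scaled state-evolution image of a node: the next field, less the observed field, plus the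
Onsager term. -/
noncomputable def imageTarget (ω : (Fin n → ℝ) × (Fin k → Fin n → ℝ)) (j : ℕ) : Fin n → ℝ :=
  (τ * C.q j) • nvec C ω 0 + √τ • (∑ p, C.c j p • ((√n)⁻¹ • ω.2 p))
    + (τ * (1 - C.q j)) • nvec C ω (C.par j)

/-- The algebraic form of the error. -/
lemma comb_split {u w : Fin k → Fin n → ℝ} (a c b : Fin k → ℝ) :
    (∑ p, a p • wvec u w p) - ∑ p, c p • w p - ∑ p, b p • u p
      = ∑ p, (a p - c p) • w p
        + ∑ p, (a p * ((√2 - 1) * dot (u p) (w p))
            + ((∑ r ∈ univ.filter (p < ·), a r * dot (u r) (w p))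
              - (∑ r ∈ univ.filter (p < ·), a r * dot (u p) (w r))) - b p) • u p := by
  have hswap : ∑ p, a p • ∑ q ∈ univ.filter (· < p), (dot (u p) (w q) - dot (u q) (w p)) • u q
      = ∑ q, ((∑ r ∈ univ.filter (q < ·), a r * dot (u r) (w q))
          - (∑ r ∈ univ.filter (q < ·), a r * dot (u q) (w r))) • u q := by
    simp only [smul_sum, sum_filter]
    rw [sum_comm]
    refine sum_congr rfl fun q _ => ?_
    rw [← sum_sub_distrib, sum_smul]
    refine sum_congr rfl fun p _ => ?_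
    split_ifs
    · rw [smul_smul, mul_sub]
    · simp
  simp only [wvec, smul_add, sum_add_distrib]
  rw [hswap]
  simp only [smul_smul, sub_smul, add_smul, sum_add_distrib, sum_sub_distrib]
  abel

lemma weight_small {u w : Fin k → Fin n → ℝ} {a : Fin k → ℝ} {p : Fin k} {v : Fin n → ℝ} {e b : ℝ}
    (he : 0 ≤ e) (ha : ∀ r, |a r| ≤ 2) (hv : v = ∑ r, a r • u r)
    (hsmall : ∀ q r : Fin k, q ≤ r → |dot (u q) (w r)| ≤ e) (hb : |dot v (w p) - b| ≤ e) :
    |a p * ((√2 - 1) * dot (u p) (w p))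
      + ((∑ r ∈ univ.filter (p < ·), a r * dot (u r) (w p))
        - (∑ r ∈ univ.filter (p < ·), a r * dot (u p) (w r))) - b| ≤ (3 + 4 * (k:ℝ)) * e := by
  have h1 : |a p * ((√2 - 1) * dot (u p) (w p))| ≤ 2 * e := by
    rw [abs_mul, abs_mul]
    refine mul_le_mul (ha p) ((mul_le_of_le_one_left (abs_nonneg _) ?_).trans (hsmall p p le_rfl))
      (by positivity) zero_le_two
    have hA : 1 ≤ √2 := one_le_sqrt.2 one_le_two
    have hB : √2 ≤ 2 := by rw [sqrt_le_left zero_le_two]; norm_num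
    rw [abs_le]; constructor <;> linarith
  have hbd : ∀ (f : Fin k → ℝ) (s : Finset (Fin k)), (∀ r ∈ s, |f r| ≤ 2 * e) →
      |∑ r ∈ s, f r| ≤ (k:ℝ) * (2 * e) := fun f s hf => by
    refine ((abs_sum_le_sum_abs _ _).trans (sum_le_card_nsmul _ _ _ hf)).trans ?_
    rw [nsmul_eq_mul]
    refine mul_le_mul_of_nonneg_right ?_ (by positivity)
    have := s.card_le_univ
    rw [Fintype.card_fin] at this
    exact_mod_cast this
  have h2 : |∑ r ∈ univ.filter (p < ·), a r * dot (u p) (w r)| ≤ (k:ℝ) * (2 * e) :=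
    hbd _ _ fun r hr => by
      rw [abs_mul]
      exact mul_le_mul (ha r) (hsmall p r (mem_filter.1 hr).2.le) (abs_nonneg _) zero_le_two
  have h3 : |∑ r ∈ univ.filter (¬p < ·), a r * dot (u r) (w p)| ≤ (k:ℝ) * (2 * e) :=
    hbd _ _ fun r hr => by
      rw [abs_mul]
      exact mul_le_mul (ha r) (hsmall r p (not_lt.1 (mem_filter.1 hr).2)) (abs_nonneg _) zero_le_two
  have e4 : ∑ r ∈ univ.filter (p < ·), a r * dot (u r) (w p)
      = dot v (w p) - ∑ r ∈ univ.filter (¬p < ·), a r * dot (u r) (w p) := by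
    rw [hv, sum_dot, eq_sub_iff_add_eq, sum_filter_add_sum_filter_not]
    simp only [smul_dot]
  rw [e4]
  rw [abs_le] at h1 h2 h3 hb ⊢
  constructor <;> linarith

/-- On the event the image of a node is its state-evolution value. -/
theorem image_node (k : ℕ) {δ : ℝ} (hδ : 0 < δ) {ε : ℝ} (hε : 0 < ε) :
    ∃ η > 0, ∀ {τ u : ℝ} {n : ℕ} (C : Chain τ u δ k) (ω : (Fin n → ℝ) × (Fin k → Fin n → ℝ))
      (G : Fin n × Fin n → ℝ), 0 < τ → τ ≤ 1 → 0 < n → NodeStats C η ω → ∀ j < k,
        vlen (act (fullJ τ (gluef (ufam C ω) ω.2 G)) (nvec C ω j) - imageTarget C ω j) ≤ ε := by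
  set K := (3 + 4 * (k:ℝ)) + 3
  have hK : 0 < K := by positivity
  set e := min 1 (ε / (2 + (k:ℝ) * (2 + K)))
  have he : 0 < e := lt_min one_pos (by positivity)
  obtain ⟨η, hη, hf⟩ := family_close k hδ he
  refine ⟨min η e, lt_min hη he, fun {τ u n} C ω G hτ hτ1 hn S j hj => ?_⟩
  have S' : NodeStats C η ω := ⟨fun a ha b hb => (S.mm a ha b hb).trans (min_le_left _ _),
    fun p l hl => (S.zm p l hl).trans (min_le_left _ _), S.zz⟩
  obtain ⟨hunit, hac, hsm⟩ := hf C ω S'
  have hn' : (0:ℝ) < n := by exact_mod_cast hn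
  set U := ufam C ω
  set w : Fin k → Fin n → ℝ := (√n)⁻¹ • ω.2
  set a : Fin k → ℝ := fun p => acoef C ω j p
  set b : Fin k → ℝ := fun p => √τ * (1 - C.q j) * acoef C ω (C.par j) p
  have ha2 : ∀ p, |a p| ≤ 2 := fun p => by
    have h1 := hac j p
    have h2 := abs_c_le C j p
    have h3 : e ≤ 1 := min_le_left _ _
    rw [abs_le] at h1 h2 ⊢
    constructor <;> simp only [a] <;> linarith
  have hv : nvec C ω j = ∑ p, a p • U p := nvec_expand C ω j
  have hmean : (fun _ : Fin n => τ / n * ∑ i, nvec C ω j i)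
      = (τ * dot (nvec C ω 0) (nvec C ω j)) • nvec C ω 0 := by
    funext i
    simp only [Pi.smul_apply, smul_eq_mul, dot, nvec, mnode, if_true, mul_sum, sum_mul]
    refine sum_congr rfl fun l _ => ?_
    have : √(n:ℝ) ≠ 0 := (sqrt_pos.2 hn').ne'
    field_simp
    rw [sq_sqrt hn'.le]
    ring
  have hY : act (fullJ τ (gluef U ω.2 G)) (nvec C ω j)
      = (τ * dot (nvec C ω 0) (nvec C ω j)) • nvec C ω 0
        + √τ • ∑ p, a p • wvec U w p := by
    rw [← hmean]
    funext i
    simp only [act, Pi.add_apply, Pi.smul_apply, smul_eq_mul]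
    rw [hv, image_comb (ufam_ortho C ω) hunit ω.2 G a i]
  have hpar : (τ * (1 - C.q j)) • nvec C ω (C.par j) = √τ • ∑ p, b p • U p := by
    rw [nvec_expand C ω (C.par j), smul_sum, smul_sum]
    refine sum_congr rfl fun p _ => ?_
    simp only [b, smul_smul]
    congr 1
    linear_combination -((1 - C.q j) * acoef C ω (C.par j) p) * mul_self_sqrt hτ.le
  have hdiff : act (fullJ τ (gluef U ω.2 G)) (nvec C ω j) - imageTarget C ω j
      = (τ * (dot (nvec C ω 0) (nvec C ω j) - C.q j)) • nvec C ω 0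
        + √τ • ((∑ p, a p • wvec U w p) - ∑ p, C.c j p • w p - ∑ p, b p • U p) := by
    rw [hY, imageTarget, hpar, mul_sub, sub_smul, smul_sub, smul_sub]
    simp only [w, Pi.smul_apply]
    abel
  have h0 : vlen (nvec C ω 0) = 1 := by
    rw [vlen, dot]
    simp [nvec, mnode, ← sq, sq_sqrt hn'.le, hn'.ne']
  have hA : |τ * (dot (nvec C ω 0) (nvec C ω j) - C.q j)| ≤ e := by
    have h := (S.mm 0 C.kpos j hj).trans (min_le_right _ _)
    rw [C.q_zero, min_eq_right (C.q_mem j).2] at h
    rw [abs_mul, abs_of_pos hτ]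
    exact (mul_le_of_le_one_left (abs_nonneg _) hτ1).trans h
  have hs1 : √τ ≤ 1 := sqrt_le_one.2 hτ1
  have hq1 : |1 - C.q j| ≤ 1 := by
    have := C.q_mem j
    rw [abs_le]; constructor <;> linarith [this.1, this.2]
  rw [hdiff, comb_split]
  refine (vlen_add _ _).trans ?_
  rw [vlen_smul, vlen_smul, h0, mul_one, abs_of_nonneg (sqrt_nonneg τ)]
  refine (add_le_add hA ((mul_le_of_le_one_left (vlen_nonneg _) hs1).trans
    ((vlen_add _ _).trans (add_le_add (vlen_sum _ _) (vlen_sum _ _))))).trans ?_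
  have hone : ∀ p ∈ (univ : Finset (Fin k)), vlen ((a p - C.c j p) • w p) ≤ 2 * e := fun p _ => by
    rw [vlen_smul, mul_comm (2:ℝ)]
    exact mul_le_mul (hac j p) (S.zz p) (vlen_nonneg _) he.le
  have htwo : ∀ p ∈ (univ : Finset (Fin k)), vlen ((a p * ((√2 - 1) * dot (U p) (w p))
      + ((∑ r ∈ univ.filter (p < ·), a r * dot (U r) (w p))
        - (∑ r ∈ univ.filter (p < ·), a r * dot (U p) (w r))) - b p) • U p) ≤ K * e := fun p _ => by
    rw [vlen_smul, vlen, hunit p, sqrt_one, mul_one]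
    have hw := weight_small (u := U) (w := w) (a := a) (p := p) (v := nvec C ω j) (e := 3 * e / 3)
      (b := √τ * C.c (C.par j) p * (1 - C.q j)) (by positivity) ha2 hv
      (fun q r hqr => (hsm q r hqr).trans (by linarith))
      (((S.zm p j hj).trans (min_le_right _ _)).trans (by linarith))
    have hbb : |b p - √τ * C.c (C.par j) p * (1 - C.q j)| ≤ e := by
      simp only [b]
      rw [show √τ * (1 - C.q j) * acoef C ω (C.par j) p - √τ * C.c (C.par j) p * (1 - C.q j)
        = √τ * ((1 - C.q j) * (acoef C ω (C.par j) p - C.c (C.par j) p)) by ring, abs_mul, abs_mul,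
        abs_of_nonneg (sqrt_nonneg τ)]
      exact (mul_le_of_le_one_left (by positivity) hs1).trans
        ((mul_le_of_le_one_left (abs_nonneg _) hq1).trans (hac _ p))
    simp only [K]
    rw [show 3 * e / 3 = e by ring] at hw
    rw [abs_le] at hw hbb ⊢
    constructor <;> linarith
  refine (add_le_add le_rfl (add_le_add (sum_le_card_nsmul _ _ _ hone)
    (sum_le_card_nsmul _ _ _ htwo))).trans ?_
  rw [card_univ, Fintype.card_fin, nsmul_eq_mul, nsmul_eq_mul]
  have h5 : (2 + (k:ℝ) * (2 + K)) * e ≤ ε := by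
    rw [← le_div_iff₀' (by positivity)]; exact min_le_right _ _
  linarith

end Vale.Agent.P150.Beta1
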