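import Mathlib
import Vale.Agent.P150.Beta1.Fields.Scheme

/-!
# The iterates follow the chain, and the last node nearly solves the TAP equation

Both facts only use that the matrix has bounded norm and maps every node near its
state-evolution image (`ImageNear`).
-/

namespace Vale.Agent.P150.Beta1

open Finset Real

variable {n k : ℕ} {τ u δ : ℝ}

/-- The observed field at the all-plus configuration. -/
noncomputable def obsY (u : ℝ) (ζ : Fin n → ℝ) : Fin n → ℝ := fun i => u + √u * ζ i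

variable (C : Chain τ u δ k)

/-- The field driven by node `j`, over `√n`. -/
noncomputable def nextField (ω : (Fin n → ℝ) × (Fin k → Fin n → ℝ)) (j : ℕ) : Fin n → ℝ :=
  (√n)⁻¹ • obsY u ω.1 + (τ * C.q j) • nvec C ω 0
    + √τ • (∑ p, C.c j p • ((√n)⁻¹ • ω.2 p))

/-- The matrix maps every node near its state-evolution image. -/
structure ImageNear (J : Fin n → Fin n → ℝ) (Λ e : ℝ) (ω : (Fin n → ℝ) × (Fin k → Fin n → ℝ)) :
    Prop where
  lip : ∀ a, vlen (act J a) ≤ Λ * vlen a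
  img : ∀ j < k, vlen (act J (nvec C ω j) - imageTarget C ω j) ≤ e
  norm : ∀ j < k, |dot (nvec C ω j) (nvec C ω j) - C.q j| ≤ e

lemma imageTarget_eq (ω : (Fin n → ℝ) × (Fin k → Fin n → ℝ)) (j : ℕ) :
    imageTarget C ω j = nextField C ω j - (√n)⁻¹ • obsY u ω.1
      + (τ * (1 - C.q j)) • nvec C ω (C.par j) := by
  simp only [imageTarget, nextField]; abel

lemma sqrt_smul_nextField (hn : 0 < n) (hu : 0 ≤ u) (hτ : 0 ≤ τ)
    (ω : (Fin n → ℝ) × (Fin k → Fin n → ℝ)) (l : ℕ) (i : Fin n) :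
    √n * nextField C ω (C.par l) i = sfield (avec C l) (site ω i) := by
  have hs : (√(n:ℝ)) ≠ 0 := (sqrt_pos.2 (Nat.cast_pos.2 hn)).ne'
  simp only [nextField, obsY, nvec, mnode, if_true, Pi.add_apply, Pi.smul_apply, smul_eq_mul,
    Finset.sum_apply, sfield, sqn_avec C hτ hu]
  simp only [lin, Fintype.sum_option, avec, site, mul_add, mul_sum]
  have e : ∑ p, √(n:ℝ) * (√τ * (C.c (C.par l) p * ((√n)⁻¹ * ω.2 p i)))
      = ∑ p, √τ * C.c (C.par l) p * ω.2 p i := sum_congr rfl fun p _ => by field_simp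
  rw [e]
  field_simp
  ring

lemma nvec_eq_tanh (hn : 0 < n) (hu : 0 ≤ u) (hτ : 0 ≤ τ)
    (ω : (Fin n → ℝ) × (Fin k → Fin n → ℝ)) {l : ℕ} (h0 : 0 < l) (hl : l < k) :
    nvec C ω l = (√n)⁻¹ • tanhv (√n • nextField C ω (C.par l)) := by
  funext i
  simp only [nvec, mnode, if_neg h0.ne', if_pos hl, Pi.smul_apply, smul_eq_mul, tanhv,
    sqrt_smul_nextField C hn hu hτ]
  rw [div_eq_inv_mul]

lemma vlen_sub_comm {ι : Type*} [Fintype ι] (a b : ι → ℝ) : vlen (a - b) = vlen (b - a) := by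
  rw [← neg_sub, show -(b - a) = (-1 : ℝ) • (b - a) by simp, vlen_smul, abs_neg, abs_one, one_mul]

lemma vlen_scaled_le_one {a : Fin n → ℝ} (ha : ∀ i, |a i| ≤ 1) : vlen ((√n)⁻¹ • a) ≤ 1 := by
  rw [vlen_smul, abs_of_nonneg (inv_nonneg.2 (sqrt_nonneg _))]
  have h : vlen a ≤ √n := by
    refine (vlen_le_of_abs_le (y := fun _ : Fin n => (1:ℝ)) fun i => ?_).trans (le_of_eq ?_)
    · simpa using ha i
    · simp [vlen_const]
  rcases Nat.eq_zero_or_pos n with rfl | hn
  · simp
  · rw [inv_mul_le_iff₀ (sqrt_pos.2 (Nat.cast_pos.2 hn)), mul_one]; exact h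

lemma vlen_nvec_le_one (ω : (Fin n → ℝ) × (Fin k → Fin n → ℝ)) (l : ℕ) :
    vlen (nvec C ω l) ≤ 1 := by
  have e : nvec C ω l = (√n)⁻¹ • fun i => mnode C l (site ω i) := by
    funext i; simp [nvec, div_eq_inv_mul]
  rw [e]
  exact vlen_scaled_le_one fun i => abs_mnode_le C l _

lemma dot_self_sub_le {ι : Type*} [Fintype ι] {a b : ι → ℝ} (ha : vlen a ≤ 1) (hb : vlen b ≤ 1) :
    |dot a a - dot b b| ≤ 2 * vlen (a - b) := by
  have e : dot a a - dot b b = dot (a - b) a + dot b (a - b) := by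
    rw [sub_dot, dot_sub]; ring
  rw [e]
  refine (abs_add_le _ _).trans ?_
  have h1 := (abs_dot_le (a - b) a).trans (mul_le_mul_of_nonneg_left ha (vlen_nonneg _))
  have h2 := (abs_dot_le b (a - b)).trans (mul_le_mul_of_nonneg_right hb (vlen_nonneg _))
  linarith

lemma vlen_tanhv_sub (hn : 0 < n) (X F : Fin n → ℝ) :
    vlen ((√n)⁻¹ • tanhv (√n • X) - (√n)⁻¹ • tanhv (√n • F)) ≤ vlen (X - F) := by
  refine vlen_le_of_abs_le fun i => ?_
  have hs : 0 < √(n:ℝ) := sqrt_pos.2 (Nat.cast_pos.2 hn)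
  simp only [Pi.sub_apply, Pi.smul_apply, smul_eq_mul, tanhv, ← mul_sub, abs_mul]
  rw [abs_of_pos (inv_pos.2 hs), inv_mul_le_iff₀ hs]
  refine (tanh_dist_le _ _).trans (le_of_eq ?_)
  rw [← mul_sub, abs_mul, abs_of_pos hs]

lemma act_smul_vec (J : Fin n → Fin n → ℝ) (c : ℝ) (a : Fin n → ℝ) :
    act J (c • a) = c • act J a := by
  funext i
  simp only [act, Pi.smul_apply, smul_eq_mul, mul_sum]
  exact sum_congr rfl fun j _ => by ring

lemma act_sub_vec (J : Fin n → Fin n → ℝ) (a b : Fin n → ℝ) :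
    act J (a - b) = act J a - act J b := by
  funext i
  simp only [act, Pi.sub_apply, mul_sub, sum_sub_distrib]

lemma onsager_scaled (β : ℝ) (a : Fin n → ℝ) :
    onsager β a = β ^ 2 * (1 - dot ((√n)⁻¹ • a) ((√n)⁻¹ • a)) := by
  rw [onsager, qav, avg, smul_dot, dot_smul, ← mul_assoc, ← mul_inv,
    mul_self_sqrt (Nat.cast_nonneg _), Fintype.card_fin, dot, div_eq_inv_mul]
  simp only [sq]

lemma ampA_abs_le (β : ℝ) (J : Fin n → Fin n → ℝ) (y x : Fin n → ℝ) (hx : ∀ i, |x i| ≤ 1) :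
    ∀ l i, |ampA β J y x l i| ≤ 1
  | 0, i => hx i
  | _ + 1, _ => abs_tanh_le_one _

variable {C}

/-- One step: the new field is near the field driven by the node. -/
lemma field_step {ω : (Fin n → ℝ) × (Fin k → Fin n → ℝ)} {J : Fin n → Fin n → ℝ} {Λ e : ℝ}
    {a a' : Fin n → ℝ} {β : ℝ} (hβ : β ^ 2 = τ) (hτ : 0 ≤ τ) (hτ1 : τ ≤ 1)
    (H : ImageNear C J Λ e ω) {j : ℕ} (hj : j < k) (ha : ∀ i, |a i| ≤ 1) :
    vlen ((√n)⁻¹ • (obsY u ω.1 + act J a - onsager β a • a') - nextField C ω j)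
      ≤ (Λ + 2 * vlen ((√n)⁻¹ • a')) * vlen ((√n)⁻¹ • a - nvec C ω j)
        + e * (1 + vlen ((√n)⁻¹ • a')) + vlen ((√n)⁻¹ • a' - nvec C ω (C.par j)) := by
  set A := (√n)⁻¹ • a
  set A' := (√n)⁻¹ • a'
  have hB : onsager β a = τ * (1 - dot A A) := by rw [onsager_scaled, hβ]
  have e1 : (√n)⁻¹ • (obsY u ω.1 + act J a - onsager β a • a') - nextField C ω j
      = act J (A - nvec C ω j) + (act J (nvec C ω j) - imageTarget C ω j)
        + (τ * (dot A A - C.q j)) • A' - (τ * (1 - C.q j)) • (A' - nvec C ω (C.par j)) := by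
    rw [imageTarget_eq, act_sub_vec, act_smul_vec, hB]
    simp only [A']
    funext i
    simp only [Pi.sub_apply, Pi.add_apply, Pi.smul_apply, smul_eq_mul]
    ring
  rw [e1, sub_eq_add_neg]
  refine (vlen_add _ _).trans ((add_le_add ((vlen_add _ _).trans (add_le_add
    ((vlen_add _ _).trans (add_le_add (H.lip _) (H.img j hj))) le_rfl)) le_rfl).trans ?_)
  rw [vlen_smul (τ * (dot A A - C.q j)) A', ← neg_smul, vlen_smul (-(τ * (1 - C.q j))), abs_neg]
  have h1 : |τ * (dot A A - C.q j)| ≤ 2 * vlen (A - nvec C ω j) + e := by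
    rw [abs_mul, abs_of_nonneg hτ]
    refine (mul_le_of_le_one_left (abs_nonneg _) hτ1).trans ?_
    have h := abs_add_le (dot A A - dot (nvec C ω j) (nvec C ω j))
      (dot (nvec C ω j) (nvec C ω j) - C.q j)
    rw [sub_add_sub_cancel] at h
    exact h.trans (add_le_add (dot_self_sub_le (vlen_scaled_le_one ha) (vlen_nvec_le_one C ω j))
      (H.norm j hj))
  have h2 : |τ * (1 - C.q j)| ≤ 1 := by
    have := C.q_mem j
    rw [abs_of_nonneg (mul_nonneg hτ (by linarith [this.2]))]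
    exact mul_le_one₀ hτ1 (by linarith [this.2]) (by linarith [this.1])
  have := mul_le_mul_of_nonneg_right h1 (vlen_nonneg A')
  have := mul_le_mul_of_nonneg_right h2 (vlen_nonneg (A' - nvec C ω (C.par j)))
  linarith

/-- The iterates follow the nodes `s 0, s 1, …`. -/
theorem amp_follows (k L : ℕ) {Λ : ℝ} (hΛ : 0 ≤ Λ) {ε : ℝ} (hε : 0 < ε) :
    ∃ e > 0, ∀ {τ u δ β : ℝ} {n : ℕ} (C : Chain τ u δ k) (ω : (Fin n → ℝ) × (Fin k → Fin n → ℝ))
      (J : Fin n → Fin n → ℝ) (s : ℕ → ℕ), 0 < n → β ^ 2 = τ → 0 ≤ τ → τ ≤ 1 → 0 ≤ u →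
      ImageNear C J Λ e ω → (s 0 = 0 ∨ s 0 = k) →
      (∀ l < L, 0 < s (l + 1) ∧ s (l + 1) < k ∧ C.par (s (l + 1)) = s l) →
      ∀ l ≤ L, vlen ((√n)⁻¹ • ampA β J (obsY u ω.1)
          (fun _ => if s 0 = 0 then 1 else 0) l - nvec C ω (s l)) ≤ ε := by
  set R := Λ + 5
  have hR : 1 ≤ R := by simp only [R]; linarith
  refine ⟨ε / R ^ (L + 1), by positivity, fun {τ u δ β n} C ω J s hn hβ hτ hτ1 hu H hs0 hs l hl => ?_⟩
  set e := ε / R ^ (L + 1)
  have he : 0 < e := by positivity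
  set x : Fin n → ℝ := fun _ => if s 0 = 0 then 1 else 0
  have hx : ∀ i, |x i| ≤ 1 := fun i => by simp only [x]; split_ifs <;> simp
  set A := fun m => ampA β J (obsY u ω.1) x m
  have hs' : (√(n:ℝ)) ≠ 0 := (sqrt_pos.2 (Nat.cast_pos.2 hn)).ne'
  suffices h : ∀ m ≤ L, vlen ((√n)⁻¹ • A m - nvec C ω (s m)) ≤ e * R ^ m by
    refine (h l hl).trans ?_
    rw [show ε = e * R ^ (L + 1) by simp only [e]; field_simp]
    exact mul_le_mul_of_nonneg_left (pow_le_pow_right₀ hR (hl.trans L.le_succ)) he.le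
  have h0 : (√n)⁻¹ • A 0 = nvec C ω (s 0) := by
    funext i
    have hk := C.kpos
    rcases hs0 with h | h
    · simp [A, ampA, x, h, nvec, mnode]
    · rw [nvec_none C ω (le_of_eq h.symm)]
      simp [A, ampA, x, h, hk.ne']
  intro m
  induction m using Nat.strong_induction_on with
  | _ m ih =>
    intro hm
    match m with
    | 0 => rw [h0, sub_self, vlen_zero]; positivity
    | 1 =>
      obtain ⟨a1, a2, a3⟩ := hs 0 (by omega)
      rw [nvec_eq_tanh C hn hu hτ ω a1 a2, a3]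
      have e1 : A 1 = tanhv (√n • ((√n)⁻¹ • (obsY u ω.1 + act J (A 0)))) := by
        rw [smul_smul, mul_inv_cancel₀ hs', one_smul]
        rfl
      rw [e1]
      refine (vlen_tanhv_sub hn _ _).trans ?_
      rcases hs0 with h | h
      · have hq : C.q (s 0) = 1 := by rw [h, C.q_zero]
        have e2 : (√n)⁻¹ • (obsY u ω.1 + act J (A 0)) - nextField C ω (s 0)
            = act J (nvec C ω (s 0)) - imageTarget C ω (s 0) := by
          rw [imageTarget_eq, ← h0, hq, sub_self, mul_zero, zero_smul, act_smul_vec, smul_add]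
          abel
        rw [e2]
        refine (H.img _ (by rw [h]; exact C.kpos)).trans ?_
        rw [pow_one]; exact le_mul_of_one_le_right he.le hR
      · have hz : A 0 = 0 := by funext i; simp [A, ampA, x, h, C.kpos.ne']
        have e2 : nextField C ω (s 0) = (√n)⁻¹ • obsY u ω.1 := by
          rw [nextField, h, (C.none k le_rfl).1, (C.none k le_rfl).2]
          simp
        have e3 : act J (0 : Fin n → ℝ) = 0 := by funext i; simp [act]
        rw [hz, e3, add_zero, e2, sub_self, vlen_zero]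
        positivity
    | j + 2 =>
      obtain ⟨a1, a2, a3⟩ := hs (j + 1) (by omega)
      obtain ⟨b1, b2, b3⟩ := hs j (by omega)
      rw [nvec_eq_tanh C hn hu hτ ω a1 a2, a3]
      have e1 : A (j + 2) = tanhv (√n • ((√n)⁻¹ • (obsY u ω.1 + act J (A (j + 1))
          - onsager β (A (j + 1)) • A j))) := by
        rw [smul_smul, mul_inv_cancel₀ hs', one_smul]
        rcases j with _ | j <;> rfl
      rw [e1]
      refine (vlen_tanhv_sub hn _ _).trans
        ((field_step hβ hτ hτ1 H b2 (ampA_abs_le β J _ _ hx _)).trans ?_)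
      rw [b3]
      have hA' : vlen ((√n)⁻¹ • A j) ≤ 1 := vlen_scaled_le_one (ampA_abs_le β J _ _ hx j)
      have p1 := ih (j + 1) (by omega) (by omega)
      have p0 := ih j (by omega) (by omega)
      have hP : R ^ j ≤ R ^ (j + 1) := pow_le_pow_right₀ hR (Nat.le_succ _)
      have hQ : 1 ≤ R ^ (j + 1) := one_le_pow₀ hR
      have := mul_le_mul (show Λ + 2 * vlen ((√n)⁻¹ • A j) ≤ Λ + 2 by linarith) p1 (vlen_nonneg _)
        (by linarith)
      have := mul_le_mul_of_nonneg_left (show 1 + vlen ((√n)⁻¹ • A j) ≤ 2 by linarith) he.le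
      have := mul_le_mul_of_nonneg_left hP he.le
      have := mul_le_mul_of_nonneg_left hQ he.le
      rw [pow_succ R (j + 1)]
      simp only [R] at *
      linarith

/-- The TAP residual at node `j`, through the last three nodes. -/
theorem node_residual {ω : (Fin n → ℝ) × (Fin k → Fin n → ℝ)} {J : Fin n → Fin n → ℝ} {Λ e β : ℝ}
    (hn : 0 < n) (hβ : β ^ 2 = τ) (hτ : 0 ≤ τ) (hτ1 : τ ≤ 1) (hu : 0 ≤ u)
    (H : ImageNear C J Λ e ω) {j : ℕ} (hj : j < k) (hp : C.par j < k) :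
    vlen ((√n)⁻¹ • (fun i => obsY u ω.1 i + act J (fun l => mnode C j (site ω l)) i
        - onsager β (fun l => mnode C j (site ω l)) * mnode C j (site ω i)
        - sfield (avec C j) (site ω i)))
      ≤ Λ * vlen (nvec C ω j - nvec C ω (C.par j))
        + vlen (nvec C ω (C.par (C.par j)) - nvec C ω j) + |C.q j - C.q (C.par j)| + 2 * e := by
  set p := C.par j
  set m := fun l => mnode C j (site ω l)
  have hm : (√n)⁻¹ • m = nvec C ω j := by funext i; simp [m, nvec, div_eq_inv_mul]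
  have hB : onsager β m = τ * (1 - dot (nvec C ω j) (nvec C ω j)) := by
    rw [onsager_scaled, hβ, hm]
  have e0 : (√n)⁻¹ • (fun i => obsY u ω.1 i + act J m i - onsager β m * m i
      - sfield (avec C j) (site ω i))
      = (√n)⁻¹ • obsY u ω.1 + act J (nvec C ω j) - onsager β m • nvec C ω j - nextField C ω p := by
    rw [← hm, act_smul_vec]
    funext i
    have hs : (√(n:ℝ)) ≠ 0 := (sqrt_pos.2 (Nat.cast_pos.2 hn)).ne'
    simp only [Pi.smul_apply, Pi.add_apply, Pi.sub_apply, smul_eq_mul,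
      ← sqrt_smul_nextField C hn hu hτ ω j i, p]
    field_simp
  have e1 : (√n)⁻¹ • obsY u ω.1 + act J (nvec C ω j) - onsager β m • nvec C ω j - nextField C ω p
      = act J (nvec C ω j - nvec C ω p) + (act J (nvec C ω p) - imageTarget C ω p)
        + (τ * (1 - C.q p)) • (nvec C ω (C.par p) - nvec C ω j)
        + (τ * (dot (nvec C ω j) (nvec C ω j) - C.q p)) • nvec C ω j := by
    rw [hB, imageTarget_eq, act_sub_vec]
    funext i
    simp only [Pi.smul_apply, Pi.add_apply, Pi.sub_apply, smul_eq_mul]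
    ring
  rw [e0, e1]
  refine (vlen_add _ _).trans ((add_le_add ((vlen_add _ _).trans (add_le_add
    ((vlen_add _ _).trans (add_le_add (H.lip _) (H.img p hp))) le_rfl)) le_rfl).trans ?_)
  rw [vlen_smul, vlen_smul]
  have h2 : |τ * (1 - C.q p)| ≤ 1 := by
    have := C.q_mem p
    rw [abs_of_nonneg (mul_nonneg hτ (by linarith [this.2]))]
    exact mul_le_one₀ hτ1 (by linarith [this.2]) (by linarith [this.1])
  have h3 : |τ * (dot (nvec C ω j) (nvec C ω j) - C.q p)| ≤ e + |C.q j - C.q p| := by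
    rw [abs_mul, abs_of_nonneg hτ]
    refine (mul_le_of_le_one_left (abs_nonneg _) hτ1).trans ?_
    have h := abs_add_le (dot (nvec C ω j) (nvec C ω j) - C.q j) (C.q j - C.q p)
    rw [sub_add_sub_cancel] at h
    linarith [H.norm j hj]
  have := mul_le_mul_of_nonneg_right h2 (vlen_nonneg (nvec C ω (C.par p) - nvec C ω j))
  have := mul_le_mul_of_nonneg_left (vlen_nvec_le_one C ω j)
    (abs_nonneg (τ * (dot (nvec C ω j) (nvec C ω j) - C.q p)))
  linarith

/-- Two nodes differ by the difference of their overlaps. -/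
lemma node_dist {η : ℝ} {ω : (Fin n → ℝ) × (Fin k → Fin n → ℝ)} (S : NodeStats C η ω) {j l : ℕ}
    (hj : j < k) (hl : l < k) :
    vlen (nvec C ω j - nvec C ω l) ≤ √(|C.q j - C.q l| + 4 * η) := by
  refine sqrt_le_sqrt ?_
  rw [sub_dot, dot_sub, dot_sub, dot_comm (nvec C ω l) (nvec C ω j)]
  have h1 := abs_le.1 (S.mm j hj j hj)
  have h2 := abs_le.1 (S.mm j hj l hl)
  have h3 := abs_le.1 (S.mm l hl l hl)
  rw [min_self] at h1 h3
  rcases le_total (C.q j) (C.q l) with h | h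
  · rw [min_eq_left h] at h2
    rw [abs_of_nonpos (sub_nonpos.2 h)]
    linarith
  · rw [min_eq_right h] at h2
    rw [abs_of_nonneg (sub_nonneg.2 h)]
    linarith

/-- Removing the diagonal. -/
theorem imageNear_of_diag {η e e' Λ : ℝ} {ω : (Fin n → ℝ) × (Fin k → Fin n → ℝ)}
    {J J' : Fin n → Fin n → ℝ} {d : Fin n → ℝ} (S : NodeStats C η ω) (hη : η ≤ e' + e)
    (hd : ∀ i, |d i| ≤ e') (he'0 : 0 ≤ e') (hJ : ∀ a i, act J' a i = act J a i - d i * a i)
    (hlip : ∀ a, vlen (act J' a) ≤ Λ * vlen a)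
    (himg : ∀ j < k, vlen (act J (nvec C ω j) - imageTarget C ω j) ≤ e) :
    ImageNear C J' Λ (e + e') ω := by
  refine ⟨hlip, fun j hj => ?_, fun j hj => ?_⟩
  · have h : act J' (nvec C ω j) - imageTarget C ω j
        = (act J (nvec C ω j) - imageTarget C ω j) + fun i => -(d i * nvec C ω j i) := by
      funext i; simp only [Pi.sub_apply, Pi.add_apply, hJ]; ring
    rw [h]
    refine (vlen_add _ _).trans (add_le_add (himg j hj) ?_)
    refine (vlen_le_of_abs_le (y := e' • nvec C ω j) fun i => ?_).trans ?_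
    · rw [abs_neg, abs_mul, Pi.smul_apply, smul_eq_mul, abs_mul,
        abs_of_nonneg ((abs_nonneg _).trans (hd i))]
      exact mul_le_mul_of_nonneg_right (hd i) (abs_nonneg _)
    · rw [vlen_smul, abs_of_nonneg he'0]
      exact mul_le_of_le_one_right he'0 (vlen_nvec_le_one C ω j)
  · have := S.mm j hj j hj
    rw [min_self] at this
    linarith

end Vale.Agent.P150.Beta1
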