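import Mathlib
import Vale.Agent.P150.Beta1.Fields.Match

/-!
# The quadratic form of the glued matrix on the family and off it
-/

namespace Vale.Agent.P150.Beta1

open Finset Real

variable {n k : ℕ}

/-- Coefficient on the family. -/
noncomputable def fcoef (u : Fin k → Fin n → ℝ) (a : Fin n → ℝ) (l : Fin k) : ℝ := dot (u l) a

/-- The part off the family. -/
noncomputable def foff (u : Fin k → Fin n → ℝ) (a : Fin n → ℝ) : Fin n → ℝ :=
  a - ∑ l, fcoef u a l • u l

variable {u : Fin k → Fin n → ℝ} (hu : OrthoFam u) (hunit : ∀ l, dot (u l) (u l) = 1)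
include hu hunit

lemma dot_foff (a : Fin n → ℝ) (l : Fin k) : dot (u l) (foff u a) = 0 := by
  rw [foff, dot_sub, dot_finset_sum, sum_eq_single l (fun p _ hp => by
    rw [dot_smul, hu.ortho l p hp.symm, mul_zero]) (by simp), dot_smul, hunit l, mul_one, fcoef,
    sub_self]

lemma foff_sq (a : Fin n → ℝ) :
    dot (foff u a) (foff u a) + ∑ l, fcoef u a l ^ 2 = dot a a := by
  have h : dot (foff u a) (foff u a) = dot a (foff u a) := by
    conv_lhs => arg 1; rw [foff]
    rw [sub_dot, sum_dot]
    simp only [smul_dot, dot_foff hu hunit, mul_zero, sum_const_zero, sub_zero]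
  rw [h, foff, dot_sub, dot_finset_sum]
  simp only [dot_smul, fcoef, dot_comm a (u _), sq, sub_add_cancel]

lemma fcoef_abs_le {a : Fin n → ℝ} (ha : dot a a = 1) (l : Fin k) : |fcoef u a l| ≤ 1 := by
  have h := single_le_sum (f := fun l => fcoef u a l ^ 2) (fun l _ => sq_nonneg _) (mem_univ l)
  have := foff_sq hu hunit a
  have := dot_self_nonneg (foff u a)
  rw [abs_le_one_iff_mul_self_le_one, ← sq]
  linarith

omit hu hunit

lemma bil_sum (H : Fin n × Fin n → ℝ) (v w : Fin n → ℝ) :
    bil H v w = ∑ i, ∑ j, H (i, j) * v i * w j := by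
  simp only [bil, dot, op]
  rw [Fintype.sum_prod_type]
  exact sum_congr rfl fun i _ => sum_congr rfl fun j _ => by ring

lemma bil_add_left (H : Fin n × Fin n → ℝ) (v v' w : Fin n → ℝ) :
    bil H (v + v') w = bil H v w + bil H v' w := by
  simp only [bil_sum, Pi.add_apply, mul_add, add_mul, sum_add_distrib]

lemma bil_add_right (H : Fin n × Fin n → ℝ) (v w w' : Fin n → ℝ) :
    bil H v (w + w') = bil H v w + bil H v w' := by
  simp only [bil_sum, Pi.add_apply, mul_add, sum_add_distrib]

lemma bil_symm_part (H : Fin n × Fin n → ℝ) (v w : Fin n → ℝ) :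
    bil H v w + bil H w v = dot v (mv H w + mvT H w) := by
  rw [dot_add, dot_mv, dot_mvT]

variable (hu : OrthoFam u) (hunit : ∀ l, dot (u l) (u l) = 1)
include hu hunit

/-- The form of the glued array: fresh off the family, linear in the revealed vectors across. -/
theorem bil_split (z : Fin k → Fin n → ℝ) (G : Fin n × Fin n → ℝ) (a : Fin n → ℝ) :
    bil (gluef u z G) a a = bil G (foff u a) (foff u a)
      + √2 * ∑ l, fcoef u a l * dot a (z l)
      + √2 / 2 * ∑ l, ∑ p, fcoef u a l * fcoef u a p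
          * (dot (u p) (wvec u z l) - 2 * dot (u p) (z l)) := by
  set H := gluef u z G
  set b := foff u a
  set A := ∑ l, fcoef u a l • u l
  have hsym : ∀ l, mv H (u l) + mvT H (u l) = √2 • wvec u z l := fun l => by
    rw [← image_fam hu hunit z G l, smul_smul, mul_inv_cancel₀ (by positivity), one_smul]
  have hsA : ∀ v, bil H v A + bil H A v = √2 * ∑ l, fcoef u a l * dot v (wvec u z l) := by
    intro v
    have e1 : bil H v A = ∑ l, fcoef u a l * bil H v (u l) := by
      simp only [A, ← dot_mv]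
      rw [show mv H (∑ l, fcoef u a l • u l) = ∑ l, fcoef u a l • mv H (u l) by
        funext i; simp only [mv, Finset.sum_apply, Pi.smul_apply, smul_eq_mul, mul_sum]
        rw [sum_comm]
        exact sum_congr rfl fun l _ => sum_congr rfl fun j _ => by ring,
        dot_finset_sum]
      simp only [dot_smul]
    have e2 : bil H A v = ∑ l, fcoef u a l * bil H (u l) v := by
      simp only [A, ← dot_mv, sum_dot, smul_dot]
    rw [e1, e2, ← sum_add_distrib, mul_sum]
    refine sum_congr rfl fun l _ => ?_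
    rw [← mul_add, bil_symm_part, hsym, dot_smul]
    ring
  have hbw : ∀ l, dot b (wvec u z l) = dot a (z l) - ∑ p, fcoef u a p * dot (u p) (z l) := by
    intro l
    simp only [wvec, dot_add, dot_smul, dot_finset_sum, dot_comm b (u _), b, dot_foff hu hunit,
      mul_zero, sum_const_zero, add_zero]
    rw [foff, sub_dot, sum_dot]
    simp only [smul_dot]
  have ha : a = b + A := by simp [b, A, foff]
  have hbb : bil H b b = bil G b b := bil_gluef u z G b (dot_foff hu hunit a)
  have hAA : bil H A A + bil H A A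
      = √2 * ∑ l, fcoef u a l * ∑ p, fcoef u a p * dot (u p) (wvec u z l) := by
    rw [hsA]
    simp only [A, sum_dot, smul_dot]
  have hexp : bil H a a = bil H b b + (bil H b A + bil H A b) + bil H A A := by
    conv_lhs => rw [ha]
    rw [bil_add_left, bil_add_right, bil_add_right]
    ring
  rw [hexp, hsA b, hbb]
  simp only [hbw, mul_sub, sum_sub_distrib]
  have e3 : ∑ l, ∑ p, fcoef u a l * fcoef u a p * dot (u p) (wvec u z l)
      = ∑ l, fcoef u a l * ∑ p, fcoef u a p * dot (u p) (wvec u z l) :=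
    sum_congr rfl fun l _ => by rw [mul_sum]; exact sum_congr rfl fun p _ => by ring
  have e4 : ∑ l, ∑ p, fcoef u a l * fcoef u a p * (2 * dot (u p) (z l))
      = 2 * ∑ l, fcoef u a l * ∑ p, fcoef u a p * dot (u p) (z l) := by
    rw [mul_sum]
    refine sum_congr rfl fun l _ => ?_
    rw [mul_sum, mul_sum]
    exact sum_congr rfl fun p _ => by ring
  rw [e3, e4]
  linarith

lemma dot_wvec (w : Fin k → Fin n → ℝ) (l p : Fin k) :
    dot (u p) (wvec u w l) = if p < l then dot (u l) (w p)
      else if p = l then √2 * dot (u l) (w l) else dot (u p) (w l) := by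
  simp only [wvec, dot_add, dot_smul, dot_finset_sum]
  split_ifs with h1 h2
  · rw [hu.ortho p l h1.ne, mul_zero, add_zero, sum_eq_single p (fun q _ hq => by
      rw [hu.ortho p q hq.symm, mul_zero]) (fun h => absurd (mem_filter.2 ⟨mem_univ p, h1⟩) h),
      hunit p]
    ring
  · subst h2
    rw [hunit p, sum_eq_zero fun q hq => by rw [hu.ortho p q (mem_filter.1 hq).2.ne', mul_zero]]
    ring
  · rw [hu.ortho p l h2, mul_zero, add_zero,
      sum_eq_zero fun q hq => by
        rw [hu.ortho p q (fun e => h1 (e ▸ (mem_filter.1 hq).2)), mul_zero], add_zero]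

/-- The term quadratic in the coefficients is small. -/
lemma cross_small {w : Fin k → Fin n → ℝ} {e : ℝ} (he : 0 ≤ e)
    (hsm : ∀ q p : Fin k, q ≤ p → |dot (u q) (w p)| ≤ e) {α : Fin k → ℝ} (hα : ∀ l, |α l| ≤ 1) :
    |∑ l, ∑ p, α l * α p * (dot (u p) (wvec u w l) - 2 * dot (u p) (w l))| ≤ 4 * (k:ℝ) ^ 2 * e := by
  set f : Fin k → Fin k → ℝ := fun p l => if p < l then dot (u l) (w p) else 0
  have hsplit : ∀ l p, dot (u p) (wvec u w l) - 2 * dot (u p) (w l)
      = f p l - f l p + ((if p < l then -2 * dot (u p) (w l) else 0)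
        + if p = l then (√2 - 2) * dot (u l) (w l) else 0) := by
    intro l p
    rw [dot_wvec hu hunit]
    rcases lt_trichotomy p l with h | h | h
    · simp only [f, if_pos h, if_neg h.asymm, if_neg h.ne]; ring
    · subst h; simp only [f, lt_irrefl, if_false, if_true]; ring
    · simp only [f, if_pos h, if_neg h.asymm, if_neg h.ne']; ring
  simp only [hsplit]
  simp only [mul_add, mul_sub, sum_add_distrib, sum_sub_distrib]
  rw [sum_comm (f := fun l p => α l * α p * f p l),
    sum_congr rfl fun p _ => sum_congr rfl fun l _ => by rw [mul_comm (α l) (α p)], sub_self,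
    zero_add, ← sum_add_distrib]
  simp only [← sum_add_distrib, ← mul_add]
  refine (abs_sum_le_sum_abs _ _).trans ((sum_le_sum fun l _ => abs_sum_le_sum_abs _ _).trans ?_)
  refine (sum_le_sum fun l _ => sum_le_card_nsmul _ _ (4 * e) fun p _ => ?_).trans (le_of_eq ?_)
  · rw [abs_mul, abs_mul]
    refine (mul_le_mul (mul_le_one₀ (hα l) (abs_nonneg _) (hα p)) ?_ (abs_nonneg _)
      zero_le_one).trans_eq (one_mul _)
    have hs : |√2 - 2| ≤ 2 := by
      have : 0 ≤ √2 := sqrt_nonneg 2
      have : √2 ≤ 2 := by rw [sqrt_le_left zero_le_two]; norm_num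
      rw [abs_le]; constructor <;> linarith
    rcases lt_trichotomy p l with h | h | h
    · rw [if_pos h, if_neg h.ne, add_zero, abs_mul, abs_neg, abs_two]
      linarith [hsm p l h.le]
    · subst h
      rw [if_neg (lt_irrefl _), if_pos rfl, zero_add, abs_mul]
      linarith [mul_le_mul hs (hsm p p le_rfl) (abs_nonneg _) zero_le_two]
    · rw [if_neg h.asymm, if_neg h.ne']
      simp; linarith
  · simp [sum_const, card_univ]; ring

/-- The planted form, split. -/
theorem fullJ_form_le {τ : ℝ} (hτ : 0 ≤ τ) (hτ1 : τ ≤ 1) (hn : 0 < n) (z : Fin k → Fin n → ℝ)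
    {e : ℝ} (he : 0 ≤ e) (hsm : ∀ q p : Fin k, q ≤ p → |dot (u q) ((√n)⁻¹ • z p)| ≤ e)
    (G : Fin n × Fin n → ℝ) {a : Fin n → ℝ} (ha : dot a a = 1) :
    dot a (act (fullJ τ (gluef u z G)) a) ≤ τ * ((∑ i, a i) / √n) ^ 2
      + √(2 * τ / n) * bil G (foff u a) (foff u a)
      + 2 * √τ * ∑ l, fcoef u a l * dot a ((√n)⁻¹ • z l) + 4 * (k:ℝ) ^ 2 * e := by
  have hn' : (0:ℝ) < n := by exact_mod_cast hn
  set H := gluef u z G
  set C := ∑ l, ∑ p, fcoef u a l * fcoef u a p
    * (dot (u p) (wvec u z l) - 2 * dot (u p) (z l))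
  set L := ∑ l, fcoef u a l * dot a (z l)
  have e0 : dot a (act (fullJ τ H) a)
      = τ * ((∑ i, a i) / √n) ^ 2 + √(2 * τ / n) * bil H a a := by
    have h1 : ∑ i, ∑ j, a i * ((H (i, j) + H (j, i)) / (√2 * √n) * a j)
        = √2 / √n * bil H a a := by
      have hs : ∑ i, ∑ j, H (j, i) * a i * a j = ∑ i, ∑ j, H (i, j) * a i * a j := by
        rw [sum_comm]; exact sum_congr rfl fun i _ => sum_congr rfl fun j _ => by ring
      have e : ∀ i j, a i * ((H (i, j) + H (j, i)) / (√2 * √n) * a j)
          = (√2 * √n)⁻¹ * (H (i, j) * a i * a j + H (j, i) * a i * a j) := fun i j => by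
        rw [div_eq_mul_inv]; ring
      simp only [e, ← mul_sum, sum_add_distrib, hs, bil_sum]
      field_simp
      linear_combination (-(∑ i, ∑ j, H (i, j) * a i * a j)) * mul_self_sqrt (zero_le_two (α := ℝ))
    simp only [dot, act, fullJ, add_mul, sum_add_distrib, mul_add, mul_sum, mul_assoc]
    congr 1
    · rw [div_pow, sq_sqrt hn'.le, sq, sum_mul_sum, sum_div, mul_sum]
      exact sum_congr rfl fun i _ => by
        rw [sum_div, mul_sum]; exact sum_congr rfl fun j _ => by ring
    · rw [show √(2 * τ / n) = √τ * (√2 / √n) by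
        rw [← sqrt_div' _ hn'.le, ← sqrt_mul hτ]; congr 1; ring]
      rw [mul_assoc, ← h1, mul_sum]
      exact sum_congr rfl fun i _ => by
        rw [mul_sum]; exact sum_congr rfl fun j _ => by ring
  have hC : |(√n)⁻¹ * C| ≤ 4 * (k:ℝ) ^ 2 * e := by
    refine le_trans (le_of_eq ?_)
      (cross_small hu hunit (w := fun l => (√n)⁻¹ • z l) he hsm (α := fcoef u a)
        (fcoef_abs_le hu hunit ha))
    congr 1
    simp only [C, mul_sum]
    refine sum_congr rfl fun l _ => sum_congr rfl fun p _ => ?_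
    have hlin : wvec u (fun l => (√n)⁻¹ • z l) l = (√n)⁻¹ • wvec u z l := by
      simp only [wvec, dot_smul, smul_add, smul_sum, smul_smul]
      congr 2
      · ring_nf
      · simp only [mul_sub]
    rw [hlin, dot_smul, dot_smul]
    ring
  have h2 : √(2 * τ / n) * bil H a a = √(2 * τ / n) * bil G (foff u a) (foff u a)
      + 2 * √τ * ((√n)⁻¹ * L) + √τ * ((√n)⁻¹ * C) := by
    rw [bil_split hu hunit z G a, show √(2 * τ / n) = √τ * (√2 / √n) by
        rw [← sqrt_div' _ hn'.le, ← sqrt_mul hτ]; congr 1; ring]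
    have h := mul_self_sqrt (zero_le_two (α := ℝ))
    simp only [div_eq_mul_inv]
    linear_combination (√τ * (√(n:ℝ))⁻¹ * L + √τ * (√(n:ℝ))⁻¹ * C / 2) * h
  have h3 : ∑ l, fcoef u a l * dot a ((√n)⁻¹ • z l) = (√n)⁻¹ * L := by
    simp only [dot_smul, L, mul_sum]
    exact sum_congr rfl fun l _ => by ring
  rw [e0, h2, h3]
  have h4 : √τ * ((√n)⁻¹ * C) ≤ 4 * (k:ℝ) ^ 2 * e :=
    (le_abs_self _).trans (by
      rw [abs_mul, abs_of_nonneg (sqrt_nonneg τ)]
      exact (mul_le_of_le_one_left (abs_nonneg _) (sqrt_le_one.2 hτ1)).trans hC)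
  linarith

end Vale.Agent.P150.Beta1
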