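import Mathlib
import Vale.Agent.P150.Beta1.Good

/-!
# What the field module delivers

`FieldsStatement` is the quenched form of the goodness of fields. Good fields form a closed set of
pairs `(J, y)`, so that the cutoffs built from them are measurable.
-/

namespace Vale.Agent.P150.Beta1

open MeasureTheory ProbabilityTheory Finset Real Filter
open scoped Topology

variable {ι : Type*} [Fintype ι] [DecidableEq ι]

/-- The quadratic form of `R = J - B* + (2β²/n) m mᵀ`. -/
noncomputable def fieldR (β : ℝ) (J : ι → ι → ℝ) (m a : ι → ℝ) : ℝ :=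
  (∑ i, a i * act J a i) - onsager β m * (∑ i, a i ^ 2)
    + 2 * β ^ 2 * (∑ i, m i * a i) ^ 2 / Fintype.card ι

/-- The largest admissible diagonal: `1 - m² + η` outside `S`, `gmax` on `S`. -/
noncomputable def boxTop (η gmax : ℝ) (m : ι → ℝ) (S : Finset ι) (i : ι) : ℝ :=
  if i ∈ S then gmax else 1 - m i ^ 2 + η

/-- An exact TAP point `m` with the edge on the box. -/
def BoxEdge (β κ η gmax : ℝ) (J : ι → ι → ℝ) (y m : ι → ℝ) : Prop :=
  (∀ i, m i = tanh (y i + act J m i - onsager β m * m i)) ∧
  ∀ S : Finset ι, (S.card : ℝ) ≤ η * Fintype.card ι → ∀ a : ι → ℝ,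
    fieldR β J m a + κ * ∑ i, a i ^ 2 ≤ ∑ i, a i ^ 2 / boxTop η gmax m S i

/-- The edge on the box is the edge of `TapEdge`, at the field `y + J m - B m`. -/
lemma BoxEdge.tapEdge {β κ η gmax : ℝ} {J : ι → ι → ℝ} {y m : ι → ℝ}
    (h : BoxEdge β κ η gmax J y m) :
    ∃ γ, tanhv γ = m ∧ TapEdge β κ η gmax J y γ := by
  set γ := fun i => y i + act J m i - onsager β m * m i
  have hγ : tanhv γ = m := funext fun i => (h.1 i).symm
  refine ⟨γ, hγ, fun i => ?_, fun w a hw hcard => ?_⟩
  · rw [hγ, show tanh (γ i) = m i from (h.1 i).symm]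
    simp only [γ]
    ring
  · have ht : ∀ i, tanh (γ i) = m i := fun i => (h.1 i).symm
    simp only [ht] at hcard ⊢
    rw [hγ]
    set S := univ.filter fun i => 1 - m i ^ 2 + η < w i
    have hS : (S.card : ℝ) ≤ η * Fintype.card ι := by
      rwa [← Set.ncard_coe_finset, coe_filter_univ]
    refine (h.2 S hS a).trans (sum_le_sum fun i _ =>
      div_le_div_of_nonneg_left (sq_nonneg _) (hw i).1 ?_)
    simp only [boxTop, S, mem_filter, mem_univ, true_and]
    split_ifs with hi
    · exact (hw i).2
    · exact not_lt.1 hi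

lemma TapEdge.boxEdge {β κ η gmax : ℝ} {J : ι → ι → ℝ} {y γ : ι → ℝ} (hη : 0 < η)
    (hg : 1 + η ≤ gmax) (h : TapEdge β κ η gmax J y γ) :
    BoxEdge β κ η gmax J y (tanhv γ) := by
  refine ⟨fun i => ?_, fun S hS a => ?_⟩
  · have := h.1 i
    simp only [tanhv] at this ⊢
    congr 1
    linarith
  · refine h.2 (boxTop η gmax (tanhv γ) S) a (fun i => ?_) (le_trans ?_ hS)
    · have h1 := sq_nonneg (tanh (γ i))
      have h2 := tanh_sq_lt_one (γ i)
      simp only [boxTop, tanhv]
      split_ifs <;> constructor <;> linarith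
    · rw [← Set.ncard_coe_finset]
      refine Nat.cast_le.2 (Set.ncard_le_ncard (fun i hi => ?_) S.finite_toSet)
      simp only [Set.mem_ofPred_eq, boxTop, tanhv] at hi
      split_ifs at hi with h'
      · exact h'
      · exact absurd hi (lt_irrefl _)

/-- Probability that the field observed at time `u` at the configuration `x` is not good. -/
noncomputable def badProb (β κ η gmax ρ : ℝ) (K : ℕ) (ε u : ℝ) (J : ι → ι → ℝ)
    (x : ι → Bool) : ℝ :=
  (Measure.pi fun _ : ι => gaussianReal 0 1).real
    {ξ | ¬GoodField β κ η gmax ρ K ε J fun i => u * spins x i + √u * ξ i}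

/-- The field statement: quenched, exponentially small, uniform in the time. -/
def FieldsStatement (β : ℝ) : Prop :=
  ∀ T > 0, ∀ G > 0, ∃ κ > 0, ∃ η > 0, ∃ gmax ≥ G, ∀ ρ > 0, ∃ K₀ : ℕ, ∀ K ≥ K₀, ∃ c > 0,
    ∀ᶠ n : ℕ in atTop, ∀ u ∈ Set.Icc 0 T,
      Measure.pi (fun _ : Fin n × Fin n => gaussianReal 0 1)
        {g | exp (-(c * n)) < mean (gibbs (skCoupling β g) 0)
          (badProb β κ η gmax ρ K (exp (-(c * n))) u (skCoupling β g))}
      ≤ ENNReal.ofReal (exp (-(c * n)))

omit [DecidableEq ι] in
lemma continuous_ampA (β : ℝ) (x : ι → ℝ) : ∀ k,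
    Continuous fun p : (ι → ι → ℝ) × (ι → ℝ) => ampA β p.1 p.2 x k := by
  have ht : Continuous tanh := by
    rw [show tanh = fun x => sinh x / cosh x from funext tanh_eq_sinh_div_cosh]
    exact continuous_sinh.div₀ continuous_cosh fun x => (cosh_pos x).ne'
  have hz : ∀ k, Continuous fun p : (ι → ι → ℝ) × (ι → ℝ) => ampZ β p.1 p.2 x k := by
    intro k
    induction k using Nat.twoStepInduction with
    | zero => unfold ampZ act; fun_prop
    | one => simp only [ampZ, onsager, qav, avg, tanhv, act]; fun_prop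
    | more k hk hk1 => simp only [ampZ, onsager, qav, avg, tanhv, act]; fun_prop
  intro k
  cases k with
  | zero => exact continuous_const
  | succ k =>
    simp only [ampA]
    exact continuous_pi fun i => ht.comp ((continuous_apply i).comp (hz k))

open scoped Classical in
/-- Good fields form a closed set of pairs `(J, y)`. -/
theorem isClosed_goodField (β κ η gmax ρ : ℝ) (K : ℕ) (ε : ℝ) (hη : 0 < η) (hg : 1 + η ≤ gmax) :
    IsClosed {p : (ι → ι → ℝ) × (ι → ℝ) | GoodField β κ η gmax ρ K ε p.1 p.2} := by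
  have hG : 0 < gmax := by linarith
  let Cube := Set.pi (Set.univ : Set ι) fun _ => Set.Icc (-1 : ℝ) 1
  have : CompactSpace Cube :=
    isCompact_iff_compactSpace.1 (isCompact_univ_pi fun _ => isCompact_Icc)
  set A : Set (((ι → ι → ℝ) × (ι → ℝ)) × Cube) := {q | BoxEdge β κ η gmax q.1.1 q.1.2 q.2.1 ∧
    mean (gibbs q.1.1 q.1.2) (fun x =>
      if Near β q.1.1 q.1.2 (spins x) q.2.1 K ρ then (0 : ℝ) else 1) ≤ ε}
  have hA : IsClosed A := by
    have hmi : ∀ i, Continuous fun q : ((ι → ι → ℝ) × (ι → ℝ)) × Cube => q.2.1 i :=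
      fun i => (continuous_apply i).comp (continuous_subtype_val.comp continuous_snd)
    have ht : Continuous tanh := by
      rw [show tanh = fun x => sinh x / cosh x from funext tanh_eq_sinh_div_cosh]
      exact continuous_sinh.div₀ continuous_cosh fun x => (cosh_pos x).ne'
    simp only [A, BoxEdge, Set.ofPred_and, Set.ofPred_forall]
    refine ((isClosed_iInter fun i => isClosed_eq (hmi i) (ht.comp ?_)).inter
      (isClosed_iInter fun S => isClosed_iInter fun _ => isClosed_iInter fun a =>
        isClosed_le ?_ (continuous_finsetSum _ fun i _ => continuous_const.div₀ ?_ ?_))).inter ?_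
    · simp only [act, onsager, qav, avg]; fun_prop
    · simp only [fieldR, act, onsager, qav, avg]; fun_prop
    · simp only [boxTop]; split_ifs <;> fun_prop
    · intro q
      simp only [boxTop]
      split_ifs
      · exact hG.ne'
      · have := q.2.2 i (Set.mem_univ i)
        have h2 : q.2.1 i ^ 2 ≤ 1 := by nlinarith [this.1, this.2]
        linarith
    · rw [← isOpen_compl_iff, isOpen_iff_mem_nhds]
      intro q hq
      simp only [Set.mem_compl_iff, Set.mem_ofPred_eq, not_le, mean] at hq ⊢
      set F := univ.filter fun x => ¬Near β q.1.1 q.1.2 (spins x) q.2.1 K ρ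
      have hopen : ∀ x, IsOpen {q : ((ι → ι → ℝ) × (ι → ℝ)) × Cube |
          ¬Near β q.1.1 q.1.2 (spins x) q.2.1 K ρ} := fun x => by
        simp only [Near, ← Set.compl_ofPred, Set.ofPred_forall, isOpen_compl_iff]
        refine isClosed_iInter fun j => isClosed_iInter fun _ => isClosed_iInter fun _ =>
          isClosed_le ?_ continuous_const
        exact continuous_finsetSum _ fun i _ => (((continuous_apply i).comp
          ((continuous_ampA β _ j).comp continuous_fst)).sub (hmi i)).pow 2
      have hg : Continuous fun q : ((ι → ι → ℝ) × (ι → ℝ)) × Cube =>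
          ∑ x ∈ F, gibbs q.1.1 q.1.2 x := by
        refine continuous_finsetSum _ fun x _ => ?_
        simp only [gibbs, energy]
        exact Continuous.div₀ (by fun_prop) (by fun_prop) fun q => partition_pos.ne'
      have h0 : ε < ∑ x ∈ F, gibbs q.1.1 q.1.2 x := by
        rw [sum_filter]
        exact hq.trans_eq (sum_congr rfl fun x _ => by split_ifs <;> simp)
      filter_upwards [(isOpen_lt continuous_const hg).mem_nhds h0,
        (Filter.eventually_all_finset F).2 fun x hx =>
          (hopen x).mem_nhds (mem_filter.1 hx).2] with q' h1 h2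
      simp only [Set.mem_compl_iff, Set.mem_ofPred_eq, not_le]
      refine h1.trans_le (le_trans (le_of_eq ?_) (sum_le_univ_sum_of_nonneg (s := F) fun x =>
        mul_nonneg (gibbs_pos x).le (by split_ifs <;> norm_num)))
      exact sum_congr rfl fun x hx => by rw [if_neg (h2 x hx), mul_one]
  have e : {p : (ι → ι → ℝ) × (ι → ℝ) | GoodField β κ η gmax ρ K ε p.1 p.2} = Prod.fst '' A := by
    ext p
    constructor
    · rintro ⟨γ, hγ, hf⟩
      refine ⟨(p, ⟨tanhv γ, fun i _ => ?_⟩), ⟨hγ.boxEdge hη hg, hf⟩, rfl⟩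
      exact ⟨(neg_one_lt_tanh _).le, (tanh_lt_one _).le⟩
    · rintro ⟨q, hq, rfl⟩
      obtain ⟨γ, hm, hγ⟩ := hq.1.tapEdge
      exact ⟨γ, hγ, by rw [hm]; exact hq.2⟩
  rw [e]
  exact isClosedMap_fst_of_compactSpace A hA

end Vale.Agent.P150.Beta1
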