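import Mathlib
import Vale.Agent.P150.Beta1.SecularEdge
import Vale.Agent.P150.Beta1.Fields.EdgeSplit
import Vale.Agent.P150.Beta1.Fields.Interface

/-!
# The comparison process of the edge, bounded site by site

`freshBd` collects what depends on the fresh vector; its mean is controlled by `mean_freshBd`.
`point_edge` and `point_edge_zero` bound the comparison process at a node, resp. at `0`, for every
test vector and every small exceptional set.
-/

namespace Vale.Agent.P150.Beta1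

open MeasureTheory ProbabilityTheory Finset Real

variable {n k : ℕ}

/-- `∫ (x² - 1)²`. -/
noncomputable def gvar2 : ℝ := ∫ x, (x ^ 2 - 1) ^ 2 ∂gaussianReal 0 1

/-- `∫ x⁴`. -/
noncomputable def gmom4 : ℝ := ∫ x, x ^ 4 ∂gaussianReal 0 1

/-- The part above a level. -/
noncomputable def above (L x : ℝ) : ℝ := max (x - L) 0

lemma gvar2_nonneg : 0 ≤ gvar2 := integral_nonneg fun _ => sq_nonneg _

lemma gmom4_nonneg : 0 ≤ gmom4 := integral_nonneg fun x => by positivity

lemma integrable_pow_gauss (p : ℕ) : Integrable (fun x : ℝ => x ^ p) (gaussianReal 0 1) := by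
  have h := PolyGrowth.integrable (ι := Fin 1) (F := fun g => g 0 ^ p)
    ⟨1, p, fun g => by
      rw [abs_pow, one_mul]
      refine pow_le_pow_left₀ (abs_nonneg _) ?_ p
      simp⟩ (by fun_prop)
  have hm : MeasurePreserving (fun g : Fin 1 → ℝ => g 0) (gauss (Fin 1)) (gaussianReal 0 1) :=
    measurePreserving_eval (fun _ : Fin 1 => gaussianReal 0 1) 0
  exact (hm.integrable_comp (by fun_prop)).1 h

lemma integrable_above (L : ℝ) (hL : 0 ≤ L) :
    Integrable (fun x : ℝ => above L (x ^ 2)) (gaussianReal 0 1) :=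
  (integrable_pow_gauss 2).mono' (by unfold above; fun_prop) (ae_of_all _ fun x => by
    simp only [above]
    rw [norm_of_nonneg (le_max_right _ _)]
    exact max_le (by linarith) (sq_nonneg x))

lemma integral_above_le {L : ℝ} (hL : 0 < L) :
    ∫ x, above L (x ^ 2) ∂gaussianReal 0 1 ≤ gmom4 / L := by
  rw [gmom4, ← integral_div]
  refine integral_mono (integrable_above L hL.le) ((integrable_pow_gauss 4).div_const L) fun x => ?_
  simp only [above]
  refine max_le ?_ (by positivity)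
  rw [le_div_iff₀ hL]
  nlinarith [sq_nonneg (x ^ 2 - L), sq_nonneg L, sq_nonneg (x ^ 2)]

/-- A weighted sum of independent centred terms. -/
lemma integral_abs_weighted {ι : Type*} [Fintype ι] (a : ι → ℝ) {h : ℝ → ℝ} (hh : Continuous h)
    (h1 : Integrable h (gaussianReal 0 1)) (h2 : Integrable (fun x => h x ^ 2) (gaussianReal 0 1))
    (h0 : ∫ x, h x ∂gaussianReal 0 1 = 0) :
    Integrable (fun g => |∑ i, a i * h (g i)|) (gauss ι) ∧
      ∫ g, |∑ i, a i * h (g i)| ∂gauss ι
        ≤ √((∑ i, a i ^ 2) * ∫ x, h x ^ 2 ∂gaussianReal 0 1) := by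
  classical
  set V := ∫ x, h x ^ 2 ∂gaussianReal 0 1
  have he : ∀ i, MeasurePreserving (fun g : ι → ℝ => g i) (gauss ι) (gaussianReal 0 1) := fun i =>
    measurePreserving_eval (fun _ : ι => gaussianReal 0 1) i
  have i1 : Integrable (fun g => |∑ i, a i * h (g i)|) (gauss ι) :=
    (integrable_finsetSum _ fun i _ =>
      ((he i).integrable_comp_of_integrable h1).const_mul (a i)).abs
  have ip : ∀ i j, Integrable (fun g => h (g i) * h (g j)) (gauss ι) ∧
      ∫ g, h (g i) * h (g j) ∂gauss ι = if i = j then V else 0 := by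
    intro i j
    rcases eq_or_ne i j with rfl | hij
    · rw [if_pos rfl]
      simp only [← sq]
      refine ⟨(he i).integrable_comp_of_integrable h2, ?_⟩
      have h := integral_map (μ := gauss ι) (φ := fun g => g i) (he i).measurable.aemeasurable
        (f := fun x => h x ^ 2) (hh.pow 2).aestronglyMeasurable
      rw [(he i).map_eq] at h
      exact h.symm
    · rw [if_neg hij]
      set f : ι → ℝ → ℝ := fun l => if l = i ∨ l = j then h else fun _ => 1
      have ef : (fun g : ι → ℝ => h (g i) * h (g j)) = fun g => ∏ l, f l (g l) := by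
        funext g
        rw [← prod_subset (subset_univ {i, j}) fun l _ hl => by
          simp only [mem_insert, mem_singleton] at hl; simp [f, hl], prod_pair hij]
        simp [f]
      rw [ef]
      refine ⟨Integrable.fintype_prod fun l => ?_, ?_⟩
      · simp only [f]; split_ifs
        exacts [h1, integrable_const 1]
      · rw [gauss, integral_fintype_prod_eq_prod f]
        exact prod_eq_zero (mem_univ i) (by simp [f, h0])
  have i2 : Integrable (fun g => (∑ i, a i * h (g i)) ^ 2) (gauss ι) ∧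
      ∫ g, (∑ i, a i * h (g i)) ^ 2 ∂gauss ι = (∑ i, a i ^ 2) * V := by
    have e : ∀ g : ι → ℝ, (∑ i, a i * h (g i)) ^ 2
        = ∑ i, ∑ j, a i * a j * (h (g i) * h (g j)) := fun g => by
      rw [sq, sum_mul_sum]; exact sum_congr rfl fun i _ => sum_congr rfl fun j _ => by ring
    simp only [e]
    refine ⟨integrable_finsetSum _ fun i _ => integrable_finsetSum _ fun j _ =>
      (ip i j).1.const_mul _, ?_⟩
    rw [integral_finsetSum _ fun i _ => integrable_finsetSum _ fun j _ => (ip i j).1.const_mul _,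
      sum_mul]
    refine sum_congr rfl fun i _ => ?_
    rw [integral_finsetSum _ fun j _ => (ip i j).1.const_mul _]
    simp only [integral_const_mul, (ip _ _).2, mul_ite, mul_zero, sum_ite_eq, mem_univ, if_true]
    ring
  refine ⟨i1, le_sqrt_of_sq_le ?_⟩
  set μ := ∫ g, |∑ i, a i * h (g i)| ∂gauss ι
  have h3 : 0 ≤ ∫ g, ((∑ i, a i * h (g i)) ^ 2 - 2 * μ * |∑ i, a i * h (g i)| + μ ^ 2)
      ∂gauss ι := by
    refine integral_nonneg fun g => ?_
    show 0 ≤ (∑ i, a i * h (g i)) ^ 2 - 2 * μ * |∑ i, a i * h (g i)| + μ ^ 2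
    rw [← sq_abs (∑ i, a i * h (g i))]
    linarith [sq_nonneg (|∑ i, a i * h (g i)| - μ)]
  have i3 : Integrable (fun g => (∑ i, a i * h (g i)) ^ 2 - 2 * μ * |∑ i, a i * h (g i)|)
      (gauss ι) := Integrable.sub i2.1 (i1.const_mul _)
  rw [integral_add i3 (integrable_const _),
    integral_sub i2.1 (i1.const_mul _), integral_const_mul, i2.2] at h3
  simp only [integral_const, probReal_univ, one_smul] at h3
  linarith

/-- The fresh deviations of the weighted averages. -/
noncomputable def statDev (v m : Fin n → ℝ) (z : Fin k → Fin n → ℝ) (g : Fin n → ℝ) : ℝ :=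
  |wavg v (fun i => g i ^ 2 - 1)| + (∑ l, |wavg v (fun i => g i * z l i)|)
    + |wavg v g| + |wavg v (fun i => g i * m i)|

/-- Everything in the comparison process that depends on the fresh vector. -/
noncomputable def freshBd (K η G : ℝ) (v m : Fin n → ℝ) (u z : Fin k → Fin n → ℝ) (g : Fin n → ℝ) :
    ℝ :=
  K * statDev v m z g + 2 * (∑ l, |dot (u l) g| / √n) + 16 * η * (∑ i, g i ^ 2) / n
    + 8 * G * (∑ i, above (√η)⁻¹ (g i ^ 2)) / n

lemma continuous_freshBd (K η G : ℝ) (v m : Fin n → ℝ) (u z : Fin k → Fin n → ℝ) :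
    Continuous (freshBd K η G v m u z) := by
  unfold freshBd statDev wavg above dot
  fun_prop

/-- The mean of the fresh part. -/
theorem mean_freshBd {K η G : ℝ} (hK : 0 ≤ K) (hη : 0 < η) (hG : 0 ≤ G) (hn : 0 < n)
    {v m : Fin n → ℝ} (hv : ∀ i, |v i| ≤ 1) (hm : ∀ i, |m i| ≤ 1) {u z : Fin k → Fin n → ℝ}
    (hu : ∀ l, dot (u l) (u l) ≤ 1) (hz : ∀ l, vlen ((√n)⁻¹ • z l) ≤ 2) :
    Integrable (freshBd K η G v m u z) (gauss (Fin n)) ∧
      ∫ g, freshBd K η G v m u z g ∂gauss (Fin n)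
        ≤ (K * (√gvar2 + 2 * k + 2) + 2 * k) / √n + 16 * η + 8 * G * (gmom4 * √η) := by
  have hn' : (0:ℝ) < n := by exact_mod_cast hn
  have hone : ∫ x, x ^ 2 ∂gaussianReal 0 1 = 1 := by
    have h := gauss_second_moment (κ := Fin 1) 0
    have hm : MeasurePreserving (fun g : Fin 1 → ℝ => g 0) (gauss (Fin 1)) (gaussianReal 0 1) :=
      measurePreserving_eval (fun _ : Fin 1 => gaussianReal 0 1) 0
    have := integral_map (μ := gauss (Fin 1)) (φ := fun g => g 0) hm.measurable.aemeasurable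
      (f := fun x : ℝ => x ^ 2) (by fun_prop)
    rw [hm.map_eq, h] at this
    exact this
  have lin1 : ∀ a : Fin n → ℝ, Integrable (fun g => |∑ i, a i * g i|) (gauss (Fin n)) ∧
      ∫ g, |∑ i, a i * g i| ∂gauss (Fin n) ≤ √(∑ i, a i ^ 2) := fun a => by
    have h := integral_abs_weighted a (h := fun x => x) continuous_id
      (by simpa using integrable_pow_gauss 1) (integrable_pow_gauss 2) integral_id_gaussianReal
    rwa [hone, mul_one] at h
  have hsn : ∀ (a : Fin n → ℝ) {B : ℝ}, 0 ≤ B → (∑ i, a i ^ 2) ≤ B ^ 2 * n →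
      Integrable (fun g => |(∑ i, a i * g i) / n|) (gauss (Fin n)) ∧
      ∫ g, |(∑ i, a i * g i) / n| ∂gauss (Fin n) ≤ B / √n := fun a B hB0 hB => by
    obtain ⟨i, b⟩ := lin1 a
    simp only [abs_div, abs_of_pos hn']
    refine ⟨i.div_const _, ?_⟩
    rw [integral_div, div_le_iff₀ hn']
    refine b.trans ((sqrt_le_sqrt hB).trans (le_of_eq ?_))
    rw [sqrt_mul (sq_nonneg _), sqrt_sq hB0]
    field_simp
    rw [sq_sqrt hn'.le]
  have hv2 : ∀ i, v i ^ 2 ≤ 1 := fun i => by
    rw [← sq_abs]; exact pow_le_one₀ (abs_nonneg _) (hv i)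
  have J1 : Integrable (fun g => |wavg v (fun i => g i ^ 2 - 1)|) (gauss (Fin n)) ∧
      ∫ g, |wavg v (fun i => g i ^ 2 - 1)| ∂gauss (Fin n) ≤ √gvar2 / √n := by
    have h := integral_abs_weighted v (h := fun x => x ^ 2 - 1) (by fun_prop)
      ((integrable_pow_gauss 2).sub (integrable_const 1))
      ((((integrable_pow_gauss 4).sub ((integrable_pow_gauss 2).const_mul 2)).add
        (integrable_const 1)).congr (ae_of_all _ fun x => by
          simp only [Pi.add_apply, Pi.sub_apply]; ring))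
      (by rw [integral_sub (integrable_pow_gauss 2) (integrable_const 1), hone]; simp)
    simp only [wavg, Fintype.card_fin, abs_div, abs_of_pos hn']
    refine ⟨h.1.div_const _, ?_⟩
    rw [integral_div, div_le_iff₀ hn']
    refine h.2.trans ?_
    rw [sqrt_mul (sum_nonneg fun i _ => sq_nonneg _), mul_comm, div_mul_eq_mul_div,
      mul_div_assoc, div_sqrt]
    refine mul_le_mul_of_nonneg_left (sqrt_le_sqrt ?_) (sqrt_nonneg _)
    exact (sum_le_sum fun i _ => hv2 i).trans (by simp)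
  have J2 : ∀ l, Integrable (fun g => |wavg v (fun i => g i * z l i)|) (gauss (Fin n)) ∧
      ∫ g, |wavg v (fun i => g i * z l i)| ∂gauss (Fin n) ≤ 2 / √n := by
    intro l
    have hz2 : ∑ i, z l i ^ 2 ≤ 4 * n := by
      have h := pow_le_pow_left₀ (vlen_nonneg _) (hz l) 2
      rw [vlen_sq, smul_dot, dot_smul, ← mul_assoc, ← mul_inv, mul_self_sqrt hn'.le,
        inv_mul_le_iff₀ hn'] at h
      simp only [dot, ← sq] at h
      linarith
    have e : ∀ g : Fin n → ℝ, wavg v (fun i => g i * z l i) = (∑ i, v i * z l i * g i) / n :=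
      fun g => by
        simp only [wavg, Fintype.card_fin]
        congr 1
        exact sum_congr rfl fun i _ => by ring
    simp only [e]
    refine hsn _ zero_le_two (le_trans (sum_le_sum fun i _ => ?_)
      (hz2.trans (by norm_num)))
    rw [mul_pow]; exact mul_le_of_le_one_left (sq_nonneg _) (hv2 i)
  have J3 : Integrable (fun g => |wavg v g|) (gauss (Fin n)) ∧
      ∫ g, |wavg v g| ∂gauss (Fin n) ≤ 1 / √n := by
    simp only [wavg, Fintype.card_fin]
    exact hsn _ zero_le_one ((sum_le_sum fun i _ => hv2 i).trans (by simp))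
  have J4 : Integrable (fun g => |wavg v (fun i => g i * m i)|) (gauss (Fin n)) ∧
      ∫ g, |wavg v (fun i => g i * m i)| ∂gauss (Fin n) ≤ 1 / √n := by
    have e : ∀ g : Fin n → ℝ, wavg v (fun i => g i * m i) = (∑ i, v i * m i * g i) / n :=
      fun g => by
        simp only [wavg, Fintype.card_fin]
        congr 1
        exact sum_congr rfl fun i _ => by ring
    simp only [e]
    refine hsn _ zero_le_one ((sum_le_sum fun i _ => ?_).trans (show ∑ _i : Fin n, (1:ℝ) ≤ _ by simp))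
    rw [mul_pow]
    exact mul_le_one₀ (hv2 i) (sq_nonneg _) (by rw [← sq_abs]; exact pow_le_one₀ (abs_nonneg _) (hm i))
  have J5 : ∀ l, Integrable (fun g => |dot (u l) g| / √n) (gauss (Fin n)) ∧
      ∫ g, |dot (u l) g| / √n ∂gauss (Fin n) ≤ 1 / √n := fun l => by
    obtain ⟨i, b⟩ := lin1 (u l)
    refine ⟨i.div_const _, ?_⟩
    rw [integral_div]
    refine div_le_div_of_nonneg_right (b.trans ?_) (sqrt_nonneg _)
    rw [sqrt_le_one]
    have h := hu l
    simpa only [dot, ← sq] using h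
  have he : ∀ i, MeasurePreserving (fun g : Fin n → ℝ => g i) (gauss (Fin n)) (gaussianReal 0 1) :=
    fun i => measurePreserving_eval (fun _ : Fin n => gaussianReal 0 1) i
  have J6 : Integrable (fun g : Fin n → ℝ => ∑ i, g i ^ 2) (gauss (Fin n)) ∧
      ∫ g : Fin n → ℝ, ∑ i, g i ^ 2 ∂gauss (Fin n) = n := by
    have hi : ∀ i, Integrable (fun g : Fin n → ℝ => g i ^ 2) (gauss (Fin n)) := fun i =>
      (he i).integrable_comp_of_integrable (integrable_pow_gauss 2)
    refine ⟨integrable_finsetSum _ fun i _ => hi i, ?_⟩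
    rw [integral_finsetSum _ fun i _ => hi i]
    simp [gauss_second_moment]
  have hL : 0 < (√η)⁻¹ := inv_pos.2 (sqrt_pos.2 hη)
  have J7 : Integrable (fun g : Fin n → ℝ => ∑ i, above (√η)⁻¹ (g i ^ 2)) (gauss (Fin n)) ∧
      ∫ g : Fin n → ℝ, ∑ i, above (√η)⁻¹ (g i ^ 2) ∂gauss (Fin n) ≤ n * (gmom4 * √η) := by
    have hi : ∀ i, Integrable (fun g : Fin n → ℝ => above (√η)⁻¹ (g i ^ 2)) (gauss (Fin n)) :=
      fun i => (he i).integrable_comp_of_integrable (integrable_above _ hL.le)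
    refine ⟨integrable_finsetSum _ fun i _ => hi i, ?_⟩
    rw [integral_finsetSum _ fun i _ => hi i]
    refine (sum_le_card_nsmul _ _ (gmom4 * √η) fun i _ => ?_).trans (le_of_eq (by simp))
    have h := integral_map (μ := gauss (Fin n)) (φ := fun g => g i) (he i).measurable.aemeasurable
      (f := fun x => above (√η)⁻¹ (x ^ 2)) (by unfold above; fun_prop)
    rw [(he i).map_eq] at h
    rw [← h]
    refine (integral_above_le hL).trans (le_of_eq ?_)
    rw [div_inv_eq_mul]
  have I2 := integrable_finsetSum univ fun l (_ : l ∈ (univ : Finset (Fin k))) => (J2 l).1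
  have I5 := integrable_finsetSum univ fun l (_ : l ∈ (univ : Finset (Fin k))) => (J5 l).1
  have Idev : Integrable (statDev v m z) (gauss (Fin n)) :=
    ((J1.1.fun_add I2).fun_add J3.1).fun_add J4.1
  have It1 := (Idev.const_mul K).fun_add (I5.const_mul 2)
  have It2 := It1.fun_add ((J6.1.const_mul (16 * η)).div_const (n:ℝ))
  refine ⟨It2.fun_add ((J7.1.const_mul (8 * G)).div_const _), ?_⟩
  simp only [freshBd]
  rw [integral_add It2 ((J7.1.const_mul (8 * G)).div_const _),
    integral_add It1 ((J6.1.const_mul (16 * η)).div_const (n:ℝ)),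
    integral_add (Idev.const_mul K) (I5.const_mul 2), integral_const_mul, integral_const_mul,
    integral_div, integral_div, integral_const_mul, integral_const_mul, J6.2,
    integral_finsetSum _ fun l _ => (J5 l).1]
  simp only [statDev]
  rw [integral_add ((J1.1.fun_add I2).fun_add J3.1) J4.1, integral_add (J1.1.fun_add I2) J3.1,
    integral_add J1.1 I2, integral_finsetSum _ fun l _ => (J2 l).1]
  have s2 := sum_le_card_nsmul (univ : Finset (Fin k)) _ _ fun l _ => (J2 l).2
  have s5 := sum_le_card_nsmul (univ : Finset (Fin k)) _ _ fun l _ => (J5 l).2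
  simp only [card_univ, Fintype.card_fin, nsmul_eq_mul] at s2 s5
  have t7 : 8 * G * (∫ g : Fin n → ℝ, ∑ i, above (√η)⁻¹ (g i ^ 2) ∂gauss (Fin n)) / n
      ≤ 8 * G * (gmom4 * √η) := by
    rw [div_le_iff₀ hn', mul_assoc (8 * G)]
    exact mul_le_mul_of_nonneg_left (J7.2.trans (le_of_eq (mul_comm _ _))) (by positivity)
  have t6 : 16 * η * (n:ℝ) / n = 16 * η := by field_simp
  have t1 := mul_le_mul_of_nonneg_left (show _ ≤ √gvar2 / √n + k * (2 / √n) + 1 / √n + 1 / √n from
    add_le_add (add_le_add (add_le_add J1.2 s2) J3.2) J4.2) hK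
  have e : (K * (√gvar2 + 2 * k + 2) + 2 * k) / √n
      = K * (√gvar2 / √n + k * (2 / √n) + 1 / √n + 1 / √n) + 2 * (k * (1 / √n)) := by ring
  rw [t6, e]
  linarith

/-- The bounds on the revealed vectors used on the exceptional set. -/
structure TopStats (η θ : ℝ) (z : Fin k → Fin n → ℝ) : Prop where
  all : ∀ α : Fin k → ℝ, ∑ l, α l ^ 2 ≤ 1 → (∑ i, (∑ l, α l * z l i) ^ 2) / n ≤ 5
  top : ∀ α : Fin k → ℝ, ∑ l, α l ^ 2 ≤ 1 → ∀ S : Finset (Fin n), (S.card : ℝ) ≤ η * n →
    (∑ i ∈ S, (∑ l, α l * z l i) ^ 2) / n ≤ θ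

/-- The weights of the excess. -/
noncomputable def excess (η G : ℝ) (S : Finset (Fin n)) (i : Fin n) : ℝ :=
  if i ∈ S then 2 * G else 4 * η

lemma boxTop_step {η G ε : ℝ} (hη : 0 ≤ η) (hη1 : η ≤ 1) (hε : 0 ≤ ε) (hεG : ε * (2 + G) ≤ 1 / 2)
    (hG : 0 < G) {m : Fin n → ℝ} (hm : ∀ i, |m i| ≤ 1) (hpos : ∀ i, 0 < 1 - m i ^ 2 + η)
    (S : Finset (Fin n)) (i : Fin n) :
    0 < boxTop η G m S i ∧ ε * boxTop η G m S i < 1 ∧ boxTop η G m S i / (1 - ε * boxTop η G m S i)
      ≤ (1 - m i ^ 2) / (1 - ε) + excess η G S i := by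
  have hm2 : m i ^ 2 ≤ 1 := by rw [← sq_abs]; exact pow_le_one₀ (abs_nonneg _) (hm i)
  have hm0 := sq_nonneg (m i)
  have he1 : ε < 1 := by linarith [mul_nonneg hε hG.le]
  have he : 0 < 1 - ε := by linarith
  set v := 1 - m i ^ 2
  have hv : 0 ≤ v := by simp only [v]; linarith
  have hv1 : v ≤ 1 := by simp only [v]; linarith
  simp only [boxTop, excess]
  split_ifs
  · have h1 : ε * G ≤ 1 / 2 := by linarith [mul_nonneg hε zero_le_two]
    refine ⟨hG, by linarith, ?_⟩
    have h2 : G / (1 - ε * G) ≤ 2 * G := by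
      rw [div_le_iff₀ (by linarith)]
      have := mul_nonneg hG.le (show 0 ≤ 1 - 2 * (ε * G) by linarith)
      linarith
    linarith [div_nonneg hv he.le]
  · have h1 : ε * (v + η) ≤ 1 / 2 := by
      have := mul_le_mul_of_nonneg_left (show v + η ≤ 2 by linarith) hε
      linarith [mul_nonneg hε hG.le]
    have hev : ε * v ≤ ε := mul_le_of_le_one_right hε hv1
    have heh : ε * v ≤ ε * (v + η) := mul_le_mul_of_nonneg_left (by linarith) hε
    refine ⟨hpos i, by linarith, ?_⟩
    have hd2 : 0 < 1 - ε * v := by linarith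
    have h2 : v / (1 - ε * v) ≤ v / (1 - ε) := div_le_div_of_nonneg_left hv he (by linarith)
    have hp : 1 / 4 ≤ (1 - ε * (v + η)) * (1 - ε * v) := by
      have := mul_le_mul (show 1 / 2 ≤ 1 - ε * (v + η) by linarith)
        (show 1 / 2 ≤ 1 - ε * v by linarith) (by norm_num) (by linarith)
      linarith
    have h3 : (v + η) / (1 - ε * (v + η)) - v / (1 - ε * v) ≤ 4 * η := by
      rw [div_sub_div _ _ (by linarith) hd2.ne', div_le_iff₀ (by linarith)]
      have := mul_le_mul_of_nonneg_left hp (show 0 ≤ 4 * η by linarith)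
      linarith
    linarith

/-- The excess against a squared site field. -/
lemma excess_field_le {η θ G τ s c ν M : ℝ} {α : Fin k → ℝ} {m g : Fin n → ℝ}
    {z : Fin k → Fin n → ℝ} {S : Finset (Fin n)} (hn : 0 < n) (hη : 0 < η) (hG : 0 ≤ G)
    (hτ : 0 ≤ τ) (hτ1 : τ ≤ 1) (hs : |s| ≤ 1) (hc : |c| ≤ 1) (hν : |ν| ≤ M)
    (hα : ∑ l, α l ^ 2 ≤ 1) (hm : ∀ i, |m i| ≤ 1) (T : TopStats η θ z)
    (hS : (S.card : ℝ) ≤ η * n) :
    wavg (excess η G S) (fun i => siteField τ s α c ν m g z i ^ 2)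
      ≤ 16 * η * (∑ i, g i ^ 2) / n + 16 * η * (6 + M ^ 2)
        + 8 * G * (√η + θ + η * (1 + M ^ 2)) + 8 * G * (∑ i, above (√η)⁻¹ (g i ^ 2)) / n := by
  have hn' : (0:ℝ) < n := by exact_mod_cast hn
  set P := fun i => ∑ l, α l * z l i
  have hM : 0 ≤ M := (abs_nonneg _).trans hν
  have hf : ∀ i, siteField τ s α c ν m g z i ^ 2 ≤ 4 * (g i ^ 2 + P i ^ 2 + (1 + M ^ 2)) := by
    intro i
    have hs1 : √τ ≤ 1 := sqrt_le_one.2 hτ1
    have h4 : ∀ a b c d : ℝ, (a + b + c + d) ^ 2 ≤ 4 * (a ^ 2 + b ^ 2 + c ^ 2 + d ^ 2) := fun a b c d => by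
      linarith [sq_nonneg (a - b), sq_nonneg (a - c), sq_nonneg (a - d), sq_nonneg (b - c),
        sq_nonneg (b - d), sq_nonneg (c - d)]
    refine (h4 _ _ _ _).trans ?_
    have a1 : (√τ * s * g i) ^ 2 ≤ g i ^ 2 := by
      rw [mul_pow, mul_pow, sq_sqrt hτ]
      refine mul_le_of_le_one_left (sq_nonneg _) (mul_le_one₀ hτ1 (sq_nonneg _) ?_)
      rw [← sq_abs]; exact pow_le_one₀ (abs_nonneg _) hs
    have a2 : (√τ * P i) ^ 2 ≤ P i ^ 2 := by
      rw [mul_pow, sq_sqrt hτ]; exact mul_le_of_le_one_left (sq_nonneg _) hτ1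
    have a3 : (τ * c) ^ 2 ≤ 1 := by
      rw [mul_pow]
      exact mul_le_one₀ (pow_le_one₀ hτ hτ1) (sq_nonneg _)
        (by rw [← sq_abs]; exact pow_le_one₀ (abs_nonneg _) hc)
    have a4 : (ν * m i) ^ 2 ≤ M ^ 2 := by
      rw [mul_pow, ← sq_abs ν]
      exact (mul_le_of_le_one_right (sq_nonneg _)
        (by rw [← sq_abs]; exact pow_le_one₀ (abs_nonneg _) (hm i))).trans
          (pow_le_pow_left₀ (abs_nonneg _) hν 2)
    simp only [P] at *
    linarith
  have hχ : ∀ i, excess η G S i * siteField τ s α c ν m g z i ^ 2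
      ≤ 4 * η * (4 * (g i ^ 2 + P i ^ 2 + (1 + M ^ 2)))
        + if i ∈ S then 2 * G * (4 * (g i ^ 2 + P i ^ 2 + (1 + M ^ 2))) else 0 := by
    intro i
    have h0 := sq_nonneg (siteField τ s α c ν m g z i)
    have h1 : 0 ≤ 4 * η * (4 * (g i ^ 2 + P i ^ 2 + (1 + M ^ 2))) := by positivity
    simp only [excess]
    split_ifs
    · have := mul_le_mul_of_nonneg_left (hf i) (show 0 ≤ 2 * G by linarith)
      linarith
    · rw [add_zero]; exact mul_le_mul_of_nonneg_left (hf i) (by linarith)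
  have hsum := sum_le_sum (s := univ) fun i _ => hχ i
  simp only [sum_add_distrib, sum_ite_mem, univ_inter, ← mul_sum, sum_const, card_univ,
    Fintype.card_fin, nsmul_eq_mul] at hsum
  have g1 : ∑ i ∈ S, g i ^ 2 ≤ √η * n + ∑ i, above (√η)⁻¹ (g i ^ 2) := by
    have e1 : ∀ i ∈ S, g i ^ 2 ≤ (√η)⁻¹ + above (√η)⁻¹ (g i ^ 2) := fun i _ => by
      have := le_max_left (g i ^ 2 - (√η)⁻¹) 0
      simp only [above]; linarith
    refine (sum_le_sum e1).trans ?_
    rw [sum_add_distrib, sum_const, nsmul_eq_mul]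
    refine add_le_add ?_ (sum_le_univ_sum_of_nonneg fun i => le_max_right _ _)
    refine (mul_le_mul_of_nonneg_right hS (inv_nonneg.2 (sqrt_nonneg _))).trans (le_of_eq ?_)
    rw [mul_comm η, mul_assoc, ← div_eq_mul_inv, div_sqrt, mul_comm]
  have p1 := (div_le_iff₀ hn').1 (T.all α hα)
  have p2 := (div_le_iff₀ hn').1 (T.top α hα S hS)
  have cS : (S.card : ℝ) * (1 + M ^ 2) ≤ η * n * (1 + M ^ 2) :=
    mul_le_mul_of_nonneg_right hS (by positivity)
  rw [wavg, Fintype.card_fin, div_le_iff₀ hn']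
  refine hsum.trans ?_
  have := mul_le_mul_of_nonneg_left p1 (show 0 ≤ 16 * η by linarith)
  have := mul_le_mul_of_nonneg_left (add_le_add g1 (add_le_add p2 cS))
    (show 0 ≤ 8 * G by linarith)
  simp only [add_mul, div_mul_cancel₀ _ hn'.ne', P] at *
  linarith

/-- The comparison process of the edge at `m`. -/
noncomputable def edgeF (τ η G e : ℝ) (m : Fin n → ℝ) (u z : Fin k → Fin n → ℝ) (a : Fin n → ℝ)
    (S : Finset (Fin n)) : ℝ :=
  τ * ((∑ i, a i) / √n) ^ 2 + 2 * √τ * ∑ l, fcoef u a l * dot a ((√n)⁻¹ • z l)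
    + 4 * (k:ℝ) ^ 2 * e - τ * (wavg (fun i => 1 - m i ^ 2) fun _ => 1)
    + 2 * τ * (dot a m / √n) ^ 2 - ∑ i, a i ^ 2 / boxTop η G m S i

/-- The linear part of the comparison process, against the site field. -/
lemma compare_eq {τ c ν : ℝ} (hn : 0 < n) (hτ : 0 ≤ τ) {u z : Fin k → Fin n → ℝ}
    (m : Fin n → ℝ) (a g : Fin n → ℝ) (hc : c = (∑ i, a i) / √n) :
    2 * √(τ / n) * √(dot (foff u a) (foff u a)) * dot (foff u a) g
      + 2 * √τ * (∑ l, fcoef u a l * dot a ((√n)⁻¹ • z l))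
    = 2 * dot a (fun i => siteField τ (√(dot (foff u a) (foff u a))) (fcoef u a) c ν m g z i
          / √(Fintype.card (Fin n)))
        - 2 * τ * c ^ 2 - 2 * ν * (dot a m / √n)
        - 2 * √τ * √(dot (foff u a) (foff u a)) * (∑ l, fcoef u a l * (dot (u l) g / √n)) := by
  set s := √(dot (foff u a) (foff u a))
  set α := fcoef u a
  have hn' : (0:ℝ) < n := by exact_mod_cast hn
  have e1 : dot (foff u a) g = dot a g - ∑ l, α l * dot (u l) g := by
    rw [foff, sub_dot, sum_dot]; simp only [smul_dot, α]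
  have e2 : dot a (fun i => siteField τ s α c ν m g z i / √(Fintype.card (Fin n)))
      = (√τ * s * dot a g + √τ * (∑ l, α l * dot a (z l)) + τ * c * (∑ i, a i) + ν * dot a m)
        / √n := by
    simp only [dot, siteField, Fintype.card_fin, mul_add, add_div, mul_sum, sum_add_distrib,
      sum_div]
    congr 1
    · congr 1
      · congr 1
        · exact sum_congr rfl fun i _ => by ring
        · rw [sum_comm]; exact sum_congr rfl fun l _ => sum_congr rfl fun i _ => by ring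
      · exact sum_congr rfl fun i _ => by ring
    · exact sum_congr rfl fun i _ => by ring
  have e3 : ∑ l, α l * dot a ((√n)⁻¹ • z l) = (∑ l, α l * dot a (z l)) / √n := by
    simp only [dot_smul, sum_div]
    exact sum_congr rfl fun l _ => by ring
  rw [e1, e2, e3, sqrt_div hτ, hc]
  simp only [sum_div, mul_sum, mul_sub]
  simp only [← sum_div, ← mul_sum, mul_div_assoc']
  field_simp
  ring

lemma rem_fresh_le {τ s : ℝ} (hτ1 : τ ≤ 1) (hs0 : 0 ≤ s) (hs : s ≤ 1) {α : Fin k → ℝ}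
    (hα : ∀ l, |α l| ≤ 1) {u : Fin k → Fin n → ℝ} (g : Fin n → ℝ) :
    -(2 * √τ * s * ∑ l, α l * (dot (u l) g / √n)) ≤ 2 * ∑ l, |dot (u l) g| / √n := by
  refine (neg_le_abs _).trans ?_
  rw [abs_mul, abs_of_nonneg (show 0 ≤ 2 * √τ * s by positivity)]
  refine mul_le_mul ?_ ((abs_sum_le_sum_abs _ _).trans (sum_le_sum fun l _ => ?_)) (abs_nonneg _)
    zero_le_two
  · have := mul_le_one₀ (sqrt_le_one.2 hτ1) hs0 hs
    linarith
  · rw [abs_mul, abs_div, abs_of_nonneg (sqrt_nonneg (n:ℝ))]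
    exact mul_le_of_le_one_left (by positivity) (hα l)

lemma unit_sum_sq {a : Fin n → ℝ} (ha : dot a a = 1) : ∑ i, a i ^ 2 = 1 := by
  rw [← ha]; simp only [dot, sq]

lemma abs_avg_dot_le (hn : 0 < n) {a m : Fin n → ℝ} (ha : dot a a = 1) (hm : ∀ i, |m i| ≤ 1) :
    |dot a m / √n| ≤ 1 := by
  rw [abs_div, abs_of_nonneg (sqrt_nonneg _), div_le_one (sqrt_pos.2 (Nat.cast_pos.2 hn))]
  refine (abs_dot_le a m).trans ?_
  have h := vlen_le_of_abs_le (x := m) (y := fun _ => (1:ℝ)) fun i => by simpa using hm i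
  rw [vlen_const, abs_one, one_mul, Fintype.card_fin] at h
  rwa [vlen, ha, sqrt_one, one_mul]

lemma div_form (a w : Fin n → ℝ) (B : ℝ) :
    ∑ i, (1 / w i + B) * a i ^ 2 = (∑ i, a i ^ 2 / w i) + B * ∑ i, a i ^ 2 := by
  rw [mul_sum, ← sum_add_distrib]
  exact sum_congr rfl fun i _ => by ring

variable {u : Fin k → Fin n → ℝ} (hu : OrthoFam u) (hunit : ∀ l, dot (u l) (u l) = 1)
include hu hunit

/-- The edge at a node, point by point. -/
theorem point_edge {τ η G θ η₀ e ε D₀ : ℝ} (hn : 0 < n) (hτ : 0 < τ) (hτ1 : τ < 1)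
    (hη : 0 < η) (hη1 : η ≤ 1) (hG : 0 < G) (hη₀ : 0 ≤ η₀) (hε : 0 < ε)
    (hε1 : 20 * ε ≤ (1 - τ) ^ 2 * D₀) (hεG : ε * (2 + G) ≤ 1 / 2) (hD₀ : 0 < D₀)
    {m : Fin n → ℝ} (hm : ∀ i, |m i| ≤ 1) {z : Fin k → Fin n → ℝ} {ρ : Fin k → ℝ}
    (hD : D₀ ≤ wavg (fun i => 1 - m i ^ 2) (fun i => m i ^ 2))
    (hm1 : |wavg (fun i => 1 - m i ^ 2) m - wavg (fun i => 1 - m i ^ 2) fun i => m i ^ 2| ≤ η₀)
    (hZZ : ∀ l p, |wavg (fun i => 1 - m i ^ 2) (fun i => z l i * z p i)
      - ((if l = p then wavg (fun i => 1 - m i ^ 2) (fun i => 1 - m i ^ 2)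
            + wavg (fun i => 1 - m i ^ 2) (fun i => m i ^ 2) else 0)
        + ρ l * ρ p * (-2 * (wavg (fun i => 1 - m i ^ 2) (fun i => 1 - m i ^ 2)
            - 2 * wavg (fun i => 1 - m i ^ 2) fun i => m i ^ 2)))| ≤ η₀)
    (hZ1 : ∀ l, |wavg (fun i => 1 - m i ^ 2) (z l)
      - ρ l * (-2 * wavg (fun i => 1 - m i ^ 2) fun i => m i ^ 2)| ≤ η₀)
    (hZm : ∀ l, |wavg (fun i => 1 - m i ^ 2) (fun i => z l i * m i)
      - ρ l * (wavg (fun i => 1 - m i ^ 2) (fun i => 1 - m i ^ 2)
        - 2 * wavg (fun i => 1 - m i ^ 2) fun i => m i ^ 2)| ≤ η₀)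
    (T : TopStats η θ z)
    (hR : ∀ a, dot a a = 1 → ∃ R, |R| ≤ 2 ∧ |dot a m / √n - R| ≤ η₀
      ∧ ∑ l, fcoef u a l * ρ l = √τ * R)
    {a : Fin n → ℝ} (ha : dot a a = 1) {S : Finset (Fin n)} (hS : (S.card : ℝ) ≤ η * n)
    (g : Fin n → ℝ) :
    2 * √(τ / n) * √(dot (foff u a) (foff u a)) * dot (foff u a) g + edgeF τ η G e m u z a S
      ≤ (-(ε * (1 - τ) / 2) + 1000 * (k + 3) ^ 2 / D₀ ^ 2 * η₀ + 4 * (k:ℝ) ^ 2 * e
          + 16 * η * (6 + (8 / D₀) ^ 2) + 8 * G * (√η + θ + η * (1 + (8 / D₀) ^ 2)))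
        + freshBd (1000 * (k + 3) ^ 2 / D₀ ^ 2) η G (fun i => 1 - m i ^ 2) m u z g := by
  have : Nonempty (Fin n) := ⟨⟨0, hn⟩⟩
  have hn' : (0:ℝ) < n := by exact_mod_cast hn
  set v := fun i => 1 - m i ^ 2
  set A := wavg v v
  set D := wavg v (fun i => m i ^ 2)
  set α := fcoef u a
  set s := √(dot (foff u a) (foff u a))
  set c := (∑ i, a i) / √n with hcdef
  set r := dot a m / √n
  obtain ⟨R, hR2, hrR, hρ⟩ := hR a ha
  set K := 1000 * ((k:ℝ) + 3) ^ 2 / D₀ ^ 2
  set ν := ((1 - τ * A + 2 * τ * D) * R - τ * D * c) / D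
  have hm2 : ∀ i, m i ^ 2 ≤ 1 := fun i => by
    rw [← sq_abs]; exact pow_le_one₀ (abs_nonneg _) (hm i)
  have hv01 : ∀ i, 0 ≤ v i ∧ v i ≤ 1 := fun i =>
    ⟨sub_nonneg.2 (hm2 i), sub_le_self _ (sq_nonneg _)⟩
  have hAD : wavg v (fun _ => (1:ℝ)) = A + D := by
    simp only [A, D, wavg, ← add_div, ← sum_add_distrib]
    congr 1
    exact sum_congr rfl fun i _ => by simp only [v]; ring
  have hA0 : 0 ≤ A := div_nonneg (sum_nonneg fun i _ => mul_self_nonneg _) (Nat.cast_nonneg _)
  have hAD1 : A + D ≤ 1 := by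
    rw [← hAD, wavg, div_le_one (by simpa using hn')]
    refine (sum_le_sum fun i _ => ?_).trans (le_of_eq (by simp : ∑ _i : Fin n, (1:ℝ) = _))
    simpa using (hv01 i).2
  have hdev : 0 ≤ statDev v m z g := by unfold statDev; positivity
  set η' := η₀ + statDev v m z g
  have hstat : SiteStats v m g z ρ A D η' := by
    have h1 : 0 ≤ ∑ l, |wavg v (fun i => g i * z l i)| := sum_nonneg fun _ _ => abs_nonneg _
    have b1 := abs_nonneg (wavg v fun i => g i ^ 2 - 1)
    have b3 := abs_nonneg (wavg v g)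
    have b4 := abs_nonneg (wavg v fun i => g i * m i)
    refine ⟨fun i => rfl, rfl, rfl, ?_, fun l => ?_, ?_, ?_, hm1.trans (by linarith),
      fun l p => (hZZ l p).trans (by linarith), fun l => (hZ1 l).trans (by linarith),
      fun l => (hZm l).trans (by linarith)⟩
    · have e0 : wavg v (fun i => g i ^ 2) - (A + D) = wavg v fun i => g i ^ 2 - 1 := by
        rw [← hAD]
        simp only [wavg, mul_sub, mul_one, sum_sub_distrib, sub_div]
      rw [e0]; simp only [η', statDev]; linarith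
    · have := single_le_sum (f := fun l => |wavg v fun i => g i * z l i|)
        (fun _ _ => abs_nonneg _) (mem_univ l)
      simp only [η', statDev] at *; linarith
    · simp only [η', statDev]; linarith
    · simp only [η', statDev]; linarith
  have hα : ∀ l, |α l| ≤ 1 := fcoef_abs_le hu hunit ha
  have hsq : s ^ 2 + ∑ l, α l ^ 2 = 1 := by
    rw [sq_sqrt (dot_self_nonneg _), foff_sq hu hunit a, ha]
  have hs1 : |s| ≤ 1 := by
    have := sum_nonneg (s := univ) fun l _ => sq_nonneg (α l)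
    exact abs_le_one_iff_mul_self_le_one.2 (by linarith [sq s])
  have hc : |c| ≤ 1 := by
    have h := abs_avg_dot_le hn ha (m := fun _ => (1:ℝ)) fun i => by simp
    simpa [c, dot] using h
  have hr1 : |r| ≤ 1 := abs_avg_dot_le hn ha hm
  have hD0 : 0 < D := hD₀.trans_le hD
  have hsec := secular_edge hstat (ε := ε) (s := s) (c := c) (r := r) (R := R) (α := α)
    (w := boxTop η G m S) (χ := excess η G S) hτ hτ1 hA0 hD0 hAD1 (add_nonneg hη₀ hdev) hε
    (hε1.trans (mul_le_mul_of_nonneg_left hD (sq_nonneg _))) hsq (hc.trans one_le_two) hR2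
    (hrR.trans (by linarith)) (hr1.trans one_le_two) hρ
    (boxTop_step hη.le hη1 hε.le hεG hG hm (fun i => by linarith [(hv01 i).1]) S) a (unit_sum_sq ha)
  have hν : |ν| ≤ 8 / D₀ := by
    have hτD : τ * D ≤ 1 := mul_le_one₀ hτ1.le hD0.le (by linarith)
    have hτA : τ * A ≤ 1 := mul_le_one₀ hτ1.le hA0 (by linarith)
    have hτD0 := mul_nonneg hτ.le hD0.le
    have hτA0 := mul_nonneg hτ.le hA0
    simp only [ν]
    rw [abs_div, abs_of_pos hD0]
    refine div_le_div₀ (by norm_num) ?_ hD₀ hD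
    refine (abs_sub _ _).trans ?_
    rw [abs_mul, abs_mul, abs_of_nonneg (show 0 ≤ 1 - τ * A + 2 * τ * D by linarith),
      abs_of_nonneg hτD0]
    have := mul_le_mul (show 1 - τ * A + 2 * τ * D ≤ 3 by linarith) hR2 (abs_nonneg R)
      (by norm_num)
    have := mul_le_mul hτD hc (abs_nonneg c) zero_le_one
    linarith
  have hX := excess_field_le (g := g) (ν := ν) (S := S) (c := c) (s := s) (α := α) hn hη hG.le
    hτ.le hτ1.le hs1 hc hν (by linarith [sq_nonneg s]) hm T hS
  rw [div_form, unit_sum_sq ha, mul_one] at hsec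
  have hK' : 1000 * ((k:ℝ) + 3) ^ 2 / D ^ 2 * η' ≤ K * η₀ + K * statDev v m z g := by
    rw [← mul_add]
    refine mul_le_mul_of_nonneg_right ?_ (add_nonneg hη₀ hdev)
    exact div_le_div_of_nonneg_left (by positivity) (by positivity) (pow_le_pow_left₀ hD₀.le hD 2)
  have hcmp := compare_eq hn hτ.le (u := u) (z := z) (ν := ν) m a g hcdef
  have hrem := rem_fresh_le (u := u) (g := g) hτ1.le (sqrt_nonneg _) ((le_abs_self _).trans hs1) hα
  simp only [edgeF, freshBd]
  rw [show wavg (fun i => 1 - m i ^ 2) (fun _ => (1:ℝ)) = A + D from hAD]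
  linarith

/-- The edge at the zero node, point by point. -/
theorem point_edge_zero {τ η G θ η₀ e ε : ℝ} (hn : 0 < n) (hτ : 0 < τ) (hτ1 : τ < 1)
    (hη : 0 < η) (hη1 : η ≤ 1) (hG : 0 < G) (hη₀ : 0 ≤ η₀) (hε : 0 < ε)
    (hε1 : 20 * ε ≤ 1 - τ) (hεG : ε * (2 + G) ≤ 1 / 2) {z : Fin k → Fin n → ℝ}
    (hZZ : ∀ l p, |wavg (fun _ : Fin n => (1:ℝ)) (fun i => z l i * z p i)
      - (if l = p then (1:ℝ) else 0)| ≤ η₀)
    (hZ1 : ∀ l, |wavg (fun _ : Fin n => (1:ℝ)) (z l)| ≤ η₀)
    (T : TopStats η θ z) {a : Fin n → ℝ} (ha : dot a a = 1) {S : Finset (Fin n)}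
    (hS : (S.card : ℝ) ≤ η * n) (g : Fin n → ℝ) :
    2 * √(τ / n) * √(dot (foff u a) (foff u a)) * dot (foff u a) g
        + edgeF τ η G e (fun _ => 0) u z a S
      ≤ (-(ε * (1 - τ) / 2) + 6 * (k + 3) ^ 2 * η₀ + 4 * (k:ℝ) ^ 2 * e
          + 16 * η * 6 + 8 * G * (√η + θ + η))
        + freshBd (6 * (k + 3) ^ 2) η G (fun _ => 1) (fun _ => 0) u z g := by
  have : Nonempty (Fin n) := ⟨⟨0, hn⟩⟩
  have hn' : (0:ℝ) < n := by exact_mod_cast hn
  set v := fun _ : Fin n => (1:ℝ)
  set m := fun _ : Fin n => (0:ℝ)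
  have w0 : wavg v (fun _ => (0:ℝ)) = 0 := by simp [wavg]
  have w1 : wavg v (fun _ => (1:ℝ)) = 1 := by simp [wavg, v, hn'.ne']
  have hdev : 0 ≤ statDev v m z g := by unfold statDev; positivity
  set η' := η₀ + statDev v m z g
  set α := fcoef u a
  set s := √(dot (foff u a) (foff u a))
  set c := (∑ i, a i) / √n with hcdef
  have hα : ∀ l, |α l| ≤ 1 := fcoef_abs_le hu hunit ha
  have hstat : SiteStats v m g z (fun _ => 0) 1 0 η' := by
    have b0 : 0 ≤ η' := add_nonneg hη₀ hdev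
    have h1 : 0 ≤ ∑ l, |wavg v (fun i => g i * z l i)| := sum_nonneg fun _ _ => abs_nonneg _
    have b1 := abs_nonneg (wavg v fun i => g i ^ 2 - 1)
    have b3 := abs_nonneg (wavg v g)
    have b4 := abs_nonneg (wavg v fun i => g i * m i)
    refine ⟨fun i => by simp [v, m], w1, by simp [m, w0], ?_, fun l => ?_, ?_, ?_,
      by simp [m, w0]; exact b0, fun l p => ?_, fun l => ?_, fun l => ?_⟩
    · have e0 : wavg v (fun i => g i ^ 2) - (1 + 0) = wavg v fun i => g i ^ 2 - 1 := by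
        have h := w1
        simp only [wavg] at h ⊢
        simp only [mul_sub, sum_sub_distrib, sub_div, h, add_zero]
      rw [e0]; simp only [η', statDev]; linarith
    · have := single_le_sum (f := fun l => |wavg v fun i => g i * z l i|)
        (fun _ _ => abs_nonneg _) (mem_univ l)
      simp only [η', statDev] at *; linarith
    · simp only [η', statDev]; linarith
    · simp only [η', statDev]; linarith
    · simpa using (hZZ l p).trans (show η₀ ≤ η' by linarith)
    · simpa using (hZ1 l).trans (show η₀ ≤ η' by linarith)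
    · simp [m, w0]; exact b0
  have hsq : s ^ 2 + ∑ l, α l ^ 2 = 1 := by
    rw [sq_sqrt (dot_self_nonneg _), foff_sq hu hunit a, ha]
  have hs1 : |s| ≤ 1 := by
    have := sum_nonneg (s := univ) fun l _ => sq_nonneg (α l)
    exact abs_le_one_iff_mul_self_le_one.2 (by linarith [sq s])
  have hc : |c| ≤ 1 := by
    have h := abs_avg_dot_le hn ha (m := fun _ => (1:ℝ)) fun i => by simp
    simpa [c, dot] using h
  have hbox : ∀ i, 0 < boxTop η G m S i ∧ ε * boxTop η G m S i < 1 ∧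
      boxTop η G m S i / (1 - ε * boxTop η G m S i) ≤ 1 / (1 - ε) + excess η G S i := fun i => by
    have h := boxTop_step (m := m) hη.le hη1 hε.le hεG hG (fun i => by simp [m])
      (fun i => by simp [m]; linarith) S i
    simpa [m] using h
  have hsec := secular_edge_zero hstat (ε := ε) (s := s) (c := c) (α := α) (a := a)
    (w := boxTop η G m S) (χ := excess η G S) hτ hτ1 (add_nonneg hη₀ hdev) hε hε1 hsq hc hbox
    (unit_sum_sq ha)
  have hX := excess_field_le (g := g) (ν := 0) (M := 0) (m := m) (S := S) (c := c) (s := s) (α := α)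
    hn hη hG.le hτ.le hτ1.le hs1 hc (by simp) (by linarith [sq_nonneg s]) (fun i => by simp [m])
    T hS
  rw [div_form, unit_sum_sq ha, mul_one] at hsec
  have hcmp := compare_eq hn hτ.le (u := u) (z := z) (ν := 0) m a g hcdef
  have hrem := rem_fresh_le (u := u) (g := g) hτ1.le (sqrt_nonneg _) ((le_abs_self _).trans hs1) hα
  have hd0 : dot a m = 0 := by simp [dot, m]
  simp only [edgeF, freshBd, hd0]
  rw [show wavg (fun i => 1 - m i ^ 2) (fun _ => (1:ℝ)) = 1 by simpa [m] using w1]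
  simp only [η', m] at *
  simp only [zero_div, ne_eq, OfNat.ofNat_ne_zero, not_false_eq_true, zero_pow, mul_zero,
    zero_mul, sub_zero, add_zero, mul_one] at *
  rw [← hcdef]
  linarith

end Vale.Agent.P150.Beta1
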