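import Mathlib
import Vale.Agent.P150.Beta1.Conc
import Vale.Agent.P150.Beta1.QuadCompare
import Vale.Agent.P150.Beta1.Fields.Adaptive

/-!
# Upper tail of a supremum of Gaussian quadratic forms

A pointwise bound for the comparison process, uniform over the index, gives an exponential tail
for the quadratic process itself.
-/

namespace Vale.Agent.P150.Beta1

open MeasureTheory ProbabilityTheory Finset Real

variable {T : Type*} [TopologicalSpace T] [TopologicalSpace.SeparableSpace T] [Nonempty T]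

/-- If `2√(τ/n) ‖b t‖ ⟨b t, h⟩ + F t ≤ Bd h` for all `t`, then the quadratic process stays below
`E Bd + r` outside an event of probability `exp (-r² n / 8τ)`. -/
theorem quad_sup_tail {n : ℕ} (hn : 0 < n) {τ : ℝ} (hτ : 0 < τ) (b : T → Fin n → ℝ) (F : T → ℝ)
    (hb : Continuous b) (hF : Continuous F) (hb1 : ∀ t, dot (b t) (b t) ≤ 1)
    (Bd : (Fin n → ℝ) → ℝ) (hBm : Continuous Bd) (hBi : Integrable Bd (gauss (Fin n)))
    (hbd : ∀ t h, 2 * √(τ / n) * √(dot (b t) (b t)) * dot (b t) h + F t ≤ Bd h)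
    {M : ℝ} (hM : ∫ h, Bd h ∂gauss (Fin n) ≤ M) {r : ℝ} (hr : 0 ≤ r) :
    gauss (Fin n × Fin n) {g | ∃ t, M + r < √(2 * τ / n) * bil g (b t) (b t) + F t}
      ≤ ENNReal.ofReal (exp (-(r ^ 2 * n / (8 * τ)))) := by
  have hn' : (0:ℝ) < n := by exact_mod_cast hn
  set j₀ : Fin n := ⟨0, hn⟩
  set d : ℕ → T := TopologicalSpace.denseSeq T
  set E : ℕ → Set (Fin n × Fin n → ℝ) := fun m =>
    {g | ∃ j : Fin (m + 1), M + r < √(2 * τ / n) * bil g (b (d j)) (b (d j)) + F (d j)}
  have hsub : {g : Fin n × Fin n → ℝ | ∃ t, M + r < √(2 * τ / n) * bil g (b t) (b t) + F t}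
      ⊆ ⋃ m, E m := by
    rintro g ⟨t, ht⟩
    have hc : Continuous fun t => √(2 * τ / n) * bil g (b t) (b t) + F t :=
      (continuous_const.mul (continuous_dot (continuous_op hb hb) continuous_const)).add hF
    obtain ⟨m, hm⟩ := (TopologicalSpace.denseRange_denseSeq T).exists_mem_open
      (isOpen_lt continuous_const hc) ⟨t, ht⟩
    exact Set.mem_iUnion.2 ⟨m, ⟨m, by omega⟩, hm⟩
  refine (measure_mono hsub).trans ?_
  have hmono : Monotone E := fun m l hml g ⟨j, hj⟩ => ⟨⟨j, by omega⟩, hj⟩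
  rw [hmono.measure_iUnion]
  refine iSup_le fun m => ?_
  have hlin : ∀ (g : Fin n × Fin n → ℝ) (v : Fin n → ℝ),
      lin (fun p : Fin n × Fin n => √(2 * τ / n) * (v p.1 * v p.2)) g
        = √(2 * τ / n) * bil g v v := fun g v => by
    simp only [lin, bil, dot, op, mul_sum]
    exact sum_congr rfl fun p _ => by ring
  have hE : ∫ g, univ.sup' univ_nonempty (fun j : Fin (m + 1) =>
      lin (fun p : Fin n × Fin n => √(2 * τ / n) * (b (d j) p.1 * b (d j) p.2)) g + F (d j))
        ∂gauss (Fin n × Fin n) ≤ M := by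
    refine (quad_comparison hτ.le j₀ (fun j : Fin (m + 1) => b (d j)) (fun j => F (d j))).trans ?_
    have hmap : (gauss (Fin n × Fin n)).map (fun g (i : Fin n) => g (i, j₀)) = gauss (Fin n) :=
      gauss_map_comp (fun i : Fin n => (i, j₀)) fun a a' h => (Prod.ext_iff.1 h).1
    have hcm : Measurable fun (g : Fin n × Fin n → ℝ) (i : Fin n) => g (i, j₀) := by fun_prop
    refine le_trans ?_ hM
    rw [← hmap, integral_map hcm.aemeasurable hBm.aestronglyMeasurable]
    refine integral_mono ?_ ?_ fun g => sup'_le _ _ fun j _ => le_trans (le_of_eq ?_)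
      (hbd (d j) fun i => g (i, j₀))
    · convert integrable_sup_lin (fun (j : Fin (m + 1)) (p : Fin n × Fin n) =>
        if p.2 = j₀ then 2 * √(τ / n) * √(∑ k, b (d j) k ^ 2) * b (d j) p.1 else 0)
        (fun j => F (d j)) using 4 with g j
      simp only [lin]
      rw [Fintype.sum_prod_type]
      refine (sum_congr rfl fun i _ => ?_).symm
      rw [sum_eq_single j₀ (fun l _ hl => by simp [hl]) (by simp)]
      simp
    · exact (integrable_map_measure hBm.aestronglyMeasurable hcm.aemeasurable).1 (hmap ▸ hBi)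
    · simp only [dot, mul_sum, sq]
      congr 1
      exact sum_congr rfl fun i _ => by ring
  have hA : ∀ j : Fin (m + 1), ∑ p : Fin n × Fin n,
      (√(2 * τ / n) * (b (d j) p.1 * b (d j) p.2)) ^ 2 ≤ √(2 * τ / n) ^ 2 := fun j => by
    simp only [mul_pow, ← mul_sum, Fintype.sum_prod_type, ← sum_mul]
    refine mul_le_of_le_one_right (sq_nonneg _) ?_
    have h := hb1 (d j)
    simp only [dot, ← sq] at h
    exact mul_le_one₀ h (sum_nonneg fun i _ => sq_nonneg _) h
  have ht := sup_tail (fun (j : Fin (m + 1)) (p : Fin n × Fin n) =>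
      √(2 * τ / n) * (b (d j) p.1 * b (d j) p.2))
    (fun j => F (d j)) (L := √(2 * τ / n)) (by positivity) hA hr
  rw [sq_sqrt (by positivity), show r ^ 2 / (4 * (2 * τ / n)) = r ^ 2 * n / (8 * τ) by
    field_simp; ring] at ht
  refine (measure_mono (fun g hg => ?_)).trans
    ((ENNReal.le_ofReal_iff_toReal_le (measure_ne_top _ _) (exp_pos _).le).2 ht)
  obtain ⟨j, hj⟩ := hg
  have h2 := le_sup' (fun j : Fin (m + 1) =>
    (∑ p : Fin n × Fin n, √(2 * τ / n) * (b (d j) p.1 * b (d j) p.2) * g p) + F (d j)) (mem_univ j)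
  have h3 := hlin g (b (d j))
  simp only [Set.mem_ofPred_eq, lin] at hE h3 ⊢
  linarith

end Vale.Agent.P150.Beta1
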