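import Mathlib
import Vale.Agent.P150.Beta1.Fields.EdgeBound

/-!
# The averages over sites that the edge and the residual use

Finitely many site averages of functions of quadratic growth are near their means outside an event
of exponentially small probability, uniformly in the time and in the chain.
-/

namespace Vale.Agent.P150.Beta1

open MeasureTheory ProbabilityTheory Finset Real

variable {n k : ℕ}

/-- Exponentially small bounds, up to a constant factor, add up. -/
lemma exp_bd_add {α : Type*} [MeasurableSpace α] {μ : Measure α} {A B : Set α} {a b c d x : ℝ}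
    (ha : 0 ≤ a) (hb : 0 ≤ b) (hx : 0 ≤ x) (hA : μ A ≤ ENNReal.ofReal (a * exp (-(c * x))))
    (hB : μ B ≤ ENNReal.ofReal (b * exp (-(d * x)))) :
    μ (A ∪ B) ≤ ENNReal.ofReal ((a + b) * exp (-(min c d * x))) := by
  refine (measure_union_le A B).trans ((add_le_add hA hB).trans ?_)
  rw [← ENNReal.ofReal_add (by positivity) (by positivity), add_mul]
  refine ENNReal.ofReal_le_ofReal (add_le_add ?_ ?_) <;>
    refine mul_le_mul_of_nonneg_left (exp_le_exp.2 (neg_le_neg ?_)) (by assumption)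
  · exact mul_le_mul_of_nonneg_right (min_le_left _ _) hx
  · exact mul_le_mul_of_nonneg_right (min_le_right _ _) hx

lemma continuous_site (i : Fin n) :
    Continuous fun ω : (Fin n → ℝ) × (Fin k → Fin n → ℝ) => site ω i := by
  refine continuous_pi fun o => ?_
  cases o <;> simp only [site] <;> fun_prop

/-- The average of a function over the sites. -/
noncomputable def savg (ω : (Fin n → ℝ) × (Fin k → Fin n → ℝ)) (f : (Option (Fin k) → ℝ) → ℝ) :
    ℝ :=
  (∑ i, f (site ω i)) / n

/-- A finite family of averages. -/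
theorem savg_event (α : Type*) [Fintype α] (k : ℕ) (C : ℝ) {η : ℝ} (hη : 0 < η) :
    ∃ c > 0, ∀ n, 0 < n → ∀ f : α → (Option (Fin k) → ℝ) → ℝ, (∀ a, Measurable (f a)) →
      (∀ a x, |f a x| ≤ C * (1 + ∑ o, x o ^ 2)) →
      siteLaw n k {ω | ∃ a, η < |savg ω (f a) - ∫ x, f a x ∂gauss (Option (Fin k))|}
        ≤ ENNReal.ofReal ((2 * Fintype.card α) * exp (-(c * n))) := by
  obtain ⟨c, hc, h⟩ := site_lln (Option (Fin k)) C hη
  refine ⟨c, hc, fun n hn f hf hb => ?_⟩
  have hn' : (0:ℝ) < n := by exact_mod_cast hn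
  have e : {ω : (Fin n → ℝ) × (Fin k → Fin n → ℝ) |
      ∃ a, η < |savg ω (f a) - ∫ x, f a x ∂gauss (Option (Fin k))|}
      = ⋃ a ∈ (univ : Finset α), site ⁻¹' {x : Fin n → Option (Fin k) → ℝ |
          η * n < |∑ i, f a (x i) - n * ∫ x, f a x ∂gauss (Option (Fin k))|} := by
    ext ω
    simp only [Set.mem_ofPred_eq, Set.mem_iUnion, Set.mem_preimage, mem_univ, exists_true_left]
    refine exists_congr fun a => ?_
    have : (∑ i, f a (site ω i)) - n * (∫ x, f a x ∂gauss (Option (Fin k)))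
        = n * (savg ω (f a) - ∫ x, f a x ∂gauss (Option (Fin k))) := by
      rw [savg, mul_sub, mul_div_cancel₀ _ hn'.ne']
    rw [this, abs_mul, abs_of_pos hn', mul_comm η, mul_lt_mul_iff_right₀ hn']
  rw [e]
  refine (measure_biUnion_finset_le _ _).trans
    ((sum_le_card_nsmul _ _ (ENNReal.ofReal (2 * exp (-(c * n)))) fun a _ => ?_).trans
      (le_of_eq ?_))
  · rw [(site_law n k).measure_preimage]
    · exact h n (f a) (hf a) (hb a)
    · exact (measurableSet_lt measurable_const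
        (((Finset.measurable_sum _ fun i _ => (hf a).comp (measurable_pi_apply i)).sub
          measurable_const).abs)).nullMeasurableSet
  · rw [card_univ, ← ENNReal.ofReal_nsmul, nsmul_eq_mul]
    congr 1
    ring

/-- `|x| ≤ 1 + Σ x²` and products of two coordinates. -/
lemma coord_growth (x : Option (Fin k) → ℝ) (o o' : Option (Fin k)) :
    |x o| ≤ 1 + ∑ o, x o ^ 2 ∧ |x o * x o'| ≤ 1 + ∑ o, x o ^ 2 := by
  have h := single_le_sum (f := fun o => x o ^ 2) (fun o _ => sq_nonneg _) (mem_univ o)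
  have h' := single_le_sum (f := fun o => x o ^ 2) (fun o _ => sq_nonneg _) (mem_univ o')
  constructor
  · linarith [sq_nonneg (|x o| - 1), sq_abs (x o), abs_nonneg (x o)]
  · rw [abs_mul]
    linarith [sq_nonneg (|x o| - |x o'|), sq_abs (x o), sq_abs (x o')]

lemma growth_mul {a b : ℝ} {S : ℝ} (ha : |a| ≤ S) (hb : |b| ≤ 1) : |a * b| ≤ 1 * S := by
  rw [abs_mul, one_mul]
  exact (mul_le_of_le_one_right (abs_nonneg _) hb).trans ha

variable {τ u δ : ℝ} (C : Chain τ u δ k)

/-- The functions behind `NodeStats`. -/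
noncomputable def nodeObs :
    (Fin k × Fin k) ⊕ (Fin k × Fin k) ⊕ Fin k → (Option (Fin k) → ℝ) → ℝ
  | .inl (j, l) => fun x => mnode C j x * mnode C l x
  | .inr (.inl (p, l)) => fun x => x (some p) * mnode C l x
  | .inr (.inr p) => fun x => x (some p) * x (some p)

/-- `NodeStats` holds with exponentially high probability. -/
theorem nodeStats_event (k : ℕ) {e : ℝ} (he : 0 < e) :
    ∃ A ≥ 0, ∃ c > 0, ∀ {τ u δ : ℝ} (C : Chain τ u δ k) n, 0 ≤ τ → 0 ≤ u → 0 < n →
      siteLaw n k {ω | ¬NodeStats C e ω} ≤ ENNReal.ofReal (A * exp (-(c * n))) := by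
  obtain ⟨c, hc, h⟩ := savg_event ((Fin k × Fin k) ⊕ (Fin k × Fin k) ⊕ Fin k) k 1
    (lt_min he one_pos)
  refine ⟨2 * (Fintype.card ((Fin k × Fin k) ⊕ (Fin k × Fin k) ⊕ Fin k) : ℝ), by positivity, c, hc,
    fun {τ u δ} C n hτ hu hn => ?_⟩
  refine (measure_mono fun ω hω => ?_).trans (h n hn (nodeObs C) (fun a => ?_) fun a x => ?_)
  · contrapose! hω
    simp only [Set.mem_ofPred_eq, not_exists, not_lt] at hω
    simp only [Set.mem_ofPred_eq, not_not]
    have hn' : (0:ℝ) < n := by exact_mod_cast hn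
    have hs := mul_self_sqrt hn'.le
    refine ⟨fun j hj l hl => ?_, fun p l hl => ?_, fun p => ?_⟩
    · have h1 := (hω (.inl (⟨j, hj⟩, ⟨l, hl⟩))).trans (min_le_left _ _)
      simp only [nodeObs, savg, integral_mnode_mul C hτ hu] at h1
      refine le_trans (le_of_eq ?_) h1
      congr 2
      simp only [dot, nvec, sum_div]
      exact sum_congr rfl fun i _ => by rw [div_mul_div_comm, hs]
    · have h1 := (hω (.inr (.inl (p, ⟨l, hl⟩)))).trans (min_le_left _ _)
      simp only [nodeObs, savg, integral_coord_mnode C hτ hu p hl] at h1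
      refine le_trans (le_of_eq ?_) h1
      congr 2
      simp only [dot, nvec, Pi.smul_apply, smul_eq_mul, sum_div]
      refine sum_congr rfl fun i _ => ?_
      rw [inv_mul_eq_div, div_mul_div_comm, hs, mul_comm]
      rfl
    · have h1 := (abs_le.1 ((hω (.inr (.inr p))).trans (min_le_right _ _))).2
      simp only [nodeObs, savg, ← sq, gauss_second_moment] at h1
      rw [vlen, sqrt_le_left zero_le_two, smul_dot, dot_smul, ← mul_assoc, ← mul_inv, hs,
        inv_mul_eq_div]
      simp only [dot, ← sq, site] at h1 ⊢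
      linarith
  · rcases a with ⟨j, l⟩ | ⟨p, l⟩ | p <;> simp only [nodeObs]
    exacts [((continuous_mnode C j).mul (continuous_mnode C l)).measurable,
      ((continuous_apply _).mul (continuous_mnode C l)).measurable, by fun_prop]
  · rcases a with ⟨j, l⟩ | ⟨p, l⟩ | p <;> simp only [nodeObs]
    · exact growth_mul ((abs_mnode_le C j x).trans
        (le_add_of_nonneg_right (sum_nonneg fun o _ => sq_nonneg _))) (abs_mnode_le C l x)
    · exact growth_mul (coord_growth x (some p) (some p)).1 (abs_mnode_le C l x)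
    · rw [one_mul]; exact (coord_growth x (some p) (some p)).2

/-- The site averages at node `j` that the edge uses. -/
structure PivotStats (D₀ η₀ : ℝ) (ρ : Fin k → ℝ) (m : Fin n → ℝ) (z : Fin k → Fin n → ℝ) :
    Prop where
  bound : ∀ i, |m i| ≤ 1
  pos : D₀ ≤ wavg (fun i => 1 - m i ^ 2) (fun i => m i ^ 2)
  m1 : |wavg (fun i => 1 - m i ^ 2) m - wavg (fun i => 1 - m i ^ 2) fun i => m i ^ 2| ≤ η₀
  zz : ∀ l p, |wavg (fun i => 1 - m i ^ 2) (fun i => z l i * z p i)
      - ((if l = p then wavg (fun i => 1 - m i ^ 2) (fun i => 1 - m i ^ 2)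
            + wavg (fun i => 1 - m i ^ 2) (fun i => m i ^ 2) else 0)
        + ρ l * ρ p * (-2 * (wavg (fun i => 1 - m i ^ 2) (fun i => 1 - m i ^ 2)
            - 2 * wavg (fun i => 1 - m i ^ 2) fun i => m i ^ 2)))| ≤ η₀
  z1 : ∀ l, |wavg (fun i => 1 - m i ^ 2) (z l)
      - ρ l * (-2 * wavg (fun i => 1 - m i ^ 2) fun i => m i ^ 2)| ≤ η₀
  zm : ∀ l, |wavg (fun i => 1 - m i ^ 2) (fun i => z l i * m i)
      - ρ l * (wavg (fun i => 1 - m i ^ 2) (fun i => 1 - m i ^ 2)
        - 2 * wavg (fun i => 1 - m i ^ 2) fun i => m i ^ 2)| ≤ η₀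

/-- The functions behind `PivotStats`. -/
noncomputable def pivotObs (j : ℕ) :
    Option Bool ⊕ (Fin k × Fin k) ⊕ Fin k ⊕ Fin k → (Option (Fin k) → ℝ) → ℝ
  | .inl none => fun x => dtanh (sfield (avec C j) x) * dtanh (sfield (avec C j) x)
  | .inl (some true) => fun x => tanh (sfield (avec C j) x) ^ 2 * dtanh (sfield (avec C j) x)
  | .inl (some false) => fun x => tanh (sfield (avec C j) x) * dtanh (sfield (avec C j) x)
  | .inr (.inl (p, q)) => fun x => x (some p) * (x (some q) * dtanh (sfield (avec C j) x))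
  | .inr (.inr (.inl p)) => fun x => x (some p) * dtanh (sfield (avec C j) x)
  | .inr (.inr (.inr p)) =>
      fun x => x (some p) * (tanh (sfield (avec C j) x) * dtanh (sfield (avec C j) x))

/-- From averages near their means to `PivotStats`. -/
lemma pivot_arith {δp a b A D A' D' X η : ℝ} (hab : |a * b| ≤ 1) (hδ : |δp| ≤ 1)
    (hA : |A - A'| ≤ η) (hD : |D - D'| ≤ η)
    (hX : |X - (δp * (A' + D') + a * b * (-2 * (A' - 2 * D')))| ≤ η) :
    |X - (δp * (A + D) + a * b * (-2 * (A - 2 * D)))| ≤ 9 * η := by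
  have h1 : |δp * ((A' - A) + (D' - D))| ≤ 2 * η := by
    rw [abs_mul]
    refine (mul_le_of_le_one_left (abs_nonneg _) hδ).trans ((abs_add_le _ _).trans ?_)
    rw [abs_sub_comm A', abs_sub_comm D']; linarith
  have h2 : |a * b * (-2 * ((A' - A) - 2 * (D' - D)))| ≤ 6 * η := by
    rw [abs_mul]
    refine (mul_le_of_le_one_left (abs_nonneg _) hab).trans ?_
    rw [abs_mul, show |(-2:ℝ)| = 2 by norm_num]
    have := abs_le.1 hA
    have := abs_le.1 hD
    have : |A' - A - 2 * (D' - D)| ≤ 3 * η := by rw [abs_le]; constructor <;> linarith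
    linarith
  rw [abs_le] at h1 h2 hX ⊢
  constructor <;> linarith

lemma abs_avec_le (hτ : 0 ≤ τ) (hτ1 : τ ≤ 1) (l : ℕ) (p : Fin k) : |avec C l (some p)| ≤ 1 := by
  simp only [avec, abs_mul, abs_of_nonneg (sqrt_nonneg τ)]
  exact mul_le_one₀ (sqrt_le_one.2 hτ1) (abs_nonneg _) (abs_c_le C _ p)

/-- The means of `pivotObs`. -/
lemma integral_pivotObs (j : ℕ) (p q : Fin k) :
    ∫ x, pivotObs C j (.inl none) x ∂gauss (Option (Fin k)) = Anode C j ∧
    ∫ x, pivotObs C j (.inl (some true)) x ∂gauss (Option (Fin k)) = Dnode C j ∧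
    ∫ x, pivotObs C j (.inl (some false)) x ∂gauss (Option (Fin k)) = Dnode C j ∧
    ∫ x, pivotObs C j (.inr (.inl (p, q))) x ∂gauss (Option (Fin k))
      = (if p = q then Anode C j + Dnode C j else 0)
        + avec C j (some p) * avec C j (some q) * (-2 * (Anode C j - 2 * Dnode C j)) ∧
    ∫ x, pivotObs C j (.inr (.inr (.inl p))) x ∂gauss (Option (Fin k))
      = avec C j (some p) * (-2 * Dnode C j) ∧
    ∫ x, pivotObs C j (.inr (.inr (.inr p))) x ∂gauss (Option (Fin k))
      = avec C j (some p) * (Anode C j - 2 * Dnode C j) := by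
  obtain ⟨h1, h2, h3, h4⟩ := node_moments C j p q
  exact ⟨by simp [pivotObs, Anode, sq], by simp [pivotObs, Dnode], h1, h4, h2, h3⟩

lemma abs_tanh_dtanh_le (x : ℝ) : |tanh x * dtanh x| ≤ 1 := by
  rw [abs_mul]; exact mul_le_one₀ (abs_tanh_le_one x) (abs_nonneg _) (abs_dtanh_le x)

lemma pivotObs_growth (j : ℕ) (a : Option Bool ⊕ (Fin k × Fin k) ⊕ Fin k ⊕ Fin k)
    (x : Option (Fin k) → ℝ) : |pivotObs C j a x| ≤ 1 * (1 + ∑ o, x o ^ 2) := by
  have h1 : (1:ℝ) ≤ 1 + ∑ o, x o ^ 2 := le_add_of_nonneg_right (sum_nonneg fun o _ => sq_nonneg _)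
  set t := sfield (avec C j) x
  rcases a with (_ | _ | _) | ⟨p, q⟩ | p | p
  · simp only [pivotObs, one_mul]
    refine le_trans ?_ h1
    rw [abs_mul]; exact mul_le_one₀ (abs_dtanh_le _) (abs_nonneg _) (abs_dtanh_le _)
  · simp only [pivotObs, one_mul]
    exact (abs_tanh_dtanh_le _).trans h1
  · simp only [pivotObs, one_mul]
    refine le_trans ?_ h1
    rw [abs_mul]
    refine mul_le_one₀ ?_ (abs_nonneg _) (abs_dtanh_le _)
    rw [abs_pow]; exact pow_le_one₀ (abs_nonneg _) (abs_tanh_le_one _)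
  · simp only [pivotObs, ← mul_assoc]
    exact growth_mul (coord_growth x (some p) (some q)).2 (abs_dtanh_le _)
  · exact growth_mul (coord_growth x (some p) (some p)).1 (abs_dtanh_le _)
  · exact growth_mul (coord_growth x (some p) (some p)).1 (abs_tanh_dtanh_le _)

lemma continuous_pivotObs (j : ℕ) (a : Option Bool ⊕ (Fin k × Fin k) ⊕ Fin k ⊕ Fin k) :
    Continuous (pivotObs C j a) := by
  have hs := continuous_sfield (avec C j)
  have ht := continuous_tanh_real.comp hs
  have hv := continuous_dtanh.comp hs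
  rcases a with (_ | _ | _) | ⟨p, q⟩ | p | p
  exacts [hv.mul hv, ht.mul hv, (ht.pow 2).mul hv, (continuous_apply _).mul ((continuous_apply _).mul hv), (continuous_apply _).mul hv,
    (continuous_apply _).mul (ht.mul hv)]

lemma mnode_eq_tanh {j : ℕ} (h0 : 0 < j) (hj : j < k) (x : Option (Fin k) → ℝ) :
    mnode C j x = tanh (sfield (avec C j) x) := by
  simp [mnode, h0.ne', hj]

/-- `PivotStats` holds with exponentially high probability. -/
theorem pivotStats_event (k : ℕ) {D₀ η₀ : ℝ} (hη₀ : 0 < η₀) (hD₀ : 0 < D₀) :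
    ∃ A ≥ 0, ∃ c > 0, ∀ {τ u δ : ℝ} (C : Chain τ u δ k) n j, 0 ≤ τ → τ ≤ 1 → 0 < n → 0 < j →
      j < k → 2 * D₀ ≤ Dnode C j →
      siteLaw n k {ω | ¬PivotStats D₀ η₀ (fun l => avec C j (some l))
          (fun i => mnode C j (site ω i)) ω.2}
        ≤ ENNReal.ofReal (A * exp (-(c * n))) := by
  set e := min D₀ (η₀ / 10)
  have he : 0 < e := lt_min hD₀ (by positivity)
  obtain ⟨c, hc, h⟩ := savg_event (Option Bool ⊕ (Fin k × Fin k) ⊕ Fin k ⊕ Fin k) k 1 he
  refine ⟨2 * (Fintype.card (Option Bool ⊕ (Fin k × Fin k) ⊕ Fin k ⊕ Fin k) : ℝ), by positivity,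
    c, hc, fun {τ u δ} C n j hτ hτ1 hn hj0 hjk hD => ?_⟩
  refine (measure_mono fun ω hω => ?_).trans
    (h n hn (pivotObs C j) (fun a => (continuous_pivotObs C j a).measurable)
      (pivotObs_growth C j))
  contrapose! hω
  simp only [Set.mem_ofPred_eq, not_exists, not_lt] at hω
  simp only [Set.mem_ofPred_eq, not_not, mnode_eq_tanh C hj0 hjk]
  set t := fun i => sfield (avec C j) (site ω i)
  set A := wavg (fun i => 1 - tanh (t i) ^ 2) (fun i => 1 - tanh (t i) ^ 2)
  set D := wavg (fun i => 1 - tanh (t i) ^ 2) (fun i => tanh (t i) ^ 2)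
  have he1 : e ≤ η₀ / 10 := min_le_right _ _
  have hA : |A - Anode C j| ≤ e := by
    have h1 := hω (.inl none)
    obtain ⟨e0, -⟩ := integral_pivotObs C j ⟨0, C.kpos⟩ ⟨0, C.kpos⟩
    rw [e0] at h1
    refine le_trans (le_of_eq ?_) h1
    congr 2
    simp [A, t, savg, pivotObs, wavg, dtanh]
  have hDd : |D - Dnode C j| ≤ e := by
    have h1 := hω (.inl (some true))
    obtain ⟨-, e0, -⟩ := integral_pivotObs C j ⟨0, C.kpos⟩ ⟨0, C.kpos⟩
    rw [e0] at h1
    refine le_trans (le_of_eq ?_) h1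
    congr 2
    simp [D, t, savg, pivotObs, wavg, dtanh, mul_comm]
  refine ⟨fun i => abs_tanh_le_one _, ?_, ?_, fun l p => ?_, fun l => ?_, fun l => ?_⟩
  · linarith [(abs_le.1 hDd).1, min_le_left D₀ (η₀ / 10)]
  · have h1 := hω (.inl (some false))
    obtain ⟨-, -, e0, -⟩ := integral_pivotObs C j ⟨0, C.kpos⟩ ⟨0, C.kpos⟩
    rw [e0] at h1
    have e1 : wavg (fun i => 1 - tanh (t i) ^ 2) (fun i => tanh (t i))
        = savg ω (pivotObs C j (.inl (some false))) := by
      simp [t, savg, pivotObs, wavg, dtanh, mul_comm]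
    rw [e1]
    have h2 := abs_add_le (savg ω (pivotObs C j (.inl (some false))) - Dnode C j) (Dnode C j - D)
    rw [sub_add_sub_cancel, abs_sub_comm (Dnode C j) D] at h2
    linarith
  · have h1 := hω (.inr (.inl (l, p)))
    obtain ⟨-, -, -, e0, -⟩ := integral_pivotObs C j l p
    rw [e0] at h1
    have e1 : wavg (fun i => 1 - tanh (t i) ^ 2) (fun i => ω.2 l i * ω.2 p i)
        = savg ω (pivotObs C j (.inr (.inl (l, p)))) := by
      simp only [savg, pivotObs, wavg, Fintype.card_fin, t, dtanh, site]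
      congr 1
      exact sum_congr rfl fun i _ => by ring
    rw [e1]
    have e2 : ∀ (A D : ℝ), (if l = p then A + D else 0) = (if l = p then (1:ℝ) else 0) * (A + D) :=
      fun A D => by split_ifs <;> simp
    rw [e2] at h1 ⊢
    refine (pivot_arith ?_ ?_ hA hDd h1).trans (by linarith)
    · rw [abs_mul]
      exact mul_le_one₀ (abs_avec_le C hτ hτ1 j l) (abs_nonneg _) (abs_avec_le C hτ hτ1 j p)
    · split_ifs <;> simp
  · have h1 := hω (.inr (.inr (.inl l)))
    obtain ⟨-, -, -, -, e0, -⟩ := integral_pivotObs C j l l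
    rw [e0] at h1
    have e1 : wavg (fun i => 1 - tanh (t i) ^ 2) (ω.2 l)
        = savg ω (pivotObs C j (.inr (.inr (.inl l)))) := by
      simp only [savg, pivotObs, wavg, Fintype.card_fin, t, dtanh, site]
      congr 1
      exact sum_congr rfl fun i _ => by ring
    rw [e1]
    have h2 : |avec C j (some l) * (-2 * (Dnode C j - D))| ≤ 2 * e := by
      rw [abs_mul, abs_mul, show |(-2:ℝ)| = 2 by norm_num, abs_sub_comm]
      refine (mul_le_of_le_one_left (by positivity) (abs_avec_le C hτ hτ1 j l)).trans ?_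
      linarith
    rw [abs_le] at h1 h2 ⊢
    constructor <;> linarith
  · have h1 := hω (.inr (.inr (.inr l)))
    obtain ⟨-, -, -, -, -, e0⟩ := integral_pivotObs C j l l
    rw [e0] at h1
    have e1 : wavg (fun i => 1 - tanh (t i) ^ 2) (fun i => ω.2 l i * tanh (t i))
        = savg ω (pivotObs C j (.inr (.inr (.inr l)))) := by
      simp only [savg, pivotObs, wavg, Fintype.card_fin, t, dtanh, site]
      congr 1
      exact sum_congr rfl fun i _ => by ring
    rw [e1]
    have h2 : |avec C j (some l) * ((Anode C j - A) - 2 * (Dnode C j - D))| ≤ 3 * e := by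
      rw [abs_mul]
      refine (mul_le_of_le_one_left (abs_nonneg _) (abs_avec_le C hτ hτ1 j l)).trans ?_
      rw [abs_le] at hA hDd ⊢
      constructor <;> linarith
    rw [abs_le] at h1 h2 ⊢
    constructor <;> linarith

/-- The averages of the revealed vectors and of the noise. -/
structure RawStats (η₀ : ℝ) (ω : (Fin n → ℝ) × (Fin k → Fin n → ℝ)) : Prop where
  zz : ∀ l p, |wavg (fun _ : Fin n => (1:ℝ)) (fun i => ω.2 l i * ω.2 p i)
    - (if l = p then (1:ℝ) else 0)| ≤ η₀
  z1 : ∀ l, |wavg (fun _ : Fin n => (1:ℝ)) (ω.2 l)| ≤ η₀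
  noise : (∑ i, ω.1 i ^ 2) / n ≤ 2

lemma gauss_coord_mean {κ : Type*} [Fintype κ] (p : κ) : ∫ g, g p ∂gauss κ = 0 := by
  have h := integral_map (μ := gauss κ) (φ := fun g => g p)
    (measurable_pi_apply p).aemeasurable (f := fun x : ℝ => x) (by fun_prop)
  rw [show (gauss κ).map (fun g => g p) = gaussianReal 0 1 from
    (measurePreserving_eval (fun _ : κ => gaussianReal 0 1) p).map_eq,
    integral_id_gaussianReal] at h
  exact h.symm

lemma gauss_coord_pair {κ : Type*} [Fintype κ] [DecidableEq κ] (p q : κ) :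
    ∫ g, g p * g q ∂gauss κ = if p = q then (1:ℝ) else 0 := by
  rw [gauss_ibp p (F := fun g => g q) (G := fun _ => if p = q then (1:ℝ) else 0) (continuous_apply q)
    continuous_const (fun g => ?_) ⟨1, 1, fun g => ?_⟩ ⟨1, 0, fun g => by split_ifs <;> simp⟩]
  · simp
  · rcases eq_or_ne p q with rfl | hpq
    · simpa using hasDerivAt_id' (g p)
    · simpa [Function.update_of_ne (Ne.symm hpq), hpq] using hasDerivAt_const (g p) (g q)
  · have := single_le_sum (f := fun i => |g i|) (fun i _ => abs_nonneg _) (mem_univ q)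
    rw [pow_one, one_mul]; linarith

/-- `RawStats` holds with exponentially high probability. -/
theorem rawStats_event (k : ℕ) {η₀ : ℝ} (hη₀ : 0 < η₀) :
    ∃ A ≥ 0, ∃ c > 0, ∀ n, 0 < n →
      siteLaw n k {ω | ¬RawStats η₀ ω} ≤ ENNReal.ofReal (A * exp (-(c * n))) := by
  obtain ⟨c, hc, h⟩ := savg_event ((Fin k × Fin k) ⊕ Fin k ⊕ Unit) k 1 (lt_min hη₀ one_pos)
  refine ⟨2 * (Fintype.card ((Fin k × Fin k) ⊕ Fin k ⊕ Unit) : ℝ), by positivity, c, hc,
    fun n hn => ?_⟩
  let f : (Fin k × Fin k) ⊕ Fin k ⊕ Unit → (Option (Fin k) → ℝ) → ℝ := fun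
    | .inl (l, p) => fun x => x (some l) * x (some p)
    | .inr (.inl l) => fun x => x (some l)
    | .inr (.inr _) => fun x => x none * x none
  refine (measure_mono fun ω hω => ?_).trans (h n hn f (fun a => ?_) fun a x => ?_)
  · contrapose! hω
    simp only [Set.mem_ofPred_eq, not_exists, not_lt] at hω
    simp only [Set.mem_ofPred_eq, not_not]
    refine ⟨fun l p => ?_, fun l => ?_, ?_⟩
    · have h1 := (hω (.inl (l, p))).trans (min_le_left _ _)
      simp only [f, gauss_coord_pair, savg, Option.some.injEq, site] at h1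
      simpa [wavg] using h1
    · have h1 := (hω (.inr (.inl l))).trans (min_le_left _ _)
      simp only [f, gauss_coord_mean, savg, site, sub_zero] at h1
      simpa [wavg] using h1
    · have h1 := (abs_le.1 ((hω (.inr (.inr ()))).trans (min_le_right _ _))).2
      simp only [f, ← sq, gauss_second_moment, savg, site] at h1
      linarith
  · rcases a with ⟨l, p⟩ | l | l <;> simp only [f] <;> fun_prop
  · rcases a with ⟨l, p⟩ | l | l <;> simp only [f, one_mul]
    exacts [(coord_growth x _ _).2, (coord_growth x (some l) none).1, (coord_growth x none none).2]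

/-- A finite net of the unit ball. -/
lemma exists_ball_net (k : ℕ) {r : ℝ} (hr : 0 < r) :
    ∃ N : Finset (Fin k → ℝ), (∀ b ∈ N, ∑ l, b l ^ 2 ≤ 1) ∧
      ∀ a : Fin k → ℝ, ∑ l, a l ^ 2 ≤ 1 → ∃ b ∈ N, ∑ l, (a l - b l) ^ 2 ≤ r := by
  set B : Set (Fin k → ℝ) := {a | ∑ l, a l ^ 2 ≤ 1}
  have hB : IsCompact B := by
    refine Metric.isCompact_of_isClosed_isBounded
      (isClosed_le (continuous_finsetSum _ fun l _ => (continuous_apply l).pow 2) continuous_const)
      ((Metric.isBounded_closedBall (x := (0 : Fin k → ℝ)) (r := 1)).subset fun a ha => ?_)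
    rw [Metric.mem_closedBall, dist_pi_le_iff zero_le_one]
    intro l
    rw [Pi.zero_apply, Real.dist_eq, sub_zero, abs_le_one_iff_mul_self_le_one, ← sq]
    exact le_trans (single_le_sum (f := fun l => a l ^ 2) (fun l _ => sq_nonneg _) (mem_univ l)) ha
  obtain ⟨t, htB, htf, hcov⟩ := hB.finite_cover_balls (e := √(r / (k + 1))) (by positivity)
  refine ⟨htf.toFinset, fun b hb => htB (htf.mem_toFinset.1 hb), fun a ha => ?_⟩
  obtain ⟨b, hb, hab⟩ := Set.mem_iUnion₂.1 (hcov ha)
  refine ⟨b, htf.mem_toFinset.2 hb, ?_⟩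
  rw [Metric.mem_ball] at hab
  have hone : ∀ l, (a l - b l) ^ 2 ≤ r / (k + 1) := fun l => by
    have h1 := (dist_le_pi_dist a b l).trans hab.le
    rw [Real.dist_eq] at h1
    rw [← sq_abs, ← sq_sqrt (show (0:ℝ) ≤ r / (k + 1) by positivity)]
    exact pow_le_pow_left₀ (abs_nonneg _) h1 2
  refine (sum_le_card_nsmul _ _ _ fun l _ => hone l).trans ?_
  rw [card_univ, Fintype.card_fin, nsmul_eq_mul, ← mul_div_assoc, div_le_iff₀ (by positivity)]
  linarith

lemma quad_le_of_stats {η₀ : ℝ} (hn : 0 < n) {z : Fin k → Fin n → ℝ} (hk : (k:ℝ) * η₀ ≤ 1)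
    (hη₀ : 0 ≤ η₀) (hzz : ∀ l p, |wavg (fun _ : Fin n => (1:ℝ)) (fun i => z l i * z p i)
      - (if l = p then (1:ℝ) else 0)| ≤ η₀) (a : Fin k → ℝ) :
    (∑ i, (∑ l, a l * z l i) ^ 2) / n ≤ 2 * ∑ l, a l ^ 2 := by
  have e : (∑ i, (∑ l, a l * z l i) ^ 2) / n
      = ∑ l, ∑ p, a l * a p * wavg (fun _ : Fin n => (1:ℝ)) (fun i => z l i * z p i) := by
    simp only [wavg, one_mul, Fintype.card_fin, sum_div, mul_sum]
    simp only [sq, sum_mul_sum, sum_div]
    rw [sum_comm]
    refine sum_congr rfl fun l _ => ?_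
    rw [sum_comm]
    exact sum_congr rfl fun p _ => sum_congr rfl fun i _ => by ring
  have hle : ∀ l p, a l * a p * wavg (fun _ : Fin n => (1:ℝ)) (fun i => z l i * z p i)
      ≤ (if l = p then a l * a p else 0) + η₀ * ((a l ^ 2 + a p ^ 2) / 2) := fun l p => by
    set d := wavg (fun _ : Fin n => (1:ℝ)) (fun i => z l i * z p i) - (if l = p then (1:ℝ) else 0)
    have h1 : a l * a p * d ≤ η₀ * ((a l ^ 2 + a p ^ 2) / 2) := by
      refine (le_abs_self _).trans ?_
      rw [abs_mul, mul_comm η₀]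
      refine mul_le_mul ?_ (hzz l p) (abs_nonneg _) (by positivity)
      rw [abs_mul]
      linarith [sq_nonneg (|a l| - |a p|), sq_abs (a l), sq_abs (a p)]
    have h2 : (if l = p then a l * a p else 0) = a l * a p * (if l = p then (1:ℝ) else 0) := by
      split_ifs <;> simp
    simp only [d] at h1
    linarith
  rw [e]
  refine (sum_le_sum fun l _ => sum_le_sum fun p _ => hle l p).trans ?_
  simp only [sum_add_distrib, sum_ite_eq, mem_univ, if_true, ← sq, ← mul_sum, ← sum_div, sum_const,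
    card_univ, Fintype.card_fin, nsmul_eq_mul]
  have := mul_le_mul_of_nonneg_right hk (sum_nonneg fun l (_ : l ∈ univ) => sq_nonneg (a l))
  linarith

/-- The part above a level of a linear form with coefficients in the unit ball. -/
lemma above_lin_le {κ : Type*} [Fintype κ] {η : ℝ} (hη : 0 < η) (a : κ → ℝ)
    (ha : ∑ o, a o ^ 2 ≤ 1) :
    ∫ x, above (√η)⁻¹ (lin a x ^ 2) ∂gauss κ ≤ gmom4 * √η := by
  have hL : 0 < (√η)⁻¹ := inv_pos.2 (sqrt_pos.2 hη)
  rcases (sum_nonneg fun o (_ : o ∈ univ) => sq_nonneg (a o)).eq_or_lt with h0 | h0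
  · have hz : ∀ x, lin a x = 0 := fun x => sum_eq_zero fun o _ => by
      have := (sum_eq_zero_iff_of_nonneg fun o _ => sq_nonneg (a o)).1 h0.symm o (mem_univ o)
      rw [sq_eq_zero_iff.1 this, zero_mul]
    simp only [hz, above, zero_pow two_ne_zero, zero_sub,
      max_eq_right (neg_nonpos.2 hL.le), integral_zero]
    exact mul_nonneg gmom4_nonneg (sqrt_nonneg _)
  set s := √(∑ o, a o ^ 2)
  have hs : 0 < s := sqrt_pos.2 h0
  set R : Fin 1 → κ → ℝ := fun _ o => a o / s
  have hR : ∀ i j, ∑ o, R i o * R j o = if i = j then 1 else 0 := fun i j => by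
    rw [if_pos (Subsingleton.elim i j)]
    simp only [R, ← sq, div_pow, ← sum_div]
    rw [div_eq_one_iff_eq (by positivity)]
    exact (sq_sqrt h0.le).symm
  have hle : ∀ x, above (√η)⁻¹ (lin a x ^ 2) ≤ above (√η)⁻¹ (rowMap R x 0 ^ 2) := fun x => by
    have e : lin a x = s * rowMap R x 0 := by
      simp only [lin, rowMap, R, mul_sum]
      exact sum_congr rfl fun o _ => by field_simp
    refine max_le_max (sub_le_sub_right ?_ _) le_rfl
    rw [e, mul_pow]
    exact mul_le_of_le_one_left (sq_nonneg _) (by rw [sq_sqrt h0.le]; exact ha)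
  have hm : MeasurePreserving (fun x => rowMap R x 0) (gauss κ) (gaussianReal 0 1) :=
    (measurePreserving_eval (fun _ : Fin 1 => gaussianReal 0 1) 0).comp
      ⟨measurable_rowMap R, by classical exact gauss_map_rowMap R hR⟩
  have hi := hm.integrable_comp_of_integrable (integrable_above _ hL.le)
  refine (integral_mono_of_nonneg (ae_of_all _ fun x => le_max_right _ _) hi
    (ae_of_all _ hle)).trans ?_
  have hf : Continuous fun x : ℝ => above (√η)⁻¹ (x ^ 2) := by unfold above; fun_prop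
  have h := integral_map (μ := gauss κ) hm.measurable.aemeasurable
    (f := fun x : ℝ => above (√η)⁻¹ (x ^ 2)) hf.aestronglyMeasurable
  rw [hm.map_eq] at h
  refine (h.symm.trans_le (integral_above_le hL)).trans (le_of_eq ?_)
  rw [div_inv_eq_mul]

/-- The top part of the revealed vectors. -/
theorem topStats_event (k : ℕ) {η : ℝ} (hη : 0 < η) :
    ∃ A ≥ 0, ∃ c > 0, ∀ n, 0 < n →
      siteLaw n k {ω | ¬TopStats η (√η * (4 * gmom4 + 8)) ω.2}
        ≤ ENNReal.ofReal (A * exp (-(c * n))) := by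
  set L := (√η)⁻¹
  have hs : 0 < √η := sqrt_pos.2 hη
  obtain ⟨N, hN1, hN2⟩ := exists_ball_net k hs
  obtain ⟨cR, hcR, hcr, hR, hraw⟩ := rawStats_event k (η₀ := 1 / ((k:ℝ) + 1)) (by positivity)
  obtain ⟨c, hc, h⟩ := savg_event N k 1 hs
  refine ⟨cR + 2 * (Fintype.card N : ℝ), by positivity, min hcr c, lt_min hR hc, fun n hn => ?_⟩
  let f : N → (Option (Fin k) → ℝ) → ℝ := fun b x => above L ((∑ l, b.1 l * x (some l)) ^ 2)
  have hgr : ∀ b x, |f b x| ≤ 1 * (1 + ∑ o, x o ^ 2) := fun b x => by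
    have h1 := sum_mul_sq_le_sq_mul_sq univ b.1 fun l => x (some l)
    have h2 : ∑ l, x (some l) ^ 2 ≤ ∑ o, x o ^ 2 := by
      rw [Fintype.sum_option]; linarith [sq_nonneg (x none)]
    have h3 := mul_le_mul (hN1 b.1 b.2) h2 (sum_nonneg fun l _ => sq_nonneg _) zero_le_one
    simp only [f, above]
    rw [abs_of_nonneg (le_max_right _ _), one_mul]
    refine max_le ?_ (by positivity)
    linarith [inv_nonneg.2 hs.le]
  refine le_trans (measure_mono fun ω hω => ?_) (exp_bd_add hcR (by positivity) (Nat.cast_nonneg n)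
    (hraw n hn) (h n hn f (fun b => by simp only [f, above]; fun_prop) hgr))
  contrapose! hω
  simp only [Set.mem_union, Set.mem_ofPred_eq, not_or, not_not, not_exists, not_lt] at hω
  simp only [Set.mem_ofPred_eq, not_not]
  obtain ⟨hr, hf⟩ := hω
  have hn' : (0:ℝ) < n := by exact_mod_cast hn
  have hk1 : (k:ℝ) * (1 / ((k:ℝ) + 1)) ≤ 1 := by
    rw [mul_one_div, div_le_one (by positivity)]; linarith
  have hall : ∀ a : Fin k → ℝ, (∑ i, (∑ l, a l * ω.2 l i) ^ 2) / n ≤ 2 * ∑ l, a l ^ 2 :=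
    quad_le_of_stats hn hk1 (by positivity) hr.zz
  refine ⟨fun a ha => (hall a).trans (by linarith), fun a ha S hS => ?_⟩
  obtain ⟨b, hb, hab⟩ := hN2 a ha
  set P := fun (a : Fin k → ℝ) i => ∑ l, a l * ω.2 l i
  have hmean : ∫ x, f ⟨b, hb⟩ x ∂gauss (Option (Fin k)) ≤ gmom4 * √η := by
    set a' : Option (Fin k) → ℝ := fun o => o.elim 0 b
    have ha' : ∀ x : Option (Fin k) → ℝ, ∑ l, b l * x (some l) = lin a' x := fun x => by
      simp [a', lin, Fintype.sum_option]
    have ea : (fun x => f ⟨b, hb⟩ x) = fun x => above L (lin a' x ^ 2) := by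
      funext x; simp only [f, ha']
    rw [ea]
    exact above_lin_le hη a' (by simpa [a', Fintype.sum_option] using hN1 b hb)
  have hbavg : savg ω (f ⟨b, hb⟩) ≤ gmom4 * √η + √η := by
    linarith [(abs_le.1 (hf ⟨b, hb⟩)).2]
  have hpt : ∀ i ∈ S, P a i ^ 2 ≤ 2 * (L + above L (P b i ^ 2)) + 2 * P (a - b) i ^ 2 := by
    intro i _
    have e : P a i = P b i + P (a - b) i := by
      simp only [P, Pi.sub_apply, sub_mul, sum_sub_distrib]; ring
    have h1 : P b i ^ 2 ≤ L + above L (P b i ^ 2) := by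
      have := le_max_left (P b i ^ 2 - L) 0
      simp only [above]; linarith
    rw [e]
    linarith [sq_nonneg (P b i - P (a - b) i)]
  have hsum := sum_le_sum hpt
  simp only [sum_add_distrib, ← mul_sum, sum_const, nsmul_eq_mul] at hsum
  have h1 : ∑ i ∈ S, above L (P b i ^ 2) ≤ n * (gmom4 * √η + √η) := by
    refine (sum_le_univ_sum_of_nonneg fun i => le_max_right _ _).trans ?_
    rw [savg, div_le_iff₀ hn'] at hbavg
    rw [mul_comm (n:ℝ)]
    exact hbavg
  have h2 : ∑ i ∈ S, P (a - b) i ^ 2 ≤ n * (2 * √η) := by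
    refine (sum_le_univ_sum_of_nonneg fun i => sq_nonneg _).trans ?_
    have h := hall (a - b)
    rw [div_le_iff₀ hn'] at h
    refine h.trans ?_
    rw [mul_comm (n:ℝ)]
    exact mul_le_mul_of_nonneg_right (mul_le_mul_of_nonneg_left hab zero_le_two) hn'.le
  have h3 : (S.card : ℝ) * L ≤ n * √η := by
    refine (mul_le_mul_of_nonneg_right hS (inv_nonneg.2 hs.le)).trans (le_of_eq ?_)
    rw [mul_comm η, mul_assoc, ← div_eq_mul_inv, div_sqrt]
  rw [div_le_iff₀ hn']
  have h4 := mul_nonneg gmom4_nonneg (mul_nonneg hs.le hn'.le)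
  linarith [mul_nonneg hs.le hn'.le]

end Vale.Agent.P150.Beta1
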