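import Mathlib
import Vale.Agent.P150.Beta1.Fields.Stats
import Vale.Agent.P150.Beta1.Fields.QuadTail

/-!
# The edge holds at a node outside an exponentially small event

`edge_node` is the edge at a node of a chain, `edge_zero` the edge at `0`.
-/

namespace Vale.Agent.P150.Beta1

open MeasureTheory ProbabilityTheory Finset Real

variable {n k : ℕ}

/-- The planted couplings: `fullJ` without its diagonal. -/
noncomputable def offJ (τ : ℝ) (H : Fin n × Fin n → ℝ) : Fin n → Fin n → ℝ :=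
  fun i j => if i = j then 0 else fullJ τ H i j

/-- The edge on the box at `m`. -/
def NodeEdge (β κ η gmax : ℝ) (J : Fin n → Fin n → ℝ) (m : Fin n → ℝ) : Prop :=
  ∀ S : Finset (Fin n), (S.card : ℝ) ≤ η * n → ∀ a : Fin n → ℝ,
    fieldR β J m a + κ * ∑ i, a i ^ 2 ≤ ∑ i, a i ^ 2 / boxTop η gmax m S i

/-- The diagonal of `fullJ` is small. -/
def DiagSmall (τ e : ℝ) (H : Fin n × Fin n → ℝ) : Prop := ∀ i, |fullJ τ H i i| ≤ e

lemma act_offJ (τ : ℝ) (H : Fin n × Fin n → ℝ) (a : Fin n → ℝ) (i : Fin n) :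
    act (offJ τ H) a i = act (fullJ τ H) a i - fullJ τ H i i * a i := by
  simp only [act, offJ, ite_mul, zero_mul]
  rw [eq_sub_iff_add_eq, ← sum_erase_add _ _ (mem_univ i),
    ← sum_erase_add (s := univ) (fun j => fullJ τ H i j * a j) (mem_univ i), if_pos rfl, add_zero]
  congr 1
  exact sum_congr rfl fun j hj => if_neg (ne_of_mem_erase hj).symm

lemma onsager_eq_wavg (hn : 0 < n) {β τ : ℝ} (hβ : β ^ 2 = τ) (m : Fin n → ℝ) :
    onsager β m = τ * wavg (fun i => 1 - m i ^ 2) fun _ => 1 := by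
  have hn' : (0:ℝ) < n := by exact_mod_cast hn
  simp only [onsager, qav, avg, wavg, hβ, Fintype.card_fin, mul_one, sum_sub_distrib, sum_const,
    card_univ, nsmul_eq_mul, sub_div, div_self hn'.ne']

/-- The form at a unit vector against `edgeF`. -/
lemma fieldR_unit_le {β τ η G e e' : ℝ} (hn : 0 < n) (hβ : β ^ 2 = τ) (hτ : 0 ≤ τ) (hτ1 : τ ≤ 1)
    {u : Fin k → Fin n → ℝ} (hu : OrthoFam u) (hunit : ∀ l, dot (u l) (u l) = 1)
    {z : Fin k → Fin n → ℝ} (he : 0 ≤ e)
    (hsm : ∀ q p : Fin k, q ≤ p → |dot (u q) ((√n)⁻¹ • z p)| ≤ e)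
    (F : Fin n × Fin n → ℝ) (hd : DiagSmall τ e' (gluef u z F)) (m : Fin n → ℝ)
    {a : Fin n → ℝ} (ha : dot a a = 1) (S : Finset (Fin n)) :
    fieldR β (offJ τ (gluef u z F)) m a - ∑ i, a i ^ 2 / boxTop η G m S i
      ≤ √(2 * τ / n) * bil F (foff u a) (foff u a) + edgeF τ η G e m u z a S + e' := by
  have h1 := fullJ_form_le hu hunit hτ hτ1 hn z he hsm F ha
  have h2 : ∑ i, a i * act (offJ τ (gluef u z F)) a i
      ≤ dot a (act (fullJ τ (gluef u z F)) a) + e' := by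
    simp only [act_offJ, mul_sub, sum_sub_distrib, dot]
    rw [sub_le_iff_le_add, add_assoc, le_add_iff_nonneg_right, ← neg_le_iff_add_nonneg']
    have ha2 := unit_sum_sq ha
    have e1 : e' = ∑ i, e' * a i ^ 2 := by rw [← mul_sum, ha2, mul_one]
    rw [e1, ← sum_neg_distrib]
    refine sum_le_sum fun i _ => ?_
    have := mul_le_mul_of_nonneg_right (abs_le.1 (hd i)).1 (sq_nonneg (a i))
    linarith
  have h3 : (∑ i, m i * a i) ^ 2 / (n:ℝ) = (dot a m / √n) ^ 2 := by
    rw [div_pow, sq_sqrt (Nat.cast_nonneg _), dot]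
    congr 2
    exact sum_congr rfl fun i _ => mul_comm _ _
  simp only [fieldR, edgeF, Fintype.card_fin, unit_sum_sq ha, mul_one, onsager_eq_wavg hn hβ, hβ]
  rw [mul_div_assoc, h3]
  linarith

/-- From unit vectors to all vectors. -/
lemma nodeEdge_of_unit {β κ η G : ℝ} {J : Fin n → Fin n → ℝ} {m : Fin n → ℝ}
    (h : ∀ S : Finset (Fin n), (S.card : ℝ) ≤ η * n → ∀ a : Fin n → ℝ, dot a a = 1 →
      fieldR β J m a + κ ≤ ∑ i, a i ^ 2 / boxTop η G m S i) :
    NodeEdge β κ η G J m := by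
  intro S hS a
  rcases (dot_self_nonneg a).eq_or_lt with h0 | h0
  · have hz : a = 0 := dot_self_eq_zero h0.symm
    simp [hz, fieldR, act]
  set s := √(dot a a)
  have hs : 0 < s := sqrt_pos.2 h0
  have hb : dot (s⁻¹ • a) (s⁻¹ • a) = 1 := by
    rw [smul_dot, dot_smul, ← mul_assoc, ← mul_inv, mul_self_sqrt h0.le, inv_mul_cancel₀ h0.ne']
  have h1 := h S hS _ hb
  have hss : s ^ 2 = ∑ i, a i ^ 2 := by rw [sq_sqrt h0.le]; simp only [dot, sq]
  have e1 : fieldR β J m (s⁻¹ • a) = fieldR β J m a / s ^ 2 := by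
    simp only [fieldR, act, Pi.smul_apply, smul_eq_mul]
    rw [show (∑ i, m i * (s⁻¹ * a i)) = s⁻¹ * ∑ i, m i * a i by
      rw [mul_sum]; exact sum_congr rfl fun i _ => by ring]
    simp only [mul_pow, ← mul_sum]
    rw [show (∑ i, s⁻¹ * a i * ∑ j, J i j * (s⁻¹ * a j)) = s⁻¹ ^ 2 * ∑ i, a i * ∑ j, J i j * a j by
      rw [mul_sum]; refine sum_congr rfl fun i _ => ?_
      simp only [mul_sum]; exact sum_congr rfl fun j _ => by ring]
    ring
  have e2 : ∑ i, (s⁻¹ • a) i ^ 2 / boxTop η G m S i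
      = (∑ i, a i ^ 2 / boxTop η G m S i) / s ^ 2 := by
    rw [sum_div]; exact sum_congr rfl fun i _ => by simp only [Pi.smul_apply, smul_eq_mul]; ring
  rw [e1, e2, ← sub_nonneg] at h1
  rw [← hss, ← sub_nonneg]
  have h2 := mul_nonneg h1 (sq_nonneg s)
  rw [sub_mul, add_mul, div_mul_cancel₀ _ (by positivity), div_mul_cancel₀ _ (by positivity)] at h2
  linarith

/-- For fixed revealed vectors the edge fails with exponentially small probability. -/
theorem edge_tail_fixed {β τ η G e e' κ M : ℝ} (hn : 0 < n) (hβ : β ^ 2 = τ) (hτ : 0 < τ)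
    (hτ1 : τ ≤ 1) (hη : 0 ≤ η) {u : Fin k → Fin n → ℝ} (hu : OrthoFam u)
    (hunit : ∀ l, dot (u l) (u l) = 1) {z : Fin k → Fin n → ℝ} (he : 0 ≤ e)
    (hsm : ∀ q p : Fin k, q ≤ p → |dot (u q) ((√n)⁻¹ • z p)| ≤ e) (m : Fin n → ℝ)
    (Bd : (Fin n → ℝ) → ℝ) (hBm : Continuous Bd) (hBi : Integrable Bd (gauss (Fin n)))
    (hbd : ∀ a : Fin n → ℝ, dot a a = 1 → ∀ S : Finset (Fin n), (S.card : ℝ) ≤ η * n → ∀ h,
      2 * √(τ / n) * √(dot (foff u a) (foff u a)) * dot (foff u a) h + edgeF τ η G e m u z a S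
        ≤ Bd h)
    (hM : ∫ h, Bd h ∂gauss (Fin n) ≤ M) {r : ℝ} (hr : 0 ≤ r) (hκ : M + r + e' + κ ≤ 0) :
    gauss (Fin n × Fin n) {F | DiagSmall τ e' (gluef u z F) ∧
        ¬NodeEdge β κ η G (offJ τ (gluef u z F)) m}
      ≤ ENNReal.ofReal (exp (-(r ^ 2 * n / (8 * τ)))) := by
  have : Nonempty {a : Fin n → ℝ // dot a a = 1} :=
    ⟨⟨fun i => if i = (⟨0, hn⟩ : Fin n) then 1 else 0, by simp [dot]⟩⟩
  have : Nonempty {S : Finset (Fin n) // (S.card : ℝ) ≤ η * n} := ⟨⟨∅, by simp; positivity⟩⟩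
  let : TopologicalSpace {S : Finset (Fin n) // (S.card : ℝ) ≤ η * n} := ⊥
  have : DiscreteTopology {S : Finset (Fin n) // (S.card : ℝ) ≤ η * n} := ⟨rfl⟩
  set b : {a : Fin n → ℝ // dot a a = 1} × {S : Finset (Fin n) // (S.card : ℝ) ≤ η * n} →
      Fin n → ℝ := fun t => foff u t.1.1
  set F : {a : Fin n → ℝ // dot a a = 1} × {S : Finset (Fin n) // (S.card : ℝ) ≤ η * n} → ℝ :=
    fun t => edgeF τ η G e m u z t.1.1 t.2.1
  have hb : Continuous b := by
    simp only [b, foff, fcoef]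
    fun_prop
  have hF : Continuous F := by
    rw [continuous_prod_of_discrete_right]
    intro S
    have h1 : Continuous fun a : Fin n → ℝ => ∑ i, a i ^ 2 / boxTop η G m S.1 i :=
      continuous_finsetSum _ fun i _ => ((continuous_apply i).pow 2).div_const _
    have h2 : Continuous fun a : Fin n → ℝ => τ * ((∑ i, a i) / √n) ^ 2
        + 2 * √τ * ∑ l, fcoef u a l * dot a ((√n)⁻¹ • z l)
        + 4 * (k:ℝ) ^ 2 * e - τ * (wavg (fun i => 1 - m i ^ 2) fun _ => 1)
        + 2 * τ * (dot a m / √n) ^ 2 := by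
      simp only [fcoef]
      have h3 : Continuous fun a : Fin n → ℝ => (∑ i, a i) / √n :=
        (continuous_finsetSum _ fun i _ => continuous_apply i).div_const _
      have h4 : Continuous fun a : Fin n → ℝ => dot a m / √n :=
        (continuous_dot continuous_id continuous_const).div_const _
      fun_prop
    exact (h2.sub h1).comp continuous_subtype_val
  have hb1 : ∀ t, dot (b t) (b t) ≤ 1 := fun t => by
    have := foff_sq hu hunit t.1.1
    have := sum_nonneg fun l (_ : l ∈ univ) => sq_nonneg (fcoef u t.1.1 l)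
    have := t.1.2
    simp only [b]
    linarith
  refine (measure_mono fun X hX => ?_).trans
    (quad_sup_tail hn hτ b F hb hF hb1 Bd hBm hBi (fun t h => hbd _ t.1.2 _ t.2.2 h) hM hr)
  obtain ⟨hd, hbad⟩ := hX
  by_contra hc
  simp only [Set.mem_ofPred_eq, not_exists, not_lt] at hc
  refine hbad (nodeEdge_of_unit fun S hS a ha => ?_)
  have h1 := hc (⟨a, ha⟩, ⟨S, hS⟩)
  have h2 := fieldR_unit_le (η := η) (G := G) hn hβ hτ.le hτ1 hu hunit he hsm X hd m ha S
  simp only [b, F] at h1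
  linarith

variable {τ u δ : ℝ} (C : Chain τ u δ k)

/-- The node `j` at all sites. -/
noncomputable def nodeVal (j : ℕ) (ω : (Fin n → ℝ) × (Fin k → Fin n → ℝ)) : Fin n → ℝ :=
  fun i => mnode C j (site ω i)

/-- The array of a pair (revealed vectors, fresh array). -/
noncomputable def glueC (p : ((Fin n → ℝ) × (Fin k → Fin n → ℝ)) × (Fin n × Fin n → ℝ)) :
    Fin n × Fin n → ℝ :=
  gluef (ufam C p.1) p.1.2 p.2

/-- The law of (noise, revealed vectors, fresh array). -/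
noncomputable def pairLaw (n k : ℕ) :
    Measure (((Fin n → ℝ) × (Fin k → Fin n → ℝ)) × (Fin n × Fin n → ℝ)) :=
  (siteLaw n k).prod (gauss (Fin n × Fin n))

instance (n k : ℕ) : IsProbabilityMeasure (pairLaw n k) := by unfold pairLaw; infer_instance

lemma continuous_nodeVal (j : ℕ) : Continuous (nodeVal C j (n := n)) :=
  continuous_pi fun i => (continuous_mnode C j).comp (continuous_site i)

lemma measurable_glueC : Measurable (glueC C (n := n)) := by
  have hu : Measurable fun ω : (Fin n → ℝ) × (Fin k → Fin n → ℝ) => ufam C ω := by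
    refine measurable_pi_lambda _ fun l => measurable_gsv (fun r => ?_) l
    exact measurable_pi_lambda _ fun i =>
      (((continuous_mnode C r).comp (continuous_site i)).measurable).div_const _
  have hg := (continuous_gluef (k := k) (n := n)).measurable
  unfold glueC
  generalize hG : (gluef : (Fin k → Fin n → ℝ) → (Fin k → Fin n → ℝ) →
    (Fin n × Fin n → ℝ) → Fin n × Fin n → ℝ) = H at hg ⊢
  exact Measurable.comp (g := fun q => H q.1 q.2.1 q.2.2) hg ((hu.comp measurable_fst).prodMk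
    ((measurable_snd.comp measurable_fst).prodMk measurable_snd))

lemma continuous_offJ (τ : ℝ) (i j : Fin n) :
    Continuous fun H : Fin n × Fin n → ℝ => offJ τ H i j := by
  unfold offJ fullJ
  split_ifs <;> fun_prop

/-- The failures of the edge form an open set. -/
lemma isOpen_not_nodeEdge (β τ κ η G : ℝ) (hη : 0 < η) :
    IsOpen {p : (Fin n → ℝ) × (Fin n × Fin n → ℝ) | (∀ i, p.1 i ^ 2 < 1 + η) ∧
      ¬NodeEdge β κ η G (offJ τ p.2) p.1} := by
  have hc : ∀ i, Continuous fun p : (Fin n → ℝ) × (Fin n × Fin n → ℝ) => p.1 i := fun i =>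
    (continuous_apply i).comp continuous_fst
  have hJ : ∀ i j, Continuous fun p : (Fin n → ℝ) × (Fin n × Fin n → ℝ) => offJ τ p.2 i j :=
    fun i j => (continuous_offJ τ i j).comp continuous_snd
  set U := {p : (Fin n → ℝ) × (Fin n × Fin n → ℝ) | ∀ i, p.1 i ^ 2 < 1 + η}
  have hU : IsOpen U := by
    simp only [U, Set.ofPred_forall]
    exact isOpen_iInter_of_finite fun i => isOpen_lt ((hc i).pow 2) continuous_const
  have e : {p : (Fin n → ℝ) × (Fin n × Fin n → ℝ) | (∀ i, p.1 i ^ 2 < 1 + η) ∧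
      ¬NodeEdge β κ η G (offJ τ p.2) p.1} = ⋃ S : {S : Finset (Fin n) // (S.card : ℝ) ≤ η * n},
        ⋃ a : Fin n → ℝ, (U ∩ {p | ∑ i, a i ^ 2 / boxTop η G p.1 S.1 i
          < fieldR β (offJ τ p.2) p.1 a + κ * ∑ i, a i ^ 2}) := by
    ext p
    simp only [NodeEdge, not_forall, not_le, Set.mem_ofPred_eq, Set.mem_iUnion, Set.mem_inter_iff, U,
      Subtype.exists]
    exact ⟨fun ⟨h, S, hS, a, ha⟩ => ⟨S, hS, a, h, ha⟩, fun ⟨S, hS, a, h, ha⟩ => ⟨h, S, hS, a, ha⟩⟩
  rw [e]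
  refine isOpen_iUnion fun S => isOpen_iUnion fun a => ?_
  have hR : Continuous fun p : (Fin n → ℝ) × (Fin n × Fin n → ℝ) =>
      fieldR β (offJ τ p.2) p.1 a + κ * ∑ i, a i ^ 2 := by
    simp only [fieldR, act, onsager, qav, avg]
    fun_prop
  have hL : ContinuousOn (fun p : (Fin n → ℝ) × (Fin n × Fin n → ℝ) =>
      (∑ i, a i ^ 2 / boxTop η G p.1 S.1 i) - (fieldR β (offJ τ p.2) p.1 a + κ * ∑ i, a i ^ 2)) U := by
    refine ContinuousOn.sub ?_ hR.continuousOn
    refine continuousOn_finsetSum univ fun i _ => ?_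
    simp only [boxTop]
    split_ifs with hi
    · exact continuousOn_const
    · exact continuousOn_const.div (by fun_prop) fun p hp => by
        have := hp i; linarith
  have h := hL.isOpen_inter_preimage hU (isOpen_Iio (a := (0:ℝ)))
  convert h using 2
  ext p
  simp [sub_neg]

/-- A bound on every good section bounds the event. -/
lemma pairLaw_le {A : Set (((Fin n → ℝ) × (Fin k → Fin n → ℝ)) × (Fin n × Fin n → ℝ))}
    (hA : MeasurableSet A) {B : Set ((Fin n → ℝ) × (Fin k → Fin n → ℝ))} {a b : ENNReal}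
    (hB : siteLaw n k B ≤ a) (h : ∀ ω ∉ B, gauss (Fin n × Fin n) (Prod.mk ω ⁻¹' A) ≤ b) :
    pairLaw n k A ≤ a + b := by
  set B' := toMeasurable (siteLaw n k) B
  have hsub : A ⊆ (B' ×ˢ Set.univ) ∪ (A ∩ (B'ᶜ ×ˢ Set.univ)) := fun p hp => by
    by_cases hc : p.1 ∈ B'
    · exact Or.inl ⟨hc, trivial⟩
    · exact Or.inr ⟨hp, hc, trivial⟩
  refine (measure_mono hsub).trans ((measure_union_le _ _).trans (add_le_add ?_ ?_))
  · rw [pairLaw, Measure.prod_prod, measure_toMeasurable, measure_univ, mul_one]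
    exact hB
  · rw [pairLaw, Measure.prod_apply
      (hA.inter ((measurableSet_toMeasurable _ _).compl.prod MeasurableSet.univ))]
    refine (lintegral_mono (g := fun _ => b) fun ω => ?_).trans (by simp)
    by_cases hc : ω ∈ B'
    · have : Prod.mk ω ⁻¹' (A ∩ (B'ᶜ ×ˢ (Set.univ : Set (Fin n × Fin n → ℝ)))) = ∅ := by
        ext F; simp [hc]
      rw [this, measure_empty]
      exact bot_le
    · exact (measure_mono fun F hF => hF.1).trans
        (h ω fun hω => hc (subset_toMeasurable _ _ hω))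

lemma measurableSet_edgeFail (β τ' e' κ η G : ℝ) (hη : 0 < η) (j : ℕ) :
    MeasurableSet {p : ((Fin n → ℝ) × (Fin k → Fin n → ℝ)) × (Fin n × Fin n → ℝ) |
      DiagSmall τ' e' (glueC C p) ∧
        ¬NodeEdge β κ η G (offJ τ' (glueC C p)) (nodeVal C j p.1)} := by
  have hd : IsClosed {H : Fin n × Fin n → ℝ | DiagSmall τ' e' H} := by
    simp only [DiagSmall, fullJ, Set.ofPred_forall]
    exact isClosed_iInter fun i => isClosed_le (by fun_prop) continuous_const
  have hm := (((continuous_nodeVal C j).measurable.comp measurable_fst).prodMk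
    (measurable_glueC C (n := n)))
  have h2 := hm (isOpen_not_nodeEdge (n := n) β τ' κ η G hη).measurableSet
  convert (measurable_glueC C hd.measurableSet).inter h2 using 1
  ext p
  simp only [Set.mem_ofPred_eq, Set.mem_inter_iff, Set.mem_preimage, Function.comp_apply]
  have hb : ∀ i, nodeVal C j p.1 i ^ 2 < 1 + η := fun i => by
    have := pow_le_one₀ (abs_nonneg _) (abs_mnode_le C j (site p.1 i)) (n := 2)
    rw [sq_abs] at this
    simp only [nodeVal]
    linarith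
  simp [hb]

lemma coef_dot_le {a b : Fin k → ℝ} {e : ℝ} (ha : ∀ l, |a l| ≤ 1) (hb : ∀ l, |b l| ≤ e) :
    |∑ l, a l * b l| ≤ k * e := by
  refine (abs_sum_le_sum_abs _ _).trans ((sum_le_card_nsmul _ _ e fun l _ => ?_).trans (by simp))
  rw [abs_mul]
  exact (mul_le_of_le_one_left (abs_nonneg _) (ha l)).trans (hb l)

/-- The margin that `η` has to leave. -/
noncomputable def edgeSlack (η G M : ℝ) : ℝ :=
  16 * η * (6 + M ^ 2) + 8 * G * (√η + √η * (4 * gmom4 + 8) + η * (1 + M ^ 2)) + 16 * η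
    + 8 * G * (gmom4 * √η)

/-- The edge at a node. -/
theorem edge_node {β τ η G ε D₀ : ℝ} (hβ : β ^ 2 = τ) (hτ : 0 < τ) (hτ1 : τ < 1) (hη : 0 < η)
    (hη1 : η ≤ 1) (hG : 0 < G) (hε : 0 < ε) (hε1 : 20 * ε ≤ (1 - τ) ^ 2 * D₀)
    (hεG : ε * (2 + G) ≤ 1 / 2) (hD₀ : 0 < D₀)
    (hsl : edgeSlack η G (8 / D₀) ≤ ε * (1 - τ) / 16) (k : ℕ) {δ : ℝ} (hδ : 0 < δ) :
    ∃ A ≥ 0, ∃ c > 0, ∃ n₀ : ℕ, ∀ n ≥ n₀, ∀ (u : ℝ) (C : Chain τ u δ k) (j : ℕ), 0 ≤ u → 0 < j →
      j < k → C.par j < k → 2 * D₀ ≤ Dnode C j →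
      1000 * ((k:ℝ) + 3) ^ 2 / D₀ ^ 2 * √|C.q j - C.q (C.par j)| ≤ ε * (1 - τ) / 32 →
      pairLaw n k {p | DiagSmall τ (ε * (1 - τ) / 16) (glueC C p) ∧
          ¬NodeEdge β (ε * (1 - τ) / 16) η G (offJ τ (glueC C p)) (nodeVal C j p.1)}
        ≤ ENNReal.ofReal (A * exp (-(c * n))) := by
  have h1τ : 0 < 1 - τ := by linarith
  set w := ε * (1 - τ)
  have hw : 0 < w := by positivity
  set K := 1000 * ((k:ℝ) + 3) ^ 2 / D₀ ^ 2
  have hK : 0 < K := by positivity
  set ηp := w / (32 * K)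
  have hηp : 0 < ηp := by positivity
  set e := min (w / (64 * ((k:ℝ) + 1) ^ 2)) (ηp / (2 * ((k:ℝ) + 1)))
  have he : 0 < e := by positivity
  obtain ⟨ηf, hηf, hfam⟩ := family_close k hδ he
  set ηs := min ηf (ηp ^ 2 / 16)
  have hηs : 0 < ηs := lt_min hηf (by positivity)
  obtain ⟨A1, hA1, c1, hc1, E1⟩ := nodeStats_event k hηs
  obtain ⟨A2, hA2, c2, hc2, E2⟩ := pivotStats_event k hηp hD₀
  obtain ⟨A3, hA3, c3, hc3, E3⟩ := topStats_event k hη
  set cst := K * (√gvar2 + 2 * k + 2) + 2 * k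
  obtain ⟨n₁, hn₁⟩ := exists_nat_ge (((16 * cst) / w) ^ 2)
  refine ⟨A1 + A2 + A3 + 1, by positivity, min (min (min c1 c2) c3) ((w / 16) ^ 2 / (8 * τ)),
    lt_min (lt_min (lt_min hc1 hc2) hc3) (by positivity), max n₁ 1,
    fun n hn u C j hu hj0 hjk hp hD hq => ?_⟩
  have hn0 : 0 < n := (le_max_right n₁ 1).trans hn
  have hnn : (((16 * cst) / w) ^ 2) ≤ (n:ℝ) :=
    hn₁.trans (Nat.cast_le.2 ((le_max_left n₁ 1).trans hn))
  have hB := exp_bd_add (add_nonneg hA1 hA2) hA3 (Nat.cast_nonneg n)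
    (exp_bd_add hA1 hA2 (Nat.cast_nonneg n) (E1 C n hτ.le hu hn0)
      (E2 C n j hτ.le hτ1.le hn0 hj0 hjk hD)) (E3 n hn0)
  refine (pairLaw_le (measurableSet_edgeFail C β τ _ _ η G hη j) hB
    (b := ENNReal.ofReal (exp (-((w / 16) ^ 2 * n / (8 * τ))))) fun ω hω => ?_).trans ?_
  swap
  · rw [← ENNReal.ofReal_add (by positivity) (exp_pos _).le, add_mul (A1 + A2 + A3), one_mul]
    refine ENNReal.ofReal_le_ofReal (add_le_add
      (mul_le_mul_of_nonneg_left (exp_le_exp.2 (neg_le_neg ?_)) (by positivity))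
      (exp_le_exp.2 (neg_le_neg ?_)))
    · exact mul_le_mul_of_nonneg_right (min_le_left _ _) (Nat.cast_nonneg n)
    · rw [show (w / 16) ^ 2 * (n:ℝ) / (8 * τ) = (w / 16) ^ 2 / (8 * τ) * n by ring]
      exact mul_le_mul_of_nonneg_right (min_le_right _ _) (Nat.cast_nonneg n)
  simp only [Set.mem_union, Set.mem_ofPred_eq, not_or, not_not] at hω
  obtain ⟨⟨hS, hP⟩, hT⟩ := hω
  have hS' : NodeStats C ηf ω := ⟨fun a ha b hb => (hS.mm a ha b hb).trans (min_le_left _ _),
    fun p l hl => (hS.zm p l hl).trans (min_le_left _ _), hS.zz⟩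
  obtain ⟨hunit, hac, hsm⟩ := hfam C ω hS'
  set m := nodeVal C j ω
  set η₀ := √|C.q j - C.q (C.par j)| + ηp
  have hη₀ : 0 ≤ η₀ := by positivity
  have hmn : (√n)⁻¹ • m = nvec C ω j := by
    funext i; simp [m, nodeVal, nvec, div_eq_inv_mul]
  have hR : ∀ a, dot a a = 1 → ∃ R, |R| ≤ 2 ∧ |dot a m / √n - R| ≤ η₀
      ∧ ∑ l, fcoef (ufam C ω) a l * avec C j (some l) = √τ * R := by
    intro a ha
    set α := fcoef (ufam C ω) a
    refine ⟨∑ l, α l * C.c (C.par j) l, ?_, ?_, ?_⟩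
    · have h1 := sum_mul_sq_le_sq_mul_sq univ α fun l => C.c (C.par j) l
      have h2 := foff_sq (ufam_ortho C ω) hunit a
      have h3 := C.gram (C.par j) (C.par j)
      rw [min_self] at h3
      have h4 : ∑ l, α l ^ 2 ≤ 1 := by linarith [dot_self_nonneg (foff (ufam C ω) a)]
      have h5 : ∑ l, C.c (C.par j) l ^ 2 ≤ 1 := by
        simp only [sq]; linarith [(C.q_mem (C.par j)).2]
      have h6 := h1.trans (mul_le_one₀ h4 (sum_nonneg fun l _ => sq_nonneg _) h5)
      have h7 := (sq_le_one_iff_abs_le_one _).1 h6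
      linarith
    · have e1 : dot a m / √n = dot a (nvec C ω j) := by
        rw [← hmn, dot_smul, div_eq_inv_mul]
      have e2 : dot a (nvec C ω (C.par j)) = ∑ l, α l * acoef C ω (C.par j) l := by
        rw [nvec_expand C ω (C.par j), dot_finset_sum]
        exact sum_congr rfl fun l _ => by
          rw [dot_smul, mul_comm, dot_comm]; rfl
      have h1 : |dot a (nvec C ω j) - dot a (nvec C ω (C.par j))|
          ≤ √|C.q j - C.q (C.par j)| + ηp / 2 := by
        rw [← dot_sub]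
        refine (abs_dot_le _ _).trans ?_
        rw [vlen, ha, sqrt_one, one_mul]
        refine (node_dist hS hjk hp).trans ?_
        rw [sqrt_le_left (by positivity), add_sq, sq_sqrt (abs_nonneg _)]
        have h4 : 4 * ηs ≤ ηp ^ 2 / 4 := by linarith [min_le_right ηf (ηp ^ 2 / 16)]
        have h5 : 0 ≤ √|C.q j - C.q (C.par j)| * ηp := by positivity
        linarith
      have h2 : |∑ l, α l * (acoef C ω (C.par j) l - C.c (C.par j) l)| ≤ ηp / 2 := by
        refine (coef_dot_le (fcoef_abs_le (ufam_ortho C ω) hunit ha) fun l => hac _ l).trans ?_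
        have h3 : e ≤ ηp / (2 * ((k:ℝ) + 1)) := min_le_right _ _
        rw [le_div_iff₀ (by positivity)] at h3
        linarith
      simp only [mul_sub, sum_sub_distrib, ← e2] at h2
      rw [e1]
      rw [abs_le] at h1 h2 ⊢
      simp only [η₀]
      constructor <;> linarith
    · simp only [avec, mul_sum]
      exact sum_congr rfl fun l _ => by ring
  have hmp : ∀ x, |x| ≤ ηp → |x| ≤ η₀ := fun x hx => hx.trans (le_add_of_nonneg_left (sqrt_nonneg _))
  have hv : ∀ i, |1 - m i ^ 2| ≤ 1 := fun i => by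
    have := pow_le_one₀ (abs_nonneg _) (show |m i| ≤ 1 from hP.bound i) (n := 2)
    rw [sq_abs] at this
    rw [abs_le]
    constructor <;> linarith [sq_nonneg (m i)]
  obtain ⟨hint, hmean⟩ := mean_freshBd (k := k) hK.le hη hG.le hn0
    (v := fun i => 1 - m i ^ 2) (m := m) hv hP.bound
    (u := ufam C ω) (z := ω.2) (fun l => (hunit l).le) hS.zz
  set M0 := -(w / 2) + K * η₀ + 4 * (k:ℝ) ^ 2 * e
    + 16 * η * (6 + (8 / D₀) ^ 2)
    + 8 * G * (√η + √η * (4 * gmom4 + 8) + η * (1 + (8 / D₀) ^ 2))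
  refine edge_tail_fixed hn0 hβ hτ hτ1.le hη.le (ufam_ortho C ω) hunit he.le hsm m
    (fun g => M0 + freshBd K η G (fun i => 1 - m i ^ 2) m (ufam C ω) ω.2 g)
    (continuous_const.add (continuous_freshBd _ _ _ _ _ _ _)) ((integrable_const M0).add hint)
    (fun a ha S hSc g => ?_)
    (M := M0 + (cst / √n + 16 * η + 8 * G * (gmom4 * √η))) ?_ (by positivity) ?_
  · have h := point_edge (ρ := fun l => avec C j (some l)) (ufam_ortho C ω) hunit (e := e) hn0 hτ
      hτ1 hη hη1 hG hη₀ hε hε1 hεG hD₀ hP.bound hP.pos (hmp _ hP.m1) (fun l p => hmp _ (hP.zz l p))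
      (fun l => hmp _ (hP.z1 l)) (fun l => hmp _ (hP.zm l)) hT hR ha hSc g
    simp only [M0, w] at h ⊢
    exact h
  · rw [integral_add (integrable_const M0) hint, integral_const, probReal_univ, one_smul]
    exact add_le_add le_rfl hmean
  · have h1 : K * η₀ ≤ w / 16 := by
      simp only [η₀, mul_add]
      have : K * ηp = w / 32 := by simp only [ηp]; field_simp
      linarith
    have h2 : 4 * (k:ℝ) ^ 2 * e ≤ w / 16 := by
      have h3 : e ≤ w / (64 * ((k:ℝ) + 1) ^ 2) := min_le_left _ _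
      rw [le_div_iff₀ (by positivity)] at h3
      have := mul_nonneg he.le (Nat.cast_nonneg (α := ℝ) k)
      linarith
    have h5 : cst / √n ≤ w / 16 := by
      have h6 := sqrt_le_sqrt hnn
      rw [sqrt_sq (by positivity), div_le_iff₀ hw] at h6
      rw [div_le_iff₀ (sqrt_pos.2 (Nat.cast_pos.2 hn0))]
      linarith
    simp only [edgeSlack] at hsl
    simp only [M0]
    linarith

/-- The edge at the zero node. -/
theorem edge_zero {β τ η G ε : ℝ} (hβ : β ^ 2 = τ) (hτ : 0 < τ) (hτ1 : τ < 1) (hη : 0 < η)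
    (hη1 : η ≤ 1) (hG : 0 < G) (hε : 0 < ε) (hε1 : 20 * ε ≤ 1 - τ)
    (hεG : ε * (2 + G) ≤ 1 / 2) (hsl : edgeSlack η G 0 ≤ ε * (1 - τ) / 16) (k : ℕ) {δ : ℝ}
    (hδ : 0 < δ) :
    ∃ A ≥ 0, ∃ c > 0, ∃ n₀ : ℕ, ∀ n ≥ n₀, ∀ (u : ℝ) (C : Chain τ u δ k), 0 ≤ u →
      pairLaw n k {p | DiagSmall τ (ε * (1 - τ) / 16) (glueC C p) ∧
          ¬NodeEdge β (ε * (1 - τ) / 16) η G (offJ τ (glueC C p)) (nodeVal C k p.1)}
        ≤ ENNReal.ofReal (A * exp (-(c * n))) := by
  have h1τ : 0 < 1 - τ := by linarith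
  set w := ε * (1 - τ)
  have hw : 0 < w := by positivity
  set K := 6 * ((k:ℝ) + 3) ^ 2
  have hK : 0 < K := by positivity
  set η₀ := w / (32 * K)
  have hη₀ : 0 < η₀ := by positivity
  set e := w / (64 * ((k:ℝ) + 1) ^ 2)
  have he : 0 < e := by positivity
  obtain ⟨ηf, hηf, hfam⟩ := family_close k hδ he
  obtain ⟨A1, hA1, c1, hc1, E1⟩ := nodeStats_event k hηf
  obtain ⟨A2, hA2, c2, hc2, E2⟩ := rawStats_event k hη₀
  obtain ⟨A3, hA3, c3, hc3, E3⟩ := topStats_event k hη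
  set cst := K * (√gvar2 + 2 * k + 2) + 2 * k
  obtain ⟨n₁, hn₁⟩ := exists_nat_ge (((16 * cst) / w) ^ 2)
  refine ⟨A1 + A2 + A3 + 1, by positivity, min (min (min c1 c2) c3) ((w / 16) ^ 2 / (8 * τ)),
    lt_min (lt_min (lt_min hc1 hc2) hc3) (by positivity), max n₁ 1, fun n hn u C hu => ?_⟩
  have hn0 : 0 < n := (le_max_right n₁ 1).trans hn
  have hnn : (((16 * cst) / w) ^ 2) ≤ (n:ℝ) :=
    hn₁.trans (Nat.cast_le.2 ((le_max_left n₁ 1).trans hn))
  have hB := exp_bd_add (add_nonneg hA1 hA2) hA3 (Nat.cast_nonneg n)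
    (exp_bd_add hA1 hA2 (Nat.cast_nonneg n) (E1 C n hτ.le hu hn0) (E2 n hn0)) (E3 n hn0)
  refine (pairLaw_le (measurableSet_edgeFail C β τ _ _ η G hη k) hB
    (b := ENNReal.ofReal (exp (-((w / 16) ^ 2 * n / (8 * τ))))) fun ω hω => ?_).trans ?_
  swap
  · rw [← ENNReal.ofReal_add (by positivity) (exp_pos _).le, add_mul (A1 + A2 + A3), one_mul]
    refine ENNReal.ofReal_le_ofReal (add_le_add
      (mul_le_mul_of_nonneg_left (exp_le_exp.2 (neg_le_neg ?_)) (by positivity))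
      (exp_le_exp.2 (neg_le_neg ?_)))
    · exact mul_le_mul_of_nonneg_right (min_le_left _ _) (Nat.cast_nonneg n)
    · rw [show (w / 16) ^ 2 * (n:ℝ) / (8 * τ) = (w / 16) ^ 2 / (8 * τ) * n by ring]
      exact mul_le_mul_of_nonneg_right (min_le_right _ _) (Nat.cast_nonneg n)
  simp only [Set.mem_union, Set.mem_ofPred_eq, not_or, not_not] at hω
  obtain ⟨⟨hS, hP⟩, hT⟩ := hω
  obtain ⟨hunit, -, hsm⟩ := hfam C ω hS
  have hm0 : nodeVal C k ω = fun _ => 0 := by
    funext i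
    have := C.kpos
    simp [nodeVal, mnode, this.ne']
  obtain ⟨hint, hmean⟩ := mean_freshBd (k := k) hK.le hη hG.le hn0
    (v := fun _ : Fin n => (1:ℝ)) (m := fun _ => 0) (fun i => by simp) (fun i => by simp)
    (u := ufam C ω) (z := ω.2) (fun l => (hunit l).le) hS.zz
  set M0 := -(w / 2) + K * η₀ + 4 * (k:ℝ) ^ 2 * e + 16 * η * 6
    + 8 * G * (√η + √η * (4 * gmom4 + 8) + η)
  refine edge_tail_fixed hn0 hβ hτ hτ1.le hη.le (ufam_ortho C ω) hunit he.le hsm (nodeVal C k ω)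
    (fun g => M0 + freshBd K η G (fun _ => 1) (fun _ => 0) (ufam C ω) ω.2 g)
    (continuous_const.add (continuous_freshBd _ _ _ _ _ _ _)) ((integrable_const M0).add hint)
    (fun a ha S hSc g => ?_)
    (M := M0 + (cst / √n + 16 * η + 8 * G * (gmom4 * √η))) ?_ (by positivity) ?_
  · have h := point_edge_zero (ufam_ortho C ω) hunit (e := e) hn0 hτ hτ1 hη hη1 hG hη₀.le hε hε1
      hεG hP.zz hP.z1 hT ha hSc g
    rw [hm0]
    simp only [M0, w, K] at h ⊢
    exact h
  · rw [integral_add (integrable_const M0) hint, integral_const, probReal_univ, one_smul]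
    exact add_le_add le_rfl hmean
  · have h1 : K * η₀ = w / 32 := by simp only [η₀]; field_simp
    have h2 : 4 * (k:ℝ) ^ 2 * e ≤ w / 16 := by
      have h3 : e * (64 * ((k:ℝ) + 1) ^ 2) = w := by simp only [e]; field_simp
      have := mul_nonneg he.le (Nat.cast_nonneg (α := ℝ) k)
      linarith
    have h5 : cst / √n ≤ w / 16 := by
      have h6 := sqrt_le_sqrt hnn
      rw [sqrt_sq (by positivity), div_le_iff₀ hw] at h6
      rw [div_le_iff₀ (sqrt_pos.2 (Nat.cast_pos.2 hn0))]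
      linarith
    simp only [edgeSlack, zero_pow two_ne_zero, add_zero, mul_one] at hsl
    simp only [M0]
    linarith

end Vale.Agent.P150.Beta1
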