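import Vale.Agent.P150.Beta1.Fields.PlantedDet

/-!
# Gauge symmetry: signs of the sites carry the planted configuration to all plus
-/

namespace Vale.Agent.P150.Beta1

open MeasureTheory ProbabilityTheory Finset Real
open scoped Topology

variable {n : ℕ}

/-- Signs applied to a vector. -/
def flipV (s v : Fin n → ℝ) : Fin n → ℝ := fun i => s i * v i

/-- Signs applied to the couplings. -/
def flipJ (s : Fin n → ℝ) (J : Fin n → Fin n → ℝ) : Fin n → Fin n → ℝ :=
  fun i j => s i * s j * J i j

variable {s : Fin n → ℝ} (hs : ∀ i, s i * s i = 1)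
include hs

lemma flipV_flipV (v : Fin n → ℝ) : flipV s (flipV s v) = v :=
  funext fun i => by simp only [flipV, ← mul_assoc, hs, one_mul]

lemma flipV_sq (v : Fin n → ℝ) (i : Fin n) : flipV s v i ^ 2 = v i ^ 2 := by
  rw [flipV, mul_pow, sq (s i), hs, one_mul]

lemma act_flip (J : Fin n → Fin n → ℝ) (a : Fin n → ℝ) :
    act (flipJ s J) (flipV s a) = flipV s (act J a) := by
  funext i
  simp only [act, flipJ, flipV, mul_sum]
  refine sum_congr rfl fun j _ => ?_
  calc s i * s j * J i j * (s j * a j) = s i * (J i j * a j) * (s j * s j) := by ring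
    _ = _ := by rw [hs, mul_one]

lemma qav_flip (a : Fin n → ℝ) : qav (flipV s a) = qav a := by
  simp only [qav, flipV_sq hs]

lemma onsager_flip (β : ℝ) (a : Fin n → ℝ) : onsager β (flipV s a) = onsager β a := by
  simp only [onsager, qav_flip hs]

lemma tanh_flip (i : Fin n) (x : ℝ) : tanh (s i * x) = s i * tanh x := by
  rcases mul_self_eq_one_iff.1 (hs i) with h | h <;> simp [h, tanh_neg]

lemma tanhv_flip (z : Fin n → ℝ) : tanhv (flipV s z) = flipV s (tanhv z) :=
  funext fun i => tanh_flip hs i _

lemma ampZ_flip (β : ℝ) (J : Fin n → Fin n → ℝ) (y x : Fin n → ℝ) :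
    ∀ k, ampZ β (flipJ s J) (flipV s y) (flipV s x) k = flipV s (ampZ β J y x k) := by
  intro k
  induction k using Nat.twoStepInduction with
  | zero =>
    funext i
    simp only [ampZ, act_flip hs, flipV]
    ring
  | one =>
    funext i
    simp only [ampZ]
    have e : (fun l => flipV s y l + act (flipJ s J) (flipV s x) l)
        = flipV s fun l => y l + act J x l :=
      funext fun l => by simp only [act_flip hs, flipV]; ring
    rw [e, tanhv_flip hs, act_flip hs, onsager_flip hs]
    simp only [flipV]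
    ring
  | more k hk hk1 =>
    funext i
    simp only [ampZ, hk, hk1, tanhv_flip hs, act_flip hs, onsager_flip hs]
    simp only [flipV]
    ring

lemma ampA_flip (β : ℝ) (J : Fin n → Fin n → ℝ) (y x : Fin n → ℝ) :
    ∀ k, ampA β (flipJ s J) (flipV s y) (flipV s x) k = flipV s (ampA β J y x k)
  | 0 => rfl
  | k + 1 => by simp only [ampA, ampZ_flip hs, tanhv_flip hs]

lemma pilot_flip (β u₁ u : ℝ) (K : ℕ) (J : Fin n → Fin n → ℝ) (y : Fin n → ℝ) :
    pilot β u₁ u K (flipJ s J) (flipV s y) = flipV s (pilot β u₁ u K J y) := by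
  unfold pilot
  split_ifs
  · funext i; simp [flipV]
  · have h := ampA_flip hs β J y 0 K
    rwa [show flipV s (0 : Fin n → ℝ) = 0 from funext fun i => mul_zero _] at h

lemma sum_sq_flip_sub (a b : Fin n → ℝ) :
    ∑ i, (flipV s a i - flipV s b i) ^ 2 = ∑ i, (a i - b i) ^ 2 :=
  sum_congr rfl fun i _ => by rw [flipV, flipV, ← mul_sub, mul_pow, sq (s i), hs, one_mul]

lemma boxEdge_flip {β κ η g : ℝ} {J : Fin n → Fin n → ℝ} {y m : Fin n → ℝ}
    (h : BoxEdge β κ η g J y m) :
    BoxEdge β κ η g (flipJ s J) (flipV s y) (flipV s m) := by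
  refine ⟨fun i => ?_, fun S hS a => ?_⟩
  · rw [act_flip hs, onsager_flip hs]
    simp only [flipV]
    rw [show s i * y i + s i * act J m i - onsager β m * (s i * m i)
      = s i * (y i + act J m i - onsager β m * m i) by ring, tanh_flip hs, ← h.1 i]
  · have h2 := h.2 S hS (flipV s a)
    have e1 : act (flipJ s J) a = flipV s (act J (flipV s a)) := by
      rw [← act_flip hs, flipV_flipV hs]
    have e2 : ∀ i, boxTop η g (flipV s m) S i = boxTop η g m S i := fun i => by
      simp only [boxTop, flipV_sq hs]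
    simp only [fieldR] at h2
    simp only [flipV_sq hs] at h2
    simp only [fieldR, e1, onsager_flip hs, e2] at ⊢
    simp only [flipV] at h2 ⊢
    calc _ = _ := by
          congr 1
          congr 1
          · congr 1
            exact sum_congr rfl fun i _ => by ring
          · congr 1
            congr 1
            congr 1
            exact sum_congr rfl fun i _ => by ring
      _ ≤ _ := h2

lemma pilotEdge_flip {β κ η g ρ u₁ u : ℝ} {K : ℕ} {J : Fin n → Fin n → ℝ} {y : Fin n → ℝ}
    (h : PilotEdge β κ η g ρ u₁ u K J y) :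
    PilotEdge β κ η g ρ u₁ u K (flipJ s J) (flipV s y) := by
  obtain ⟨m, hm, hd⟩ := h
  exact ⟨flipV s m, boxEdge_flip hs hm, by rwa [pilot_flip hs, sum_sq_flip_sub hs]⟩

lemma pilotNear_flip {β ρ u₁ u : ℝ} {K : ℕ} {J : Fin n → Fin n → ℝ} {y x : Fin n → ℝ}
    (h : PilotNear β ρ u₁ u K J y x) :
    PilotNear β ρ u₁ u K (flipJ s J) (flipV s y) (flipV s x) := fun j hj hj' => by
  rw [ampA_flip hs, pilot_flip hs, sum_sq_flip_sub hs]
  exact h j hj hj'

omit hs in
/-- Sign changes of the coordinates preserve the Gaussian law. -/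
lemma measurePreserving_sign {κ : Type*} [Fintype κ] (c : κ → ℝ) (hc : ∀ k, c k * c k = 1) :
    MeasurePreserving (fun g : κ → ℝ => fun k => c k * g k) (gauss κ) (gauss κ) := by
  classical
  have h := gauss_map_rowMap (κ := κ) (ι := κ) (fun p k => if p = k then c p else 0)
    fun p q => by
      rcases eq_or_ne p q with rfl | hpq
      · simp [hc]
      · simp [hpq]
  have e : rowMap (fun p k : κ => if p = k then c p else 0) = fun g k => c k * g k := by
    funext g p
    simp [rowMap]
  rw [e] at h
  exact ⟨by fun_prop, h⟩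

end Vale.Agent.P150.Beta1
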