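import Vale.Agent.P150.Beta1.Fields.Interface
import Vale.Agent.P150.Beta1.Fields.Match

/-!
# The planted form of the field statement

At the all-plus configuration the couplings are shifted by `β² / n` off the diagonal and the field
is `u + √u ξ`. The pilot `pilot` is a function of couplings and field alone: `0` for small times,
the iterate from `0` otherwise. Both a TAP point with an edge and the iterates from the planted
configuration are close to it outside an exponentially small event.
-/

namespace Vale.Agent.P150.Beta1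

open MeasureTheory ProbabilityTheory Finset Real Filter
open scoped Topology

variable {n : ℕ}

/-- Couplings tilted towards the all-plus configuration. -/
noncomputable def plantJ (β : ℝ) (g : Fin n × Fin n → ℝ) : Fin n → Fin n → ℝ :=
  fun i j => skCoupling β g i j + if i = j then 0 else β ^ 2 / n

open scoped Classical in
/-- The estimate of the TAP point that only uses couplings and field. -/
noncomputable def pilot (β u₁ u : ℝ) (K : ℕ) (J : Fin n → Fin n → ℝ) (y : Fin n → ℝ) :
    Fin n → ℝ :=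
  if u < u₁ then 0 else ampA β J y 0 K

/-- A TAP point with the edge near the pilot. -/
def PilotEdge (β κ η gmax ρ u₁ u : ℝ) (K : ℕ) (J : Fin n → Fin n → ℝ) (y : Fin n → ℝ) : Prop :=
  ∃ m : Fin n → ℝ, BoxEdge β κ η gmax J y m ∧
    ∑ i, (m i - pilot β u₁ u K J y i) ^ 2 ≤ (ρ / 2) ^ 2 * n

/-- The iterates from `x` are near the pilot. -/
def PilotNear (β ρ u₁ u : ℝ) (K : ℕ) (J : Fin n → Fin n → ℝ) (y x : Fin n → ℝ) : Prop :=
  ∀ j, K ≤ j → j ≤ K + 2 →
    ∑ i, (ampA β J y x j i - pilot β u₁ u K J y i) ^ 2 ≤ (ρ / 2) ^ 2 * n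

/-- The field statement at the planted configuration. -/
def PlantedStatement (β : ℝ) : Prop :=
  ∀ T > 0, ∀ G > 0, ∃ κ > 0, ∃ η > 0, ∃ gmax ≥ G, 1 + η ≤ gmax ∧ ∀ ρ > 0, ∃ K₀ : ℕ, ∀ K ≥ K₀,
    ∃ u₁ : ℝ, ∃ c > 0, ∀ᶠ n : ℕ in atTop, ∀ u ∈ Set.Icc 0 T,
      ((gauss (Fin n × Fin n)).prod (gauss (Fin n)))
          {p | ¬PilotEdge β κ η gmax ρ u₁ u K (plantJ β p.1) (obsY u p.2)}
        ≤ ENNReal.ofReal (exp (-(c * n))) ∧
      ((gauss (Fin n × Fin n)).prod (gauss (Fin n)))
          {p | ¬PilotNear β ρ u₁ u K (plantJ β p.1) (obsY u p.2) fun _ => 1}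
        ≤ ENNReal.ofReal (exp (-(c * n)))

end Vale.Agent.P150.Beta1
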