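import Mathlib
import Vale.Agent.P150.Beta1.Words.Event
import Vale.Agent.P150.Beta1.Fields.EdgeEvent
import Vale.Agent.P150.Beta1.Fields.PlantedStatement

/-!
# The planted pair of couplings and noise from revealed vectors and a fresh array

`planMap` turns (noise, revealed vectors, fresh array) into a standard Gaussian pair (array,
noise). Sets of small diagonal and of bounded operator norm follow.
-/

namespace Vale.Agent.P150.Beta1

open MeasureTheory ProbabilityTheory Finset Real

variable {n k : ℕ}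

/-- The weight of an entry in the rotated array. -/
noncomputable def rotA (p : Fin n × Fin n) : ℝ := if p.1 = p.2 then 1 else (√2)⁻¹

/-- The weight of the transposed entry in the rotated array. -/
noncomputable def rotB (p : Fin n × Fin n) : ℝ :=
  if p.1 = p.2 then 0 else if p.1 < p.2 then (√2)⁻¹ else -(√2)⁻¹

/-- An orthogonal map of arrays: symmetrised entries above the diagonal. -/
noncomputable def rotArr (H : Fin n × Fin n → ℝ) : Fin n × Fin n → ℝ :=
  fun p => rotA p * H p + rotB p * H p.swap

lemma continuous_rotArr : Continuous (rotArr (n := n)) := by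
  unfold rotArr
  fun_prop

lemma gauss_map_rotArr : (gauss (Fin n × Fin n)).map rotArr = gauss (Fin n × Fin n) := by
  refine gauss_map_adjointInv rotArr (fun Y p => rotA p * Y p + rotB p.swap * Y p.swap)
    (fun x Y => ?_) fun Y => funext fun p => ?_
  · simp only [dot, rotArr, add_mul, mul_add, sum_add_distrib]
    congr 1
    · exact sum_congr rfl fun p _ => by ring
    · rw [← (Equiv.prodComm (Fin n) (Fin n)).sum_comp]
      refine sum_congr rfl fun p _ => ?_
      simp only [Equiv.prodComm_apply, Prod.swap_swap]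
      ring
  · have h2 : (√2)⁻¹ * (√2)⁻¹ = (1:ℝ) / 2 := by
      rw [← mul_inv, mul_self_sqrt zero_le_two, one_div]
    simp only [rotArr, rotA, rotB, Prod.swap_swap, Prod.fst_swap, Prod.snd_swap]
    rcases lt_trichotomy p.1 p.2 with h | h | h
    · rw [if_neg h.ne, if_neg h.ne, if_neg h.ne', if_neg h.ne', if_pos h, if_neg h.not_gt]
      linear_combination (2 * Y p) * h2
    · simp [h]
    · rw [if_neg h.ne', if_neg h.ne', if_neg h.ne, if_neg h.ne, if_neg h.not_gt, if_pos h]
      linear_combination (2 * Y p) * h2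

lemma plantJ_rotArr {β : ℝ} (hβ : 0 ≤ β) {τ : ℝ} (hτ : β ^ 2 = τ) (H : Fin n × Fin n → ℝ) :
    plantJ β (rotArr H) = offJ τ H := by
  funext i j
  have hs : √τ = β := by rw [← hτ, sqrt_sq hβ]
  rcases lt_trichotomy i j with h | rfl | h
  · simp only [plantJ, offJ, fullJ, skCoupling, if_pos h, if_neg h.ne, rotArr, rotA, rotB,
      Prod.swap_prod_mk, hs, hτ, div_eq_mul_inv, mul_inv]
    ring
  · simp [plantJ, offJ, skCoupling]
  · simp only [plantJ, offJ, fullJ, skCoupling, if_pos h, if_neg h.not_gt, if_neg h.ne', rotArr,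
      rotA, rotB, if_neg h.ne, if_pos h, Prod.swap_prod_mk, hs, hτ, div_eq_mul_inv, mul_inv]
    ring

lemma rotArr_diag (H : Fin n × Fin n → ℝ) (i : Fin n) : rotArr H (i, i) = H (i, i) := by
  simp [rotArr, rotA, rotB]

variable {τ u δ : ℝ} (C : Chain τ u δ k)

lemma glueC_slice (s : Set (Fin n × Fin n → ℝ)) (hs : MeasurableSet s) (ζ : Fin n → ℝ) :
    ((Measure.pi fun _ : Fin k => gauss (Fin n)).prod (gauss (Fin n × Fin n)))
        {q | glueC C ((ζ, q.1), q.2) ∈ s} = gauss (Fin n × Fin n) s := by
  have h := adaptive_law (fun z => ufam C (ζ, z)) (measurable_ufam C ζ)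
    (fun z => ufam_ortho C (ζ, z)) fun z j l w hl => ufam_past C ζ z j l w hl
  conv_rhs => rw [← h]
  have hm : Measurable fun q : (Fin k → Fin n → ℝ) × (Fin n × Fin n → ℝ) =>
      glueC C ((ζ, q.1), q.2) :=
    (measurable_glueC C).comp ((measurable_const.prodMk measurable_fst).prodMk measurable_snd)
  exact (Measure.map_apply hm hs).symm

/-- Array and noise from (noise, revealed vectors, fresh array). -/
noncomputable def planMap (p : ((Fin n → ℝ) × (Fin k → Fin n → ℝ)) × (Fin n × Fin n → ℝ)) :
    (Fin n × Fin n → ℝ) × (Fin n → ℝ) :=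
  (rotArr (glueC C p), p.1.1)

lemma measurable_planMap : Measurable (planMap C (n := n)) :=
  (continuous_rotArr.measurable.comp (measurable_glueC C)).prodMk
    (measurable_fst.comp measurable_fst)

/-- `planMap` gives a standard Gaussian pair. -/
theorem planMap_law :
    (pairLaw n k).map (planMap C) = (gauss (Fin n × Fin n)).prod (gauss (Fin n)) := by
  refine (Measure.prod_eq fun s t hs ht => ?_).symm
  rw [Measure.map_apply (measurable_planMap C) (hs.prod ht)]
  set s' := rotArr ⁻¹' s
  have hs' : MeasurableSet s' := continuous_rotArr.measurable hs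
  have hss : gauss (Fin n × Fin n) s' = gauss (Fin n × Fin n) s := by
    rw [← Measure.map_apply continuous_rotArr.measurable hs, gauss_map_rotArr]
  have hA : MeasurableSet (planMap C ⁻¹' s ×ˢ t) := measurable_planMap C (hs.prod ht)
  have hassoc : ((gauss (Fin n)).prod ((Measure.pi fun _ : Fin k => gauss (Fin n)).prod
      (gauss (Fin n × Fin n)))).map MeasurableEquiv.prodAssoc.symm = pairLaw n k := by
    rw [pairLaw, siteLaw, ← Measure.prodAssoc_prod, Measure.map_map
      MeasurableEquiv.prodAssoc.symm.measurable MeasurableEquiv.prodAssoc.measurable,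
      MeasurableEquiv.symm_comp_self, Measure.map_id]
  rw [← hassoc, Measure.map_apply MeasurableEquiv.prodAssoc.symm.measurable hA,
    Measure.prod_apply (MeasurableEquiv.prodAssoc.symm.measurable hA)]
  have e : ∀ ζ, ((Measure.pi fun _ : Fin k => gauss (Fin n)).prod (gauss (Fin n × Fin n)))
      (Prod.mk ζ ⁻¹' (MeasurableEquiv.prodAssoc.symm ⁻¹' (planMap C ⁻¹' s ×ˢ t)))
      = t.indicator (fun _ => gauss (Fin n × Fin n) s) ζ := fun ζ => by
    by_cases hζ : ζ ∈ t
    · rw [Set.indicator_of_mem hζ, ← hss, ← glueC_slice C s' hs' ζ]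
      congr 1
      ext q
      simp [planMap, s', hζ, MeasurableEquiv.prodAssoc]
    · rw [Set.indicator_of_notMem hζ]
      convert measure_empty using 2
      · ext q
        simp [planMap, hζ, MeasurableEquiv.prodAssoc]
      · infer_instance
  simp only [e]
  rw [lintegral_indicator ht, setLIntegral_const]

lemma measurePreserving_planMap :
    MeasurePreserving (planMap C) (pairLaw n k)
      ((gauss (Fin n × Fin n)).prod (gauss (Fin n))) :=
  ⟨measurable_planMap C, planMap_law C⟩

/-- The diagonal of the planted array is small. -/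
theorem diag_event {τ e : ℝ} (hτ : 0 < τ) (he : 0 < e) :
    ∃ A ≥ 0, ∃ c > 0, ∃ n₀ : ℕ, ∀ n ≥ n₀, ∀ (k : ℕ) (u δ : ℝ) (C : Chain τ u δ k),
      pairLaw n k {p | ¬DiagSmall τ e (glueC C p)} ≤ ENNReal.ofReal (A * exp (-(c * n))) := by
  set b := e ^ 2 / (8 * τ) / 4
  have hb : 0 < b := by positivity
  obtain ⟨n₁, hn₁⟩ := exists_nat_ge (2 * τ / e)
  refine ⟨2 * (2 / b), by positivity, b / 2, by positivity, max n₁ 1, fun n hn k u δ C => ?_⟩
  have hn0 : 0 < n := (le_max_right n₁ 1).trans hn
  have hn' : (0:ℝ) < n := by exact_mod_cast hn0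
  set t := √(e ^ 2 / (8 * τ) * n)
  set S : Set (Fin n × Fin n → ℝ) := ⋃ i ∈ (univ : Finset (Fin n)), {H | t < |H (i, i)|}
  have hS : MeasurableSet S :=
    (univ : Finset (Fin n)).measurableSet_biUnion fun i _ =>
      measurableSet_lt measurable_const (by fun_prop)
  have hpre : {p | ¬DiagSmall τ e (glueC C p)}
      ⊆ planMap C ⁻¹' (S ×ˢ (Set.univ : Set (Fin n → ℝ))) := by
    intro p hp
    simp only [DiagSmall, not_forall, not_le, Set.mem_ofPred_eq] at hp
    obtain ⟨i, hi⟩ := hp
    refine ⟨Set.mem_iUnion₂.2 ⟨i, mem_univ i, ?_⟩, trivial⟩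
    simp only [Set.mem_ofPred_eq, planMap, rotArr_diag]
    by_contra hc
    have hc' : |glueC C p (i, i)| ≤ t := not_lt.1 hc
    have h1 : τ / (n:ℝ) ≤ e / 2 := by
      rw [div_le_iff₀ hn']
      have h := hn₁.trans (Nat.cast_le.2 ((le_max_left n₁ 1).trans hn))
      rw [div_le_iff₀ he] at h
      linarith
    have h2 : |√τ * ((glueC C p (i, i) + glueC C p (i, i)) / (√2 * √n))| ≤ e / 2 := by
      rw [abs_mul, abs_div, abs_of_nonneg (sqrt_nonneg τ),
        abs_of_pos (show 0 < √2 * √(n:ℝ) by positivity), ← two_mul, abs_mul, abs_two]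
      refine le_trans (mul_le_mul_of_nonneg_left
        (div_le_div_of_nonneg_right (mul_le_mul_of_nonneg_left hc' zero_le_two) (by positivity))
        (sqrt_nonneg τ)) (le_of_eq ?_)
      have e1 : t = e * √(n:ℝ) / (2 * √2 * √τ) := by
        simp only [t]
        rw [sqrt_mul (by positivity), sqrt_div (sq_nonneg _), sqrt_sq he.le,
          show (8:ℝ) * τ = (2 ^ 2 * 2) * τ by norm_num, sqrt_mul (by norm_num), sqrt_mul (by norm_num),
          sqrt_sq zero_le_two]
        ring
      have h22 := mul_self_sqrt (zero_le_two (α := ℝ))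
      rw [e1]
      field_simp
      linear_combination (-1:ℝ) * h22
    have h3 : |fullJ τ (glueC C p) i i| ≤ e :=
      (abs_add_le _ _).trans (by rw [abs_of_nonneg (show 0 ≤ τ / (n:ℝ) by positivity)]; linarith)
    linarith
  refine (measure_mono hpre).trans ?_
  rw [← Measure.map_apply (measurable_planMap C) (hS.prod MeasurableSet.univ), planMap_law,
    Measure.prod_prod, measure_univ, mul_one]
  refine (measure_biUnion_finset_le _ _).trans ((sum_le_card_nsmul _ _
    (ENNReal.ofReal (2 * exp (-(b * n)))) fun i _ => ?_).trans ?_)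
  · refine (gauss_coord_tail (i, i) (sqrt_nonneg _)).trans (le_of_eq ?_)
    rw [sq_sqrt (by positivity)]
    congr 3
    simp only [b]
    ring
  · rw [card_univ, Fintype.card_fin, ← ENNReal.ofReal_nsmul, nsmul_eq_mul]
    refine ENNReal.ofReal_le_ofReal ?_
    have h1 : (n:ℝ) * (b / 2) ≤ exp (n * (b / 2)) := by linarith [add_one_le_exp ((n:ℝ) * (b / 2))]
    have h2 : (n:ℝ) ≤ 2 / b * exp (n * (b / 2)) := by
      rw [div_mul_eq_mul_div, le_div_iff₀ hb]
      linarith
    refine (mul_le_mul_of_nonneg_right h2 (by positivity)).trans (le_of_eq ?_)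
    have e2 : exp (n * (b / 2)) * exp (-(b * n)) = exp (-(b / 2 * n)) := by
      rw [← exp_add]; ring_nf
    linear_combination (2 / b * 2) * e2

/-- The bound on the operator norm of the planted couplings. -/
noncomputable def opBd (β : ℝ) : ℝ := √(Words.radSq β) + 2

lemma opBd_nonneg (β : ℝ) : 0 ≤ opBd β := add_nonneg (sqrt_nonneg _) zero_le_two

lemma vlen_act_plant {β : ℝ} {τ : ℝ} (hτ : β ^ 2 = τ) (hτ1 : τ ≤ 1) {g : Fin n × Fin n → ℝ}
    (hg : g ∈ Words.Ev β n) (a : Fin n → ℝ) : vlen (act (plantJ β g) a) ≤ opBd β * vlen a := by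
  have hτ0 : 0 ≤ τ := hτ ▸ sq_nonneg β
  have e : act (plantJ β g) a
      = act (skCoupling β g) a + (fun _ => τ / n * ∑ j, a j) + (-(τ / n)) • a := by
    funext i
    simp only [act, plantJ, hτ, Pi.add_apply, Pi.smul_apply, smul_eq_mul, add_mul, sum_add_distrib,
      mul_sum, ite_mul, zero_mul]
    rw [← sum_erase_add _ _ (mem_univ i), ← sum_erase_add (s := univ)
      (fun j => τ / n * a j) (mem_univ i), ← sum_erase_add (s := univ)
      (fun j => if i = j then 0 else τ / (n:ℝ) * a j) (mem_univ i), if_pos rfl,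
      sum_congr rfl fun j hj => if_neg (ne_of_mem_erase hj).symm]
    ring
  rw [e]
  refine (vlen_add _ _).trans ((add_le_add (vlen_add _ _) le_rfl).trans ?_)
  have h1 : vlen (act (skCoupling β g) a) ≤ √(Words.radSq β) * vlen a := by
    rw [vlen, vlen, ← sqrt_mul (by linarith [Words.one_le_radSq β])]
    refine sqrt_le_sqrt ?_
    simp only [dot, ← sq]
    exact hg a
  rcases Nat.eq_zero_or_pos n with rfl | hn
  · simp [vlen, dot]
  have hn' : (0:ℝ) < n := by exact_mod_cast hn
  have h2 : vlen (fun _ : Fin n => τ / n * ∑ j, a j) ≤ vlen a := by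
    rw [vlen_const, abs_mul, abs_of_nonneg (by positivity), Fintype.card_fin]
    have h := abs_dot_le (fun _ : Fin n => (1:ℝ)) a
    simp only [dot, one_mul, vlen_const, abs_one, Fintype.card_fin] at h
    refine (mul_le_mul_of_nonneg_right (mul_le_mul_of_nonneg_left h (by positivity))
      (sqrt_nonneg _)).trans (le_trans (le_of_eq ?_) (mul_le_of_le_one_left (vlen_nonneg a) hτ1))
    field_simp
    rw [sq_sqrt hn'.le]
  have h3 : vlen ((-(τ / n)) • a) ≤ vlen a := by
    rw [vlen_smul, abs_neg, abs_of_nonneg (by positivity)]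
    refine mul_le_of_le_one_left (vlen_nonneg a) ?_
    rw [div_le_one hn']
    have : (1:ℝ) ≤ n := by exact_mod_cast hn
    linarith
  simp only [opBd]
  linarith

/-- The operator norm is bounded. -/
theorem op_event (β : ℝ) (hn : 0 < n) :
    pairLaw n k {p | (planMap C p).1 ∉ Words.Ev β n} ≤ ENNReal.ofReal (exp (-(2 * n))) := by
  have hm : MeasurableSet ((Words.Ev β n)ᶜ ×ˢ (Set.univ : Set (Fin n → ℝ))) :=
    (Words.measurableSet_ev β n).compl.prod MeasurableSet.univ
  have e : {p | (planMap C p).1 ∉ Words.Ev β n}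
      = planMap C ⁻¹' ((Words.Ev β n)ᶜ ×ˢ (Set.univ : Set (Fin n → ℝ))) := by
    ext p; simp
  rw [e, (measurePreserving_planMap C).measure_preimage hm.nullMeasurableSet, Measure.prod_prod,
    measure_univ, mul_one]
  exact (ENNReal.le_ofReal_iff_toReal_le (measure_ne_top _ _) (exp_pos _).le).2
    (Words.gauss_ev_compl β hn)

end Vale.Agent.P150.Beta1
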