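import Mathlib
import Vale.Agent.P150.Beta1.Fields.EdgeEvent

/-!
# An approximate TAP point with an edge gives an exact one nearby

At a point with the edge on the box the TAP residual, as a function of the magnetisations, is
strongly monotone; minimising its length near the point gives a zero.
-/

namespace Vale.Agent.P150.Beta1

open Finset Real

variable {n : ℕ}

/-- The TAP residual at `γ`. -/
noncomputable def tapRes (β : ℝ) (J : Fin n → Fin n → ℝ) (y γ : Fin n → ℝ) : Fin n → ℝ :=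
  fun i => γ i + onsager β (tanhv γ) * tanh (γ i) - y i - act J (tanhv γ) i

lemma abs_sum_mul_le_sqrt (f g : Fin n → ℝ) :
    |∑ i, f i * g i| ≤ √((∑ i, f i ^ 2) * ∑ i, g i ^ 2) := by
  rw [← sqrt_sq_eq_abs]
  exact sqrt_le_sqrt (sum_mul_sq_le_sq_mul_sq univ f g)

lemma sum_sq_le_card {m : Fin n → ℝ} (hm : ∀ i, |m i| ≤ 1) : ∑ i, m i ^ 2 ≤ n := by
  refine (sum_le_sum fun i _ => ?_).trans (le_of_eq (by simp : ∑ _i : Fin n, (1:ℝ) = n))
  rw [← sq_abs]
  exact pow_le_one₀ (abs_nonneg _) (hm i)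

/-- The form at two nearby points. -/
lemma fieldR_near {β τ ρ : ℝ} (hβ : β ^ 2 = τ) (hτ : 0 ≤ τ) (hρ : 0 ≤ ρ) (hn : 0 < n)
    (J : Fin n → Fin n → ℝ) {m m' : Fin n → ℝ} (hm : ∀ i, |m i| ≤ 1) (hm' : ∀ i, |m' i| ≤ 1)
    (hd : ∑ i, (m i - m' i) ^ 2 ≤ ρ ^ 2 * n) (a : Fin n → ℝ) :
    fieldR β J m a ≤ fieldR β J m' a + 6 * τ * ρ * ∑ i, a i ^ 2 := by
  have hn' : (0:ℝ) < n := by exact_mod_cast hn
  set A := ∑ i, a i ^ 2
  have hA : 0 ≤ A := sum_nonneg fun i _ => sq_nonneg _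
  have hs : ∀ i, |m i + m' i| ≤ 2 := fun i => (abs_add_le _ _).trans (by linarith [hm i, hm' i])
  have hs2 : ∑ i, (m i + m' i) ^ 2 ≤ 4 * n := by
    refine (sum_le_sum fun i _ => ?_).trans (le_of_eq
      (by simp [mul_comm] : ∑ _i : Fin n, (4:ℝ) = 4 * n))
    rw [← sq_abs]
    exact (pow_le_pow_left₀ (abs_nonneg _) (hs i) 2).trans (by norm_num)
  have h1 : |∑ i, m i ^ 2 - ∑ i, m' i ^ 2| ≤ 2 * ρ * n := by
    rw [← sum_sub_distrib, sum_congr rfl fun i _ => (sq_sub_sq (m i) (m' i)).trans (mul_comm _ _)]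
    refine (abs_sum_mul_le_sqrt _ _).trans ?_
    rw [sqrt_le_left (by positivity)]
    refine (mul_le_mul hd hs2 (sum_nonneg fun i _ => sq_nonneg _) (by positivity)).trans
      (le_of_eq ?_)
    ring
  have h2 : (∑ i, m i * a i) ^ 2 - (∑ i, m' i * a i) ^ 2 ≤ 2 * ρ * n * A := by
    rw [sq_sub_sq, ← sum_add_distrib, ← sum_sub_distrib]
    simp only [← add_mul, ← sub_mul]
    refine (le_abs_self _).trans ?_
    rw [abs_mul]
    refine (mul_le_mul (abs_sum_mul_le_sqrt _ _) (abs_sum_mul_le_sqrt _ _) (abs_nonneg _)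
      (sqrt_nonneg _)).trans ?_
    rw [← sqrt_mul (mul_nonneg (sum_nonneg fun i _ => sq_nonneg _) hA),
      sqrt_le_left (by positivity)]
    refine (mul_le_mul (mul_le_mul_of_nonneg_right hs2 hA) (mul_le_mul_of_nonneg_right hd hA)
      (mul_nonneg (sum_nonneg fun i _ => sq_nonneg _) hA) (by positivity)).trans (le_of_eq ?_)
    ring
  have h3 : -(τ * (1 - (∑ i, m i ^ 2) / n) * A)
      ≤ -(τ * (1 - (∑ i, m' i ^ 2) / n) * A) + 2 * τ * ρ * A := by
    have h := mul_le_mul_of_nonneg_left ((abs_le.1 h1).2) (mul_nonneg hτ hA)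
    have e : τ * A * (∑ i, m i ^ 2 - ∑ i, m' i ^ 2) / n
        = τ * A * ((∑ i, m i ^ 2) / n) - τ * A * ((∑ i, m' i ^ 2) / n) := by ring
    have h' := div_le_div_of_nonneg_right h hn'.le
    rw [e, show τ * A * (2 * ρ * n) / n = τ * A * (2 * ρ) by field_simp] at h'
    linarith
  have h4 : 2 * τ * (∑ i, m i * a i) ^ 2 / n ≤ 2 * τ * (∑ i, m' i * a i) ^ 2 / n + 4 * τ * ρ * A := by
    have h := mul_le_mul_of_nonneg_left h2 (show 0 ≤ 2 * τ / n by positivity)
    rw [show 2 * τ / (n:ℝ) * (2 * ρ * n * A) = 4 * τ * ρ * A by field_simp; ring] at h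
    linarith [show 2 * τ * (∑ i, m i * a i) ^ 2 / n - 2 * τ * (∑ i, m' i * a i) ^ 2 / n
      = 2 * τ / n * ((∑ i, m i * a i) ^ 2 - (∑ i, m' i * a i) ^ 2) by ring]
  simp only [fieldR, onsager, qav, avg, hβ, Fintype.card_fin]
  linarith

/-- The edge moves with the point. -/
lemma NodeEdge.transfer {β τ κ η G ρ : ℝ} {J : Fin n → Fin n → ℝ} {m m' : Fin n → ℝ}
    (h : NodeEdge β κ η G J m') (hβ : β ^ 2 = τ) (hτ : 0 ≤ τ) (hρ : 0 ≤ ρ) (hn : 0 < n)
    (hη : 0 < η) (hG : 1 + η ≤ G) (hρη : 32 * ρ ^ 2 ≤ η ^ 3) (hρκ : 12 * τ * ρ ≤ κ)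
    (hm : ∀ i, |m i| ≤ 1) (hm' : ∀ i, |m' i| ≤ 1) (hd : ∑ i, (m i - m' i) ^ 2 ≤ ρ ^ 2 * n) :
    NodeEdge β (κ / 2) (η / 2) G J m := by
  intro S hS a
  set E := univ.filter fun i => η / 4 < |m i - m' i|
  have hE : (E.card : ℝ) ≤ η / 2 * n := by
    have h1 : (E.card : ℝ) * (η / 4) ^ 2 ≤ ρ ^ 2 * n := by
      refine le_trans ?_ ((sum_le_univ_sum_of_nonneg (s := E) fun i => sq_nonneg _).trans hd)
      rw [← nsmul_eq_mul]
      refine card_nsmul_le_sum E _ _ fun i hi => ?_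
      rw [← sq_abs (m i - m' i)]
      exact pow_le_pow_left₀ (by positivity) (mem_filter.1 hi).2.le 2
    have h2 : (E.card : ℝ) * (η / 4) ^ 2 ≤ η / 2 * n * (η / 4) ^ 2 := by
      refine h1.trans ?_
      have := mul_le_mul_of_nonneg_right hρη (Nat.cast_nonneg (α := ℝ) n)
      linarith
    exact le_of_mul_le_mul_right h2 (by positivity)
  have hS' : ((S ∪ E).card : ℝ) ≤ η * n := by
    have : ((S ∪ E).card : ℝ) ≤ S.card + E.card := by exact_mod_cast card_union_le S E
    linarith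
  have hA : 0 ≤ ∑ i, a i ^ 2 := sum_nonneg fun i _ => sq_nonneg _
  have hbox : ∑ i, a i ^ 2 / boxTop η G m' (S ∪ E) i ≤ ∑ i, a i ^ 2 / boxTop (η / 2) G m S i := by
    refine sum_le_sum fun i _ => div_le_div_of_nonneg_left (sq_nonneg _) ?_ ?_
    · simp only [boxTop]
      split_ifs
      · linarith
      · have := sq_le_one_iff_abs_le_one (m i) |>.2 (hm i)
        linarith
    · have hmm := sq_le_one_iff_abs_le_one (m i) |>.2 (hm i)
      simp only [boxTop, mem_union]
      by_cases hi : i ∈ S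
      · simp [hi]
      by_cases hiE : i ∈ E
      · simp only [hi, hiE, or_true, if_true, if_false]
        linarith [sq_nonneg (m i)]
      · simp only [hi, hiE, or_self, if_false]
        have h1 : |m i - m' i| ≤ η / 4 := le_of_not_gt fun hc => hiE (mem_filter.2 ⟨mem_univ i, hc⟩)
        have h2 : |m i ^ 2 - m' i ^ 2| ≤ η / 2 := by
          rw [sq_sub_sq, abs_mul]
          refine (mul_le_mul ((abs_add_le _ _).trans (add_le_add (hm i) (hm' i))) h1 (abs_nonneg _)
            (by norm_num)).trans (by linarith)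
        linarith [(abs_le.1 h2).1]
  have := fieldR_near hβ hτ hρ hn J hm hm' hd a
  have := h (S ∪ E) hS' a
  have := mul_le_mul_of_nonneg_right hρκ hA
  linarith

/-- The edge at `0` serves all points of small norm. -/
lemma NodeEdge.of_zero {β τ κ η G q : ℝ} {J : Fin n → Fin n → ℝ} {m : Fin n → ℝ}
    (h : NodeEdge β κ η G J fun _ => 0) (hβ : β ^ 2 = τ) (hτ : 0 ≤ τ) (hn : 0 < n)
    (hη : 0 < η) (hG : 0 < G) (hm : ∀ i, |m i| ≤ 1) (hq : ∑ i, m i ^ 2 ≤ q * n) :
    NodeEdge β (κ - 3 * τ * q) η G J m := by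
  intro S hS a
  have hn' : (0:ℝ) < n := by exact_mod_cast hn
  have h1 := h S hS a
  have hA : 0 ≤ ∑ i, a i ^ 2 := sum_nonneg fun i _ => sq_nonneg _
  have hbox : ∑ i, a i ^ 2 / boxTop η G (fun _ => 0) S i ≤ ∑ i, a i ^ 2 / boxTop η G m S i := by
    refine sum_le_sum fun i _ => div_le_div_of_nonneg_left (sq_nonneg _) ?_ ?_
    · simp only [boxTop]
      split_ifs
      · exact hG
      · have := sq_le_one_iff_abs_le_one (m i) |>.2 (hm i)
        linarith
    · simp only [boxTop]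
      split_ifs <;> linarith [sq_nonneg (m i)]
  have h2 : (∑ i, m i * a i) ^ 2 / n ≤ q * ∑ i, a i ^ 2 := by
    rw [div_le_iff₀ hn']
    refine (sum_mul_sq_le_sq_mul_sq univ m a).trans ?_
    rw [mul_right_comm]
    exact mul_le_mul_of_nonneg_right hq hA
  have h3 : (∑ i, m i ^ 2) / n ≤ q := by rwa [div_le_iff₀ hn']
  have h4 := mul_le_mul_of_nonneg_left h2 hτ
  have h5 := mul_le_mul_of_nonneg_right (mul_le_mul_of_nonneg_left h3 hτ) hA
  simp only [fieldR, onsager, qav, avg, hβ, Fintype.card_fin, zero_mul, sum_const_zero, ne_eq,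
    OfNat.ofNat_ne_zero, not_false_eq_true, zero_pow, mul_zero, zero_div, sub_zero, mul_one,
    add_zero] at h1 ⊢
  set A := ∑ i, a i ^ 2
  have e1 : τ * (1 - (∑ i, m i ^ 2) / n) * A = τ * A - τ * ((∑ i, m i ^ 2) / n) * A := by ring
  have e2 : 2 * τ * (∑ i, m i * a i) ^ 2 / n = 2 * (τ * ((∑ i, m i * a i) ^ 2 / n)) := by ring
  rw [e1, e2, sub_mul]
  linarith

/-- A difference of `tanh` is a difference of arguments times a variance between the two. -/
lemma tanh_slope (x z : ℝ) : ∃ w, 0 < w ∧ w ≤ 1 ∧ tanh x - tanh z = w * (x - z) ∧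
    w ≤ 1 - tanh z ^ 2 + 2 * |tanh x - tanh z| := by
  have key : ∀ p, p ∈ Set.uIcc x z → 1 - tanh p ^ 2 ≤ 1 - tanh z ^ 2 + 2 * |tanh x - tanh z| := by
    intro p hp
    have h1 : |tanh p - tanh z| ≤ |tanh x - tanh z| := by
      rcases le_total x z with hxz | hxz
      · rw [Set.uIcc_of_le hxz] at hp
        rw [abs_of_nonpos (by linarith [tanh_le_tanh hp.2]),
          abs_of_nonpos (by linarith [tanh_le_tanh hxz])]
        linarith [tanh_le_tanh hp.1]
      · rw [Set.uIcc_of_ge hxz] at hp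
        rw [abs_of_nonneg (by linarith [tanh_le_tanh hp.1]),
          abs_of_nonneg (by linarith [tanh_le_tanh hxz])]
        linarith [tanh_le_tanh hp.2]
    have h2 : |tanh z ^ 2 - tanh p ^ 2| ≤ 2 * |tanh p - tanh z| := by
      rw [sq_sub_sq, abs_mul, abs_sub_comm (tanh z)]
      exact mul_le_mul_of_nonneg_right
        ((abs_add_le _ _).trans (by linarith [abs_tanh_le_one z, abs_tanh_le_one p])) (abs_nonneg _)
    linarith [(abs_le.1 h2).2]
  have fin : ∀ p, p ∈ Set.uIcc x z → tanh x - tanh z = (1 - tanh p ^ 2) * (x - z) →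
      ∃ w, 0 < w ∧ w ≤ 1 ∧ tanh x - tanh z = w * (x - z) ∧
        w ≤ 1 - tanh z ^ 2 + 2 * |tanh x - tanh z| := fun p hp he =>
    ⟨1 - tanh p ^ 2, sub_pos.2 (tanh_sq_lt_one p), sub_le_self _ (sq_nonneg _), he, key p hp⟩
  rcases lt_trichotomy x z with h | rfl | h
  · obtain ⟨p, hp, he⟩ := exists_hasDerivAt_eq_slope tanh (fun p => 1 - tanh p ^ 2) h
      continuous_tanh_real.continuousOn fun p _ => hasDerivAt_tanh p
    refine fin p (Set.Icc_subset_uIcc ⟨hp.1.le, hp.2.le⟩) ?_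
    rw [he, div_mul_eq_mul_div, eq_div_iff (sub_ne_zero.2 h.ne')]
    ring
  · exact fin x Set.left_mem_uIcc (by simp)
  · obtain ⟨p, hp, he⟩ := exists_hasDerivAt_eq_slope tanh (fun p => 1 - tanh p ^ 2) h
      continuous_tanh_real.continuousOn fun p _ => hasDerivAt_tanh p
    refine fin p (Set.Icc_subset_uIcc' ⟨hp.1.le, hp.2.le⟩) ?_
    rw [he, div_mul_cancel₀ _ (sub_ne_zero.2 h.ne')]

/-- Strong monotonicity of the residual. -/
lemma tapRes_mono {β τ κ η G ρ : ℝ} {J : Fin n → Fin n → ℝ} {y γ γ' : Fin n → ℝ}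
    (h : NodeEdge β κ η G J (tanhv γ')) (hβ : β ^ 2 = τ) (hτ : 0 ≤ τ) (hρ : 0 ≤ ρ) (hρ1 : ρ ≤ 1)
    (hn : 0 < n) (hη : 0 < η) (hG : 1 + η ≤ G) (hρη : 4 * ρ ^ 2 ≤ η ^ 3) (hρκ : 8 * τ * ρ ≤ κ)
    (hd : ∑ i, (tanh (γ i) - tanh (γ' i)) ^ 2 ≤ ρ ^ 2 * n) :
    κ / 2 * ∑ i, (tanh (γ i) - tanh (γ' i)) ^ 2
      ≤ ∑ i, (tapRes β J y γ i - tapRes β J y γ' i) * (tanh (γ i) - tanh (γ' i)) := by
  classical
  have hn' : (0:ℝ) < n := by exact_mod_cast hn
  set d := fun i => tanh (γ i) - tanh (γ' i)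
  set m' := tanhv γ'
  set S := univ.filter fun i => η / 2 < |d i|
  have hS : (S.card : ℝ) ≤ η * n := by
    have h1 : (S.card : ℝ) * (η / 2) ^ 2 ≤ ρ ^ 2 * n := by
      refine le_trans ?_ ((sum_le_univ_sum_of_nonneg (s := S) fun i => sq_nonneg _).trans hd)
      rw [← nsmul_eq_mul]
      refine card_nsmul_le_sum S _ _ fun i hi => ?_
      show _ ≤ d i ^ 2
      rw [← sq_abs (d i)]
      exact pow_le_pow_left₀ (by positivity) (mem_filter.1 hi).2.le 2
    have h2 : (S.card : ℝ) * (η / 2) ^ 2 ≤ η * n * (η / 2) ^ 2 := by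
      have := mul_le_mul_of_nonneg_right hρη (Nat.cast_nonneg (α := ℝ) n)
      linarith
    exact le_of_mul_le_mul_right h2 (by positivity)
  have h1 := h S hS d
  have hsite : ∑ i, d i ^ 2 / boxTop η G m' S i ≤ ∑ i, (γ i - γ' i) * d i := by
    refine sum_le_sum fun i _ => ?_
    obtain ⟨w, hw0, hw1, he, hwv⟩ := tanh_slope (γ i) (γ' i)
    have hwt : w ≤ boxTop η G m' S i := by
      simp only [boxTop]
      split_ifs with hi
      · linarith
      · have h3 : |d i| ≤ η / 2 := le_of_not_gt fun hc => hi (mem_filter.2 ⟨mem_univ i, hc⟩)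
        simp only [d, m', tanhv] at h3 ⊢
        linarith
    refine (div_le_div_of_nonneg_left (sq_nonneg _) hw0 hwt).trans (le_of_eq ?_)
    simp only [d, he]
    field_simp
  set D := ∑ i, d i ^ 2
  set x := ∑ i, m' i * d i
  have hD : 0 ≤ D := sum_nonneg fun i _ => sq_nonneg _
  have hx : |x| ≤ ρ * n := by
    refine (abs_sum_mul_le_sqrt _ _).trans ?_
    rw [sqrt_le_left (by positivity)]
    refine (mul_le_mul (sum_sq_le_card fun i => abs_tanh_le_one _) hd hD (by positivity)).trans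
      (le_of_eq ?_)
    ring
  have em : ∀ i, tanh (γ i) = m' i + d i := fun i => by simp [m', d, tanhv]
  have hres : ∑ i, (tapRes β J y γ i - tapRes β J y γ' i) * d i
      = (∑ i, (γ i - γ' i) * d i) - (∑ i, d i * act J d i) + onsager β m' * D
        - τ * (2 * x + D) * (x + D) / n := by
    have eJ : ∀ i, act J (tanhv γ) i = act J m' i + act J d i := fun i => by
      simp only [act, tanhv, em, mul_add, sum_add_distrib]
    have eB : onsager β (tanhv γ) = onsager β m' - τ * (2 * x + D) / n := by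
      simp only [onsager, qav, avg, hβ, Fintype.card_fin, x, D, tanhv, em, mul_sum]
      rw [← sum_add_distrib, sum_congr rfl fun i _ => (add_sq (m' i) (d i)).trans
        (show m' i ^ 2 + 2 * m' i * d i + d i ^ 2 = m' i ^ 2 + (2 * (m' i * d i) + d i ^ 2) by ring),
        sum_add_distrib]
      ring
    have hterm : ∀ i, (tapRes β J y γ i - tapRes β J y γ' i) * d i
        = (γ i - γ' i) * d i - d i * act J d i + onsager β m' * d i ^ 2
          - τ * (2 * x + D) / n * (m' i * d i + d i ^ 2) := fun i => by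
      simp only [tapRes, eJ, eB, em, show tanhv γ' = m' from rfl,
        show tanh (γ' i) = m' i from rfl]
      ring
    simp only [hterm, sum_add_distrib, sum_sub_distrib, ← mul_sum]
    ring
  have hrest : τ * (2 * x + D) * (x + D) / n ≤ 2 * τ * x ^ 2 / n + 4 * τ * ρ * D := by
    have hb : 3 * x + D ≤ 4 * ρ * n := by
      have h4 : D ≤ ρ * n := hd.trans (mul_le_mul_of_nonneg_right (by
        rw [sq]; exact mul_le_of_le_one_left hρ hρ1) hn'.le)
      linarith [(abs_le.1 hx).2]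
    have h5 := mul_le_mul_of_nonneg_left hb (mul_nonneg hτ hD)
    rw [div_le_iff₀ hn', add_mul, div_mul_cancel₀ _ hn'.ne']
    linarith
  simp only [fieldR, hβ, Fintype.card_fin] at h1
  rw [hres]
  have := mul_le_mul_of_nonneg_right hρκ hD
  linarith

/-- The residual along a line. -/
lemma hasDerivAt_tapRes {β τ : ℝ} (hβ : β ^ 2 = τ) (J : Fin n → Fin n → ℝ) (y γ w : Fin n → ℝ)
    (i : Fin n) :
    HasDerivAt (fun t : ℝ => tapRes β J y (fun j => γ j + t * w j) i)
      (w i + onsager β (tanhv γ) * ((1 - tanh (γ i) ^ 2) * w i)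
        - 2 * τ / n * (∑ j, tanh (γ j) * ((1 - tanh (γ j) ^ 2) * w j)) * tanh (γ i)
        - ∑ j, J i j * ((1 - tanh (γ j) ^ 2) * w j)) 0 := by
  have hl : ∀ j, HasDerivAt (fun t : ℝ => γ j + t * w j) (w j) 0 := fun j => by
    simpa using ((hasDerivAt_id (0:ℝ)).mul_const (w j)).const_add (γ j)
  have ht : ∀ j, HasDerivAt (fun t : ℝ => tanh (γ j + t * w j)) ((1 - tanh (γ j) ^ 2) * w j) 0 :=
    fun j => (hasDerivAt_tanh (γ j)).comp_of_eq 0 (hl j) (by simp)
  have hB : HasDerivAt (fun t : ℝ => τ * (1 - (∑ j, tanh (γ j + t * w j) ^ 2) / n))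
      (-(2 * τ / n * ∑ j, tanh (γ j) * ((1 - tanh (γ j) ^ 2) * w j))) 0 := by
    refine ((((HasDerivAt.fun_sum fun j _ => (ht j).fun_pow 2).div_const (n:ℝ)).const_sub
      1).const_mul τ).congr_deriv ?_
    simp only [zero_mul, add_zero, mul_sum, ← sum_neg_distrib, sum_div]
    exact sum_congr rfl fun j _ => by push_cast; ring
  have hJ : HasDerivAt (fun t : ℝ => ∑ j, J i j * tanh (γ j + t * w j))
      (∑ j, J i j * ((1 - tanh (γ j) ^ 2) * w j)) 0 :=
    HasDerivAt.fun_sum fun j _ => (ht j).const_mul (J i j)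
  simp only [tapRes, onsager, qav, avg, tanhv, act, hβ, Fintype.card_fin]
  refine (((hl i).add (hB.mul (ht i))).sub_const (y i)).sub hJ |>.congr_deriv ?_
  simp only [zero_mul, add_zero]
  ring

/-- A zero of the residual near a point with the edge and a small residual. -/
theorem tap_root {β τ κ η G ρ e : ℝ} {J : Fin n → Fin n → ℝ} {y γ' : Fin n → ℝ}
    (h : NodeEdge β κ η G J (tanhv γ')) (hβ : β ^ 2 = τ) (hτ : 0 ≤ τ) (hκ : 0 < κ) (hρ : 0 < ρ)
    (hρ1 : ρ ≤ 1) (hn : 0 < n) (hη : 0 < η) (hG : 1 + η ≤ G) (hρη : 32 * ρ ^ 2 ≤ η ^ 3)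
    (hρκ : 12 * τ * ρ ≤ κ) (he0 : 0 ≤ e) (he : 4 * e < κ * ρ)
    (hres : ∑ i, tapRes β J y γ' i ^ 2 ≤ e ^ 2 * n) :
    ∃ m, BoxEdge β (κ / 2) (η / 2) G J y m ∧ ∑ i, (m i - tanh (γ' i)) ^ 2 ≤ ρ ^ 2 * n := by
  have hn' : (0:ℝ) < n := by exact_mod_cast hn
  set R : (Fin n → ℝ) → ℝ := fun γ => ∑ i, tapRes β J y γ i ^ 2
  set Q : (Fin n → ℝ) → ℝ := fun γ => ∑ i, (tanh (γ i) - tanh (γ' i)) ^ 2
  have ht := continuous_tanh_real
  have hRc : Continuous R := by
    simp only [R, tapRes, onsager, qav, avg, act, tanhv]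
    fun_prop
  have hQc : Continuous Q := by
    simp only [Q]
    fun_prop
  set A : Set (Fin n → ℝ) := {γ | Q γ ≤ ρ ^ 2 * n} ∩ {γ | R γ ≤ R γ'}
  have hA' : γ' ∈ A := ⟨by simp [Q]; positivity, le_refl (R γ')⟩
  have hcpt : IsCompact A := by
    set M := fun i => √(R γ') + τ + |y i| + ∑ j, |J i j|
    refine Metric.isCompact_of_isClosed_isBounded
      ((isClosed_le hQc continuous_const).inter (isClosed_le hRc continuous_const))
      ((Bornology.IsBounded.pi fun i => Metric.isBounded_Icc (-M i) (M i)).subset fun γ hγ => ?_)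
    intro i _
    rw [Set.mem_Icc, ← abs_le]
    have h1 : |tapRes β J y γ i| ≤ √(R γ') := by
      rw [← sqrt_sq_eq_abs]
      refine sqrt_le_sqrt (le_trans ?_ hγ.2)
      exact single_le_sum (f := fun i => tapRes β J y γ i ^ 2) (fun i _ => sq_nonneg _) (mem_univ i)
    have h2 : |onsager β (tanhv γ) * tanh (γ i)| ≤ τ := by
      rw [abs_mul]
      refine (mul_le_mul ?_ (abs_tanh_le_one _) (abs_nonneg _) hτ).trans (le_of_eq (mul_one τ))
      simp only [onsager, qav, avg, hβ, Fintype.card_fin, tanhv]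
      rw [abs_mul, abs_of_nonneg hτ]
      refine mul_le_of_le_one_right hτ ?_
      have h5 := sum_sq_le_card (m := fun i => tanh (γ i)) fun i => abs_tanh_le_one _
      have h6 : (∑ i, tanh (γ i) ^ 2) / (n:ℝ) ≤ 1 := by rw [div_le_one hn']; exact h5
      rw [abs_of_nonneg (by linarith)]
      exact sub_le_self _ (by positivity)
    have h3 : |act J (tanhv γ) i| ≤ ∑ j, |J i j| := by
      refine (abs_sum_le_sum_abs _ _).trans (sum_le_sum fun j _ => ?_)
      rw [abs_mul]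
      exact mul_le_of_le_one_right (abs_nonneg _) (abs_tanh_le_one _)
    simp only [tapRes] at h1
    simp only [M]
    rw [abs_le] at h1 h2 h3 ⊢
    constructor <;> linarith [neg_abs_le (y i), le_abs_self (y i)]
  obtain ⟨γ, hγ, hmin⟩ := hcpt.exists_isMinOn ⟨γ', hA'⟩ hRc.continuousOn
  set D := Q γ
  have hD0 : 0 ≤ D := sum_nonneg fun i _ => sq_nonneg _
  have hmono := tapRes_mono (y := y) h hβ hτ hρ.le hρ1 hn hη hG
    (by linarith [sq_nonneg ρ]) (by linarith [mul_nonneg hτ hρ.le]) hγ.1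
  have hint : D < ρ ^ 2 * n := by
    by_contra hc
    have hDeq : D = ρ ^ 2 * n := le_antisymm hγ.1 (not_lt.1 hc)
    have h4 : ∑ i, (tapRes β J y γ i - tapRes β J y γ' i) * (tanh (γ i) - tanh (γ' i))
        ≤ 2 * e * ρ * n := by
      refine (le_abs_self _).trans ((abs_sum_mul_le_sqrt _ _).trans ?_)
      rw [sqrt_le_left (by positivity)]
      have h5 : ∑ i, (tapRes β J y γ i - tapRes β J y γ' i) ^ 2 ≤ 4 * e ^ 2 * n := by
        refine (sum_le_sum (g := fun i => 2 * tapRes β J y γ i ^ 2 + 2 * tapRes β J y γ' i ^ 2)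
          fun i _ => ?_).trans ?_
        · linarith [sq_nonneg (tapRes β J y γ i + tapRes β J y γ' i)]
        · rw [sum_add_distrib, ← mul_sum, ← mul_sum]
          have h6 : R γ ≤ R γ' := hγ.2
          simp only [R] at h6
          linarith
      exact (mul_le_mul h5 hγ.1 hD0 (by positivity)).trans (le_of_eq (by ring))
    have hDs : ∑ i, (tanh (γ i) - tanh (γ' i)) ^ 2 = ρ ^ 2 * n := hDeq
    rw [hDs] at hmono
    have := mul_lt_mul_of_pos_right he (mul_pos hρ hn')
    linarith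
  have hm1 : ∀ i, |tanhv γ i| ≤ 1 := fun i => abs_tanh_le_one _
  have hedge := h.transfer hβ hτ hρ.le hn hη hG hρη hρκ hm1 (fun i => abs_tanh_le_one _) hγ.1
  have hzero : ∀ i, tapRes β J y γ i = 0 := by
    set r := tapRes β J y γ
    set w := fun i => r i / (1 - tanh (γ i) ^ 2)
    have hv : ∀ j, (1 - tanh (γ j) ^ 2) * w j = r j := fun j => by
      simp only [w]
      rw [mul_div_cancel₀ _ (sub_ne_zero.2 (tanh_sq_lt_one (γ j)).ne')]
    have hder : HasDerivAt (fun t : ℝ => R fun j => γ j + t * w j)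
        (∑ i, 2 * r i * (w i + onsager β (tanhv γ) * r i
          - 2 * τ / n * (∑ j, tanh (γ j) * r j) * tanh (γ i) - ∑ j, J i j * r j)) 0 := by
      refine (HasDerivAt.fun_sum fun i _ =>
        (hasDerivAt_tapRes hβ J y γ w i).fun_pow 2).congr_deriv (sum_congr rfl fun i _ => ?_)
      simp only [hv, zero_mul, add_zero, r]
      push_cast
      ring
    have hline : Continuous fun t : ℝ => fun j => γ j + t * w j := by fun_prop
    have hloc : IsLocalMin (fun t : ℝ => R fun j => γ j + t * w j) 0 := by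
      have hev : ∀ᶠ t : ℝ in nhds 0, Q (fun j => γ j + t * w j) < ρ ^ 2 * n :=
        (isOpen_lt (hQc.comp hline) continuous_const).mem_nhds (by simpa using hint)
      refine hev.mono fun t ht' => ?_
      simp only [zero_mul, add_zero]
      rcases le_or_gt (R fun j => γ j + t * w j) (R γ') with hc | hc
      · exact hmin ⟨ht'.le, hc⟩
      · exact (show R γ ≤ R γ' from hγ.2).trans hc.le
    have h0 := hloc.hasDerivAt_eq_zero hder
    have he2 := hedge ∅ (by simp; positivity) r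
    have hbox : ∑ i, r i ^ 2 / boxTop (η / 2) G (tanhv γ) ∅ i ≤ ∑ i, r i * w i := by
      refine sum_le_sum fun i _ => ?_
      simp only [boxTop, notMem_empty, if_false, tanhv, w, mul_div_assoc', ← sq]
      exact div_le_div_of_nonneg_left (sq_nonneg _) (sub_pos.2 (tanh_sq_lt_one _)) (by linarith)
    have hexp : ∑ i, 2 * r i * (w i + onsager β (tanhv γ) * r i
          - 2 * τ / n * (∑ j, tanh (γ j) * r j) * tanh (γ i) - ∑ j, J i j * r j)
        = 2 * ((∑ i, r i * w i) - fieldR β J (tanhv γ) r) := by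
      have hterm : ∀ i, 2 * r i * (w i + onsager β (tanhv γ) * r i
          - 2 * τ / n * (∑ j, tanh (γ j) * r j) * tanh (γ i) - ∑ j, J i j * r j)
          = 2 * (r i * w i) + 2 * onsager β (tanhv γ) * r i ^ 2
            - 4 * τ / n * (∑ j, tanh (γ j) * r j) * (tanh (γ i) * r i) - 2 * (r i * act J r i) :=
        fun i => by simp only [act]; ring
      simp only [hterm, sum_add_distrib, sum_sub_distrib, ← mul_sum, fieldR, hβ,
        Fintype.card_fin, tanhv]
      ring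
    rw [hexp] at h0
    have h7 : κ / 2 * ∑ i, r i ^ 2 ≤ 0 := by linarith
    have h8 : ∑ i, r i ^ 2 = 0 :=
      le_antisymm (nonpos_of_mul_nonpos_right h7 (by linarith)) (sum_nonneg fun i _ => sq_nonneg _)
    exact fun i => sq_eq_zero_iff.1
      ((sum_eq_zero_iff_of_nonneg fun i _ => sq_nonneg (r i)).1 h8 i (mem_univ i))
  refine ⟨tanhv γ, ⟨fun i => ?_, fun S hS => hedge S (by simpa using hS)⟩, hγ.1⟩
  have := hzero i
  simp only [tapRes] at this
  simp only [tanhv] at this ⊢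
  congr 1
  linarith

end Vale.Agent.P150.Beta1
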