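import Mathlib
import Vale.Agent.P150.Beta1.Fields.Root
import Vale.Agent.P150.Beta1.Fields.Law

/-!
# From the state-evolution image to the pilot

On the events of the chain the last node from `0` carries a TAP point with the edge, and both the
iterate from `0` and the iterates from the all-plus configuration are near it.
-/

namespace Vale.Agent.P150.Beta1

open Finset Real MeasureTheory

variable {n k : ℕ}

lemma NodeEdge.mono {β κ κ' η G : ℝ} {J : Fin n → Fin n → ℝ} {m : Fin n → ℝ}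
    (h : NodeEdge β κ η G J m) (hκ : κ' ≤ κ) : NodeEdge β κ' η G J m := fun S hS a => by
  have := mul_le_mul_of_nonneg_right hκ (sum_nonneg fun i (_ : i ∈ univ) => sq_nonneg (a i))
  have := h S hS a
  linarith

lemma sum_sq_eq_vlen (hn : 0 < n) (a : Fin n → ℝ) :
    ∑ i, a i ^ 2 = n * vlen ((√n)⁻¹ • a) ^ 2 := by
  have hn' : (0:ℝ) < n := by exact_mod_cast hn
  rw [vlen_sq, smul_dot, dot_smul, ← mul_assoc, ← mul_assoc, mul_assoc (n:ℝ), ← mul_inv,
    mul_self_sqrt hn'.le, mul_inv_cancel₀ hn'.ne', one_mul]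
  simp only [dot, sq]

lemma vlen_le_of_sum_sq (hn : 0 < n) {a : Fin n → ℝ} {r : ℝ} (hr : 0 ≤ r)
    (h : ∑ i, a i ^ 2 ≤ r ^ 2 * n) : vlen ((√n)⁻¹ • a) ≤ r := by
  rw [sum_sq_eq_vlen hn, mul_comm (r ^ 2)] at h
  exact (pow_le_pow_iff_left₀ (vlen_nonneg _) hr two_ne_zero).1
    (le_of_mul_le_mul_left h (Nat.cast_pos.2 hn))

lemma sum_sq_le_of_vlen (hn : 0 < n) {a : Fin n → ℝ} {r : ℝ} (h : vlen ((√n)⁻¹ • a) ≤ r) :
    ∑ i, a i ^ 2 ≤ r ^ 2 * n := by
  rw [sum_sq_eq_vlen hn, mul_comm (r ^ 2)]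
  exact mul_le_mul_of_nonneg_left (pow_le_pow_left₀ (vlen_nonneg _) h 2) (Nat.cast_nonneg _)

lemma vlen_triangle {ι : Type*} [Fintype ι] (a b c : ι → ℝ) :
    vlen (a - c) ≤ vlen (a - b) + vlen (b - c) := by
  rw [← sub_add_sub_cancel a b c]
  exact vlen_add _ _

variable {τ u δ : ℝ} {C : Chain τ u δ k}

lemma nodeVal_scaled (j : ℕ) (ω : (Fin n → ℝ) × (Fin k → Fin n → ℝ)) :
    (√n)⁻¹ • nodeVal C j ω = nvec C ω j := by
  funext i
  simp [nodeVal, nvec, div_eq_inv_mul]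

lemma nodeVal_none (ω : (Fin n → ℝ) × (Fin k → Fin n → ℝ)) :
    nodeVal C k ω = fun _ => 0 := by
  funext i
  have := C.kpos
  simp [nodeVal, mnode, this.ne']

lemma vlen_nvec_le {η : ℝ} {ω : (Fin n → ℝ) × (Fin k → Fin n → ℝ)} (S : NodeStats C η ω) {j : ℕ}
    (hj : j < k) : vlen (nvec C ω j) ≤ √(C.q j + η) := by
  have h := (abs_le.1 (S.mm j hj j hj)).2
  rw [min_self] at h
  exact sqrt_le_sqrt (by linarith)

/-- The magnetisations of the iterates from the configuration. -/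
lemma desc_follows {β ea : ℝ} {K : ℕ} (hk : K + 3 ≤ k)
    (hdesc : ∀ l, 0 < l → l ≤ K + 2 → C.par l = l - 1)
    {ω : (Fin n → ℝ) × (Fin k → Fin n → ℝ)} {J : Fin n → Fin n → ℝ}
    (hfol : ∀ (s : ℕ → ℕ), (s 0 = 0 ∨ s 0 = k) →
      (∀ l < K + 2, 0 < s (l + 1) ∧ s (l + 1) < k ∧ C.par (s (l + 1)) = s l) →
      ∀ l ≤ K + 2, vlen ((√n)⁻¹ • ampA β J (obsY u ω.1)
          (fun _ => if s 0 = 0 then 1 else 0) l - nvec C ω (s l)) ≤ ea)
    {l : ℕ} (hl : l ≤ K + 2) :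
    vlen ((√n)⁻¹ • ampA β J (obsY u ω.1) (fun _ => 1) l - nvec C ω l) ≤ ea := by
  have h := hfol (fun l => l) (Or.inl rfl) (fun m hm => ⟨m.succ_pos, by omega, ?_⟩) l hl
  · simpa using h
  · rw [hdesc (m + 1) m.succ_pos (by omega), Nat.add_sub_cancel]

/-- The residual at a node as a sum of squares. -/
lemma tapRes_node_le {β e : ℝ} {J : Fin n → Fin n → ℝ} {Λ d : ℝ}
    {ω : (Fin n → ℝ) × (Fin k → Fin n → ℝ)} (hn : 0 < n) (hβ : β ^ 2 = τ) (hτ : 0 ≤ τ)
    (hτ1 : τ ≤ 1) (hu : 0 ≤ u) (H : ImageNear C J Λ e ω) {j : ℕ} (hj0 : 0 < j) (hj : j < k)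
    (hp : C.par j < k)
    (hd : Λ * vlen (nvec C ω j - nvec C ω (C.par j))
      + vlen (nvec C ω (C.par (C.par j)) - nvec C ω j) + |C.q j - C.q (C.par j)| + 2 * e ≤ d) :
    ∑ i, tapRes β J (obsY u ω.1) (fun i => sfield (avec C j) (site ω i)) i ^ 2 ≤ d ^ 2 * n := by
  have h := sum_sq_le_of_vlen hn ((node_residual hn hβ hτ hτ1 hu H hj hp).trans hd)
  refine le_trans (le_of_eq (sum_congr rfl fun i _ => ?_)) h
  have e1 : tanhv (fun i => sfield (avec C j) (site ω i)) = fun l => mnode C j (site ω l) :=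
    funext fun l => (mnode_eq_tanh C hj0 hj _).symm
  simp only [tapRes, e1, mnode_eq_tanh C hj0 hj]
  ring

/-- The pilot for times bounded below. -/
theorem pilot_big {β κ η G ρ r t u₁ ea e Λ ηs : ℝ} {K : ℕ} (hn : 0 < n) (hβ : β ^ 2 = τ)
    (hτ : 0 ≤ τ) (hτ1 : τ ≤ 1) (hu : 0 ≤ u) (hu₁ : u₁ ≤ u) (hκ : 0 < κ) (hη : 0 < η)
    (hG : 1 + η ≤ G) (hr : 0 < r) (hr1 : r ≤ 1) (hrη : 32 * r ^ 2 ≤ η ^ 3)
    (hrκ : 12 * τ * r ≤ κ) (hrρ : r ≤ ρ / 8) (hea : ea ≤ ρ / 8) (hΛ : 0 ≤ Λ) (ht : 0 ≤ t)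
    (ht1 : t ≤ 1) (htr : 4 * ((Λ + 4) * √(5 * t)) < κ * r) (htρ : √(5 * t) ≤ ρ / 4)
    (hηs : ηs ≤ t) (he : e ≤ t) {jb : ℕ} (hK : K + 3 ≤ k) (hjb : 0 < jb) (hjk : jb < k)
    (hpk : C.par jb < k) (hppk : C.par (C.par jb) < k)
    (hq1 : |C.q jb - C.q (C.par jb)| ≤ t) (hq2 : |C.q (C.par (C.par jb)) - C.q jb| ≤ t)
    (hq3 : ∀ j, K ≤ j → j ≤ K + 2 → |C.q j - C.q jb| ≤ t)
    {ω : (Fin n → ℝ) × (Fin k → Fin n → ℝ)} {J : Fin n → Fin n → ℝ}
    (S : NodeStats C ηs ω) (H : ImageNear C J Λ e ω)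
    (hE : NodeEdge β κ η G J (nodeVal C jb ω))
    (hasc : vlen ((√n)⁻¹ • ampA β J (obsY u ω.1) 0 K - nvec C ω jb) ≤ ea)
    (hdesc : ∀ j, K ≤ j → j ≤ K + 2 →
      vlen ((√n)⁻¹ • ampA β J (obsY u ω.1) (fun _ => 1) j - nvec C ω j) ≤ ea) :
    PilotEdge β (κ / 2) (η / 2) G ρ u₁ u K J (obsY u ω.1) ∧
      PilotNear β ρ u₁ u K J (obsY u ω.1) fun _ => 1 := by
  have h5t : t ≤ √(5 * t) := by
    refine le_sqrt_of_sq_le ?_
    rw [sq]
    have := mul_le_of_le_one_left ht ht1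
    linarith
  have hdist : ∀ a b, a < k → b < k → |C.q a - C.q b| ≤ t →
      vlen (nvec C ω a - nvec C ω b) ≤ √(5 * t) := fun a b ha hb hab =>
    (node_dist S ha hb).trans (sqrt_le_sqrt (by linarith))
  have h0 : 0 ≤ √(5 * t) := sqrt_nonneg _
  have hres : ∑ i, tapRes β J (obsY u ω.1) (fun i => sfield (avec C jb) (site ω i)) i ^ 2
      ≤ ((Λ + 4) * √(5 * t)) ^ 2 * n := by
    refine tapRes_node_le hn hβ hτ hτ1 hu H hjb hjk hpk ?_
    have a1 := mul_le_mul_of_nonneg_left (hdist jb _ hjk hpk hq1) hΛ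
    have a2 := hdist _ jb hppk hjk hq2
    linarith
  have e1 : tanhv (fun i => sfield (avec C jb) (site ω i)) = nodeVal C jb ω :=
    funext fun i => (mnode_eq_tanh C hjb hjk _).symm
  obtain ⟨m, hm, hd⟩ := tap_root (e := (Λ + 4) * √(5 * t)) (e1 ▸ hE) hβ hτ hκ hr hr1 hn hη hG hrη
    hrκ (by positivity) htr hres
  have hpil : pilot β u₁ u K J (obsY u ω.1) = ampA β J (obsY u ω.1) 0 K := if_neg (not_lt.2 hu₁)
  have hmv : vlen ((√n)⁻¹ • m - nvec C ω jb) ≤ r := by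
    rw [← nodeVal_scaled, ← smul_sub]
    refine vlen_le_of_sum_sq hn hr.le (le_trans (le_of_eq (sum_congr rfl fun i _ => ?_)) hd)
    simp only [Pi.sub_apply, nodeVal, mnode_eq_tanh C hjb hjk]
  refine ⟨⟨m, hm, ?_⟩, fun j hj hj' => ?_⟩
  · have h := sum_sq_le_of_vlen hn (a := m - pilot β u₁ u K J (obsY u ω.1)) (r := ρ / 2) ?_
    · simpa using h
    · rw [smul_sub, hpil]
      refine (vlen_triangle _ (nvec C ω jb) _).trans ?_
      rw [vlen_sub_comm (nvec C ω jb)]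
      linarith
  · have h := sum_sq_le_of_vlen hn
      (a := ampA β J (obsY u ω.1) (fun _ => 1) j - pilot β u₁ u K J (obsY u ω.1)) (r := ρ / 2) ?_
    · simpa using h
    · rw [smul_sub, hpil]
      refine (vlen_triangle _ (nvec C ω j) _).trans ?_
      refine (add_le_add (hdesc j hj hj') ((vlen_triangle _ (nvec C ω jb) _).trans
        (add_le_add (hdist j jb (by omega) hjk (hq3 j hj hj')) le_rfl))).trans ?_
      rw [vlen_sub_comm (nvec C ω jb)]
      linarith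

/-- The pilot for small times. -/
theorem pilot_small {β κ η G ρ r u₁ ea ηs er : ℝ} {K : ℕ} (hn : 0 < n) (hβ : β ^ 2 = τ)
    (hτ : 0 ≤ τ) (hu : 0 ≤ u) (hu₁ : u < u₁) (hκ : 0 < κ) (hη : 0 < η) (hG : 1 + η ≤ G)
    (hr : 0 < r) (hr1 : r ≤ 1) (hrη : 32 * r ^ 2 ≤ η ^ 3) (hrκ : 12 * τ * r ≤ κ)
    (hrρ : r ≤ ρ / 8) (hea : ea ≤ ρ / 8) (her : 4 * er < κ * r)
    (hur : u + √u * √2 ≤ er) (hK : K + 3 ≤ k)
    (hq : ∀ j, K ≤ j → j ≤ K + 2 → √(C.q j + ηs) ≤ ρ / 4)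
    {ω : (Fin n → ℝ) × (Fin k → Fin n → ℝ)} {J : Fin n → Fin n → ℝ}
    (S : NodeStats C ηs ω) (hnoise : (∑ i, ω.1 i ^ 2) / n ≤ 2)
    (hE : NodeEdge β κ η G J fun _ => 0)
    (hdesc : ∀ j, K ≤ j → j ≤ K + 2 →
      vlen ((√n)⁻¹ • ampA β J (obsY u ω.1) (fun _ => 1) j - nvec C ω j) ≤ ea) :
    PilotEdge β (κ / 2) (η / 2) G ρ u₁ u K J (obsY u ω.1) ∧
      PilotNear β ρ u₁ u K J (obsY u ω.1) fun _ => 1 := by
  have hn' : (0:ℝ) < n := by exact_mod_cast hn
  have hres : ∑ i, tapRes β J (obsY u ω.1) (fun _ => 0) i ^ 2 ≤ er ^ 2 * n := by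
    refine le_trans (le_of_eq (sum_congr rfl fun i _ => ?_))
      (sum_sq_le_of_vlen hn (a := obsY u ω.1) (r := er) (le_trans ?_ hur))
    · simp [tapRes, tanhv, act]
    · have e : (√n)⁻¹ • obsY u ω.1 = u • ((√n)⁻¹ • fun _ => (1:ℝ)) + √u • ((√n)⁻¹ • ω.1) := by
        funext i
        simp only [obsY, Pi.smul_apply, Pi.add_apply, smul_eq_mul]
        ring
      rw [e]
      refine (vlen_add _ _).trans (add_le_add ?_ ?_)
      · rw [vlen_smul, abs_of_nonneg hu]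
        exact mul_le_of_le_one_right hu (vlen_scaled_le_one fun i => by simp)
      · rw [vlen_smul, abs_of_nonneg (sqrt_nonneg _)]
        refine mul_le_mul_of_nonneg_left (vlen_le_of_sum_sq hn (sqrt_nonneg _) ?_) (sqrt_nonneg _)
        rw [sq_sqrt zero_le_two, ← div_le_iff₀ hn']
        exact hnoise
  have e1 : tanhv (fun _ : Fin n => (0:ℝ)) = fun _ => 0 := by funext i; simp [tanhv]
  obtain ⟨m, hm, hd⟩ := tap_root (e := er) (e1.symm ▸ hE) hβ hτ hκ hr hr1 hn hη hG hrη hrκ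
    (le_trans (add_nonneg hu (by positivity)) hur) her hres
  have hpil : pilot β u₁ u K J (obsY u ω.1) = 0 := if_pos hu₁
  refine ⟨⟨m, hm, ?_⟩, fun j hj hj' => ?_⟩
  · rw [hpil]
    refine le_trans (le_of_eq (sum_congr rfl fun i _ => by simp)) (hd.trans ?_)
    exact mul_le_mul_of_nonneg_right (pow_le_pow_left₀ hr.le (by linarith) 2) hn'.le
  · rw [hpil]
    have h := sum_sq_le_of_vlen hn (a := ampA β J (obsY u ω.1) (fun _ => 1) j) (r := ρ / 2) ?_
    · simpa using h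
    · have h2 := (vlen_nvec_le S (show j < k by omega)).trans (hq j hj hj')
      refine le_trans ?_ (show ea + ρ / 4 ≤ ρ / 2 by linarith)
      have h3 := vlen_triangle ((√n)⁻¹ • ampA β J (obsY u ω.1) (fun _ => 1) j) (nvec C ω j) 0
      simp only [sub_zero] at h3
      exact h3.trans (add_le_add (hdesc j hj hj') h2)

/-! ### Closedness -/

lemma continuous_onsager_coord (β : ℝ) :
    Continuous fun m : Fin n → ℝ => onsager β m := by
  simp only [onsager, qav, avg]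
  fun_prop

lemma continuous_pilot (β u₁ u : ℝ) (K : ℕ) :
    Continuous fun p : (Fin n → Fin n → ℝ) × (Fin n → ℝ) => pilot β u₁ u K p.1 p.2 := by
  unfold pilot
  split_ifs
  · exact continuous_const
  · exact continuous_ampA β 0 K

lemma isClosed_pilotNear (β ρ u₁ u : ℝ) (K : ℕ) (x : Fin n → ℝ) :
    IsClosed {p : (Fin n → Fin n → ℝ) × (Fin n → ℝ) | PilotNear β ρ u₁ u K p.1 p.2 x} := by
  simp only [PilotNear, Set.ofPred_forall]
  refine isClosed_iInter fun j => isClosed_iInter fun _ => isClosed_iInter fun _ =>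
    isClosed_le (continuous_finsetSum _ fun i _ => ?_) continuous_const
  exact (((continuous_apply i).comp (continuous_ampA β x j)).sub
    ((continuous_apply i).comp (continuous_pilot β u₁ u K))).pow 2

lemma isClosed_pilotEdge (β κ η G ρ u₁ u : ℝ) (K : ℕ) (hη : 0 < η) (hG : 0 < G) :
    IsClosed {p : (Fin n → Fin n → ℝ) × (Fin n → ℝ) | PilotEdge β κ η G ρ u₁ u K p.1 p.2} := by
  let Cube := Set.pi (Set.univ : Set (Fin n)) fun _ => Set.Icc (-1 : ℝ) 1
  have : CompactSpace Cube :=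
    isCompact_iff_compactSpace.1 (isCompact_univ_pi fun _ => isCompact_Icc)
  set A : Set (((Fin n → Fin n → ℝ) × (Fin n → ℝ)) × Cube) :=
    {q | BoxEdge β κ η G q.1.1 q.1.2 q.2.1 ∧
      ∑ i, (q.2.1 i - pilot β u₁ u K q.1.1 q.1.2 i) ^ 2 ≤ (ρ / 2) ^ 2 * n}
  have hA : IsClosed A := by
    have hmi : ∀ i, Continuous fun q : ((Fin n → Fin n → ℝ) × (Fin n → ℝ)) × Cube => q.2.1 i :=
      fun i => (continuous_apply i).comp (continuous_subtype_val.comp continuous_snd)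
    simp only [A, BoxEdge, Set.ofPred_and, Set.ofPred_forall]
    refine ((isClosed_iInter fun i => isClosed_eq (hmi i) (continuous_tanh_real.comp ?_)).inter
      (isClosed_iInter fun S => isClosed_iInter fun _ => isClosed_iInter fun a =>
        isClosed_le ?_ (continuous_finsetSum _ fun i _ => continuous_const.div₀ ?_ ?_))).inter
      (isClosed_le (continuous_finsetSum _ fun i _ => ?_) continuous_const)
    · simp only [act, onsager, qav, avg]; fun_prop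
    · simp only [fieldR, act, onsager, qav, avg]; fun_prop
    · simp only [boxTop]; split_ifs <;> fun_prop
    · intro q
      simp only [boxTop]
      split_ifs
      · exact hG.ne'
      · have := q.2.2 i (Set.mem_univ i)
        have h2 : q.2.1 i ^ 2 ≤ 1 := by
          rw [sq_le_one_iff_abs_le_one, abs_le]; exact ⟨this.1, this.2⟩
        linarith
    · exact ((hmi i).sub ((continuous_apply i).comp
        ((continuous_pilot β u₁ u K).comp continuous_fst))).pow 2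
  have e : {p : (Fin n → Fin n → ℝ) × (Fin n → ℝ) | PilotEdge β κ η G ρ u₁ u K p.1 p.2}
      = Prod.fst '' A := by
    ext p
    constructor
    · rintro ⟨m, hm, hd⟩
      refine ⟨(p, ⟨m, fun i _ => ?_⟩), ⟨hm, hd⟩, rfl⟩
      rw [hm.1 i]
      exact ⟨(neg_one_lt_tanh _).le, (tanh_lt_one _).le⟩
    · rintro ⟨q, hq, rfl⟩
      exact ⟨q.2.1, hq.1, hq.2⟩
  rw [e]
  exact isClosedMap_fst_of_compactSpace A hA

lemma continuous_plantJ_obsY (β u : ℝ) :
    Continuous fun p : (Fin n × Fin n → ℝ) × (Fin n → ℝ) => (plantJ β p.1, obsY u p.2) := by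
  refine Continuous.prodMk ?_ ?_
  · refine continuous_pi fun i => continuous_pi fun j => ?_
    simp only [plantJ, skCoupling]
    split_ifs <;> fun_prop
  · unfold obsY
    fun_prop

end Vale.Agent.P150.Beta1
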