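import Mathlib
import Vale.Agent.P150.Beta1.Fields.PlantedDet

/-!
# The field statement at the planted configuration

For `β < 1` a chain of `K + 3` iterates from the configuration and `K` iterates from `0` gives, up
to an exponentially small event, a TAP point with the edge near the pilot and iterates near it.
-/

namespace Vale.Agent.P150.Beta1

open MeasureTheory ProbabilityTheory Finset Real Filter
open scoped Topology

variable {n k : ℕ}

/-- The slack of the edge is small for small `η`. -/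
lemma slack_small (G M : ℝ) {W : ℝ} (hW : 0 < W) :
    ∃ η₀ > 0, ∀ η, 0 < η → η ≤ η₀ → edgeSlack η G M ≤ W := by
  have hc : Continuous fun η => edgeSlack η G M := by
    unfold edgeSlack
    fun_prop
  have h0 : edgeSlack 0 G M = 0 := by simp [edgeSlack]
  obtain ⟨ε, hε, h⟩ := Metric.continuousAt_iff.1 hc.continuousAt W hW
  refine ⟨ε / 2, by positivity, fun η h1 h2 => ?_⟩
  have := h (x := η) (by rw [dist_zero_right, norm_eq_abs, abs_of_pos h1]; linarith)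
  rw [h0, dist_zero_right, norm_eq_abs] at this
  linarith [le_abs_self (edgeSlack η G M)]

/-- A constant factor is absorbed by the exponential. -/
lemma exp_absorb {A c : ℝ} (hc : 0 < c) :
    ∀ᶠ n : ℕ in atTop, A * exp (-(c * n)) ≤ exp (-(c / 2 * n)) := by
  have h1 : Tendsto (fun n : ℕ => exp (c / 2 * (n:ℝ))) atTop atTop :=
    tendsto_exp_atTop.comp (tendsto_natCast_atTop_atTop.const_mul_atTop (by positivity))
  filter_upwards [h1.eventually_ge_atTop A] with n hn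
  calc A * exp (-(c * n)) ≤ exp (c / 2 * n) * exp (-(c * n)) :=
        mul_le_mul_of_nonneg_right hn (exp_pos _).le
    _ = exp (-(c / 2 * n)) := by rw [← exp_add]; ring_nf

lemma DiagSmall.mono {τ e e' : ℝ} {H : Fin n × Fin n → ℝ} (h : DiagSmall τ e H) (he : e ≤ e') :
    DiagSmall τ e' H :=
  fun i => (h i).trans he

/-- The image, the norms and the diagonal are as expected. -/
theorem image_event {β τ : ℝ} (hβ : 0 ≤ β) (hβτ : β ^ 2 = τ) (hτ : 0 < τ) (hτ1 : τ ≤ 1) (k : ℕ)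
    {δ e ηs : ℝ} (hδ : 0 < δ) (he : 0 < e) (hηs : 0 < ηs) :
    ∃ A ≥ 0, ∃ c > 0, ∃ n₀ : ℕ, ∀ n ≥ n₀, ∀ (u : ℝ) (C : Chain τ u δ k), 0 ≤ u →
      pairLaw n k {p | ¬(NodeStats C ηs p.1 ∧ ImageNear C (offJ τ (glueC C p)) (opBd β) e p.1 ∧
          DiagSmall τ e (glueC C p))} ≤ ENNReal.ofReal (A * exp (-(c * n))) := by
  obtain ⟨ηi, hηi, himg⟩ := image_node k hδ (half_pos he)
  set ηt := min (min ηs ηi) (e / 2)
  have hηt : 0 < ηt := lt_min (lt_min hηs hηi) (by positivity)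
  obtain ⟨A1, hA1, c1, hc1, E1⟩ := nodeStats_event k hηt
  obtain ⟨A2, hA2, c2, hc2, n2, E2⟩ := diag_event hτ (half_pos he)
  refine ⟨A1 + A2 + 1, by positivity, min (min c1 c2) 2, lt_min (lt_min hc1 hc2) two_pos,
    max n2 1, fun n hn u C hu => ?_⟩
  have hn0 : 0 < n := (le_max_right n2 1).trans hn
  have hA : pairLaw n k ({ω | ¬NodeStats C ηt ω} ×ˢ Set.univ)
      ≤ ENNReal.ofReal (A1 * exp (-(c1 * n))) := by
    rw [pairLaw, Measure.prod_prod, measure_univ, mul_one]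
    exact E1 C n hτ.le hu hn0
  have hC : pairLaw n k {p | (planMap C p).1 ∉ Words.Ev β n}
      ≤ ENNReal.ofReal (1 * exp (-(2 * n))) := by
    rw [one_mul]; exact op_event C β hn0
  refine (measure_mono fun p hp => ?_).trans (exp_bd_add (add_nonneg hA1 hA2) zero_le_one
    (Nat.cast_nonneg n) (exp_bd_add hA1 hA2 (Nat.cast_nonneg n) hA
      (E2 n ((le_max_left n2 1).trans hn) k u δ C)) hC)
  contrapose hp
  simp only [Set.mem_union, Set.mem_prod, Set.mem_univ, and_true, Set.mem_ofPred_eq, not_or,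
    not_not] at hp
  obtain ⟨⟨hS, hD⟩, hO⟩ := hp
  simp only [Set.mem_ofPred_eq, not_not]
  have hS' : ∀ η, ηt ≤ η → NodeStats C η p.1 := fun η hη =>
    ⟨fun a ha b hb => (hS.mm a ha b hb).trans hη, fun q l hl => (hS.zm q l hl).trans hη, hS.zz⟩
  refine ⟨hS' ηs ((min_le_left _ _).trans (min_le_left _ _)), ?_, hD.mono (by linarith)⟩
  have h := imageNear_of_diag (e := e / 2) (e' := e / 2) (Λ := opBd β)
    (J := fullJ τ (glueC C p)) (J' := offJ τ (glueC C p))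
    (d := fun i => fullJ τ (glueC C p) i i) (hS' ηt le_rfl)
    (by linarith [min_le_right (min ηs ηi) (e / 2)]) hD (by positivity)
    (fun a i => act_offJ τ (glueC C p) a i) (fun a => ?_)
    (himg C p.1 p.2 hτ hτ1 hn0 (hS' ηi ((min_le_left _ _).trans (min_le_right _ _))))
  · rw [add_halves] at h; exact h
  · rw [← plantJ_rotArr hβ hβτ]
    exact vlen_act_plant hβτ hτ1 hO a

/-- What is used of the edge. -/
structure EdgeConst (β τ T κ η g e' u₀ q₀ Cq : ℝ) : Prop where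
  κ_pos : 0 < κ
  η_pos : 0 < η
  η_g : 1 + η ≤ g
  e_pos : 0 < e'
  u_pos : 0 < u₀
  q_u : u₀ / (1 - τ) ≤ q₀ / 2
  zero : ∀ k : ℕ, ∀ δ > 0, ∃ A ≥ 0, ∃ c > 0, ∃ n₀ : ℕ, ∀ n ≥ n₀, ∀ (u : ℝ) (C : Chain τ u δ k),
    0 ≤ u → pairLaw n k {p | DiagSmall τ e' (glueC C p) ∧ ∃ m : Fin n → ℝ, (∀ i, |m i| ≤ 1) ∧
        ∑ i, m i ^ 2 ≤ q₀ * n ∧ ¬NodeEdge β κ η g (offJ τ (glueC C p)) m}
      ≤ ENNReal.ofReal (A * exp (-(c * n)))
  node : ∀ k : ℕ, ∀ δ > 0, ∃ A ≥ 0, ∃ c > 0, ∃ n₀ : ℕ, ∀ n ≥ n₀, ∀ (u : ℝ) (C : Chain τ u δ k)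
    (j : ℕ), u₀ ≤ u → u ≤ T → 0 < j → j < k → C.par j < k →
      Cq * ((k:ℝ) + 3) ^ 2 * √|C.q j - C.q (C.par j)| ≤ 1 →
      pairLaw n k {p | DiagSmall τ e' (glueC C p) ∧
          ¬NodeEdge β κ η g (offJ τ (glueC C p)) (nodeVal C j p.1)}
        ≤ ENNReal.ofReal (A * exp (-(c * n)))

/-- The edge constants exist. -/
theorem exists_edgeConst {β τ : ℝ} (hβτ : β ^ 2 = τ) (hτ : 0 < τ) (hτ1 : τ < 1) (T G : ℝ) :
    ∃ κ η g e' u₀ q₀ Cq, G ≤ g ∧ 0 ≤ Cq ∧ EdgeConst β τ T κ η g e' u₀ q₀ Cq := by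
  have h1τ : 0 < 1 - τ := by linarith
  set g := max G 2
  have hg2 : 2 ≤ g := le_max_right _ _
  set εz := min ((1 - τ) / 20) (1 / (2 * (2 + g)))
  have hεz : 0 < εz := lt_min (by positivity) (by positivity)
  set wz := εz * (1 - τ)
  have hwz : 0 < wz := by positivity
  set q₀ := wz / 16 / 6
  set u₀ := q₀ * (1 - τ) / 2
  have hu₀ : 0 < u₀ := by positivity
  set D₀ := boxMass * (tanh u₀ ^ 2 * vmin (T + 1)) / 2
  have hD₀ : 0 < D₀ := by
    have := boxMass_pos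
    have := vmin_pos (T + 1)
    have : 0 < tanh u₀ := by
      rw [tanh_eq_sinh_div_cosh]; exact div_pos (sinh_pos_iff.2 hu₀) (cosh_pos _)
    positivity
  set ε₁ := min ((1 - τ) ^ 2 * D₀ / 20) (1 / (2 * (2 + g)))
  have hε₁ : 0 < ε₁ := lt_min (by positivity) (by positivity)
  set w₁ := ε₁ * (1 - τ)
  have hw₁ : 0 < w₁ := by positivity
  obtain ⟨ηa, hηa, Sa⟩ := slack_small g 0 (show 0 < wz / 16 by positivity)
  obtain ⟨ηb, hηb, Sb⟩ := slack_small g (8 / D₀) (show 0 < w₁ / 16 by positivity)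
  set η := min (min ηa ηb) 1
  have hη : 0 < η := lt_min (lt_min hηa hηb) one_pos
  have hη1 : η ≤ 1 := min_le_right _ _
  have hεG : ∀ ε, ε ≤ 1 / (2 * (2 + g)) → ε * (2 + g) ≤ 1 / 2 := fun ε hε => by
    rw [le_div_iff₀ (by positivity)] at hε
    linarith
  refine ⟨min (wz / 32) (w₁ / 16), η, g, min (wz / 16) (w₁ / 16), u₀, q₀,
    1000 / D₀ ^ 2 * (32 / w₁), le_max_left _ _, by positivity, lt_min (by positivity) (by positivity),
    hη, by linarith, lt_min (by positivity) (by positivity), hu₀,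
    (le_of_eq (by simp only [u₀]; field_simp)), fun k δ hδ => ?_, fun k δ hδ => ?_⟩
  · obtain ⟨A, hA, c, hc, n₀, E⟩ := edge_zero hβτ hτ hτ1 hη hη1 (by linarith) hεz
      (by linarith [min_le_left ((1 - τ) / 20) (1 / (2 * (2 + g)))])
      (hεG _ (min_le_right _ _)) (Sa η hη ((min_le_left _ _).trans (min_le_left _ _))) k hδ
    refine ⟨A, hA, c, hc, max n₀ 1, fun n hn u C hu => (measure_mono ?_).trans
      (E n ((le_max_left n₀ 1).trans hn) u C hu)⟩
    rintro p ⟨hd, m, hm, hq, hbad⟩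
    refine ⟨hd.mono (min_le_left _ _), fun h0 => hbad ?_⟩
    have hn0 : 0 < n := (le_max_right n₀ 1).trans hn
    rw [nodeVal_none] at h0
    refine (h0.of_zero hβτ hτ.le hn0 hη (by linarith) hm hq).mono ?_
    refine (min_le_left _ _).trans ?_
    have := mul_le_mul_of_nonneg_right hτ1.le (show 0 ≤ q₀ by positivity)
    simp only [q₀] at this ⊢
    linarith
  · obtain ⟨A, hA, c, hc, n₀, E⟩ := edge_node hβτ hτ hτ1 hη hη1 (by linarith) hε₁
      (by linarith [min_le_left ((1 - τ) ^ 2 * D₀ / 20) (1 / (2 * (2 + g)))])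
      (hεG _ (min_le_right _ _)) hD₀
      (Sb η hη ((min_le_left _ _).trans (min_le_right _ _))) k hδ
    refine ⟨A, hA, c, hc, n₀, fun n hn u C j hu huT hj hjk hp hq => (measure_mono ?_).trans
      (E n hn u C j (hu₀.le.trans hu) hj hjk hp ?_ ?_)⟩
    · rintro p ⟨hd, hbad⟩
      exact ⟨hd.mono (min_le_right _ _), fun h => hbad (h.mono (min_le_right _ _))⟩
    · have h := Dnode_ge C hτ.le hu₀.le hu (show u + τ ≤ T + 1 by linarith) j
      simp only [D₀]
      linarith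
    · rw [show 1000 / D₀ ^ 2 * (32 / w₁) * ((k:ℝ) + 3) ^ 2 * √|C.q j - C.q (C.par j)|
        = 1000 * ((k:ℝ) + 3) ^ 2 / D₀ ^ 2 * √|C.q j - C.q (C.par j)| / (w₁ / 32) by ring_nf,
        div_le_one (by positivity)] at hq
      exact hq

/-- The pilot works for times bounded below. -/
theorem pilot_event_big {β τ T κ η g e' u₀ q₀ Cq ρ r t u₁ : ℝ} (hβ : 0 ≤ β) (hβτ : β ^ 2 = τ)
    (hτ : 0 < τ) (hτ1 : τ < 1) (hE : EdgeConst β τ T κ η g e' u₀ q₀ Cq) (hr : 0 < r) (hr1 : r ≤ 1)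
    (hrη : 32 * r ^ 2 ≤ η ^ 3) (hrκ : 12 * τ * r ≤ κ) (hrρ : r ≤ ρ / 8) (ht : 0 < t) (ht1 : t ≤ 1)
    (htr : 4 * ((opBd β + 4) * √(5 * t)) < κ * r) (htρ : √(5 * t) ≤ ρ / 4) (hCq : 0 ≤ Cq)
    (hu₁ : 0 < u₁) {K : ℕ} (hK : 3 ≤ K) (hKt : τ ^ (K - 2) ≤ t)
    (hKq : Cq * (2 * (K:ℝ) + 6) ^ 2 * √(τ ^ (K - 1)) ≤ 1) :
    ∃ A ≥ 0, ∃ c > 0, ∃ n₀ : ℕ, ∀ n ≥ n₀, ∀ u ∈ Set.Icc 0 T, u₁ ≤ u →
      ∃ δ, ∃ C : Chain τ u δ (K + 3 + K),
        pairLaw n (K + 3 + K) {p | ¬(PilotEdge β (κ / 2) (η / 2) g ρ u₁ u K (offJ τ (glueC C p))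
            (obsY u p.1.1) ∧ PilotNear β ρ u₁ u K (offJ τ (glueC C p)) (obsY u p.1.1) fun _ => 1)}
          ≤ ENNReal.ofReal (A * exp (-(c * n))) := by
  set k := K + 3 + K with hk
  have hρ : 0 < ρ := by linarith
  obtain ⟨δ, hδ, hchain⟩ := exists_chain hτ hτ1.le T u₁ hu₁ (K + 3) K (by omega)
  obtain ⟨ef, hef, hfol⟩ := amp_follows k (K + 2) (opBd_nonneg β) (show 0 < ρ / 8 by positivity)
  obtain ⟨ea, hea, hfa⟩ := amp_follows k K (opBd_nonneg β) (show 0 < ρ / 8 by positivity)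
  set e := min (min (min ef ea) t) e'
  have he : 0 < e := lt_min (lt_min (lt_min hef hea) ht) hE.e_pos
  have hq₀ : 0 < q₀ := by
    have := hE.q_u
    have : 0 < u₀ / (1 - τ) := div_pos hE.u_pos (by linarith)
    linarith
  set ηs := min t (q₀ / 2)
  obtain ⟨A1, hA1, c1, hc1, n1, E1⟩ := image_event hβ hβτ hτ hτ1.le k hδ he
    (show 0 < ηs from lt_min ht (by positivity))
  obtain ⟨A2, hA2, c2, hc2, n2, E2⟩ := hE.zero k δ hδ
  obtain ⟨A3, hA3, c3, hc3, n3, E3⟩ := hE.node k δ hδ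
  refine ⟨A1 + (A2 + A3), by positivity, min c1 (min c2 c3), lt_min hc1 (lt_min hc2 hc3),
    max (max n1 n2) (max n3 1), fun n hn u hu hu1 => ?_⟩
  simp only [ge_iff_le, max_le_iff] at hn
  obtain ⟨⟨hn1, hn2⟩, hn3, hn0⟩ := hn
  obtain ⟨C, hd, hup⟩ := hchain u hu fun _ => hu1
  refine ⟨δ, C, ?_⟩
  have hτ0 := hτ.le
  set jb := K + 3 + (K - 1) with hjb
  obtain ⟨hqb, hpb⟩ := hup (K - 1) (by omega)
  rw [if_neg (by omega), show K + 3 + (K - 1) - 1 = K + 3 + (K - 2) by omega, ← hjb] at hpb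
  rw [← hjb, show K - 1 + 1 = K by omega] at hqb
  obtain ⟨hqp, hpp⟩ := hup (K - 2) (by omega)
  rw [if_neg (by omega), show K + 3 + (K - 2) - 1 = K + 3 + (K - 3) by omega] at hpp
  rw [show K - 2 + 1 = K - 1 by omega] at hqp
  obtain ⟨hqpp, -⟩ := hup (K - 3) (by omega)
  rw [show K - 3 + 1 = K - 2 by omega] at hqpp
  have hgap : ∀ a b, a ≤ b → b ≤ K → |qup τ u b - qup τ u a| ≤ τ ^ a := fun a b hab _ => by
    rw [abs_of_nonneg (sub_nonneg.2 (qup_monotone hτ0 hu.1 hab))]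
    have h1 := qdn_sub_qup_le hτ0 hu.1 hτ1.le a a
    rw [min_self] at h1
    linarith [qup_le_qdn hτ0 hu.1 a b]
  have hpow : ∀ a, K - 2 ≤ a → τ ^ a ≤ t := fun a ha =>
    (pow_le_pow_of_le_one hτ0 hτ1.le ha).trans hKt
  have hq1 : |C.q jb - C.q (C.par jb)| ≤ τ ^ (K - 1) := by
    rw [hpb, hqb, hqp]; exact hgap _ _ (by omega) le_rfl
  have hq3 : ∀ j, K ≤ j → j ≤ K + 2 → |C.q j - C.q jb| ≤ t := fun j hj hj' => by
    rw [hqb, (hd j (by omega)).1, abs_of_nonneg (sub_nonneg.2 (qup_le_qdn hτ0 hu.1 j K))]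
    refine (qdn_sub_qup_le hτ0 hu.1 hτ1.le j K).trans ?_
    rw [min_eq_right hj]
    exact hpow K (by omega)
  have hNE : pairLaw n k {p | NodeStats C ηs p.1 ∧ DiagSmall τ e' (glueC C p) ∧
      ¬NodeEdge β κ η g (offJ τ (glueC C p)) (nodeVal C jb p.1)}
      ≤ ENNReal.ofReal ((A2 + A3) * exp (-(min c2 c3 * n))) := by
    rcases lt_or_ge u u₀ with hu' | hu'
    · refine (measure_mono ?_).trans ((E2 n hn2 u C hu.1).trans (ENNReal.ofReal_le_ofReal ?_))
      · rintro p ⟨hS, hD, hbad⟩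
        refine ⟨hD, nodeVal C jb p.1, fun i => abs_mnode_le C jb _, ?_, hbad⟩
        have h := (abs_le.1 (hS.mm jb (by omega) jb (by omega))).2
        rw [min_self, hqb] at h
        rw [sum_sq_eq_vlen hn0, vlen_sq, nodeVal_scaled, mul_comm q₀]
        refine mul_le_mul_of_nonneg_left ?_ (Nat.cast_nonneg n)
        have := qup_le hτ0 hu.1 hτ1 K
        have := (div_le_div_of_nonneg_right hu'.le (show 0 ≤ 1 - τ by linarith)).trans hE.q_u
        have : ηs ≤ q₀ / 2 := min_le_right _ _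
        linarith
      · exact mul_le_mul (by linarith) (exp_le_exp.2 (neg_le_neg (mul_le_mul_of_nonneg_right
          (min_le_left _ _) (Nat.cast_nonneg n)))) (exp_pos _).le (by positivity)
    · refine (measure_mono ?_).trans ((E3 n hn3 u C jb hu' hu.2 (by omega) (by omega)
        (by rw [hpb]; omega) ?_).trans (ENNReal.ofReal_le_ofReal ?_))
      · rintro p ⟨-, hD, hbad⟩
        exact ⟨hD, hbad⟩
      · refine le_trans ?_ hKq
        refine mul_le_mul (le_of_eq ?_) (sqrt_le_sqrt hq1) (sqrt_nonneg _) (by positivity)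
        rw [hk]; push_cast; ring
      · exact mul_le_mul (by linarith) (exp_le_exp.2 (neg_le_neg (mul_le_mul_of_nonneg_right
          (min_le_right _ _) (Nat.cast_nonneg n)))) (exp_pos _).le (by positivity)
  refine (measure_mono fun p hp => ?_).trans
    (exp_bd_add hA1 (add_nonneg hA2 hA3) (Nat.cast_nonneg n) (E1 n hn1 u C hu.1) hNE)
  contrapose hp
  simp only [Set.mem_union, Set.mem_ofPred_eq, not_or, not_not] at hp
  obtain ⟨⟨hS, hI, hD⟩, hN'⟩ := hp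
  have hN : NodeStats C ηs p.1 → DiagSmall τ e' (glueC C p) →
      NodeEdge β κ η g (offJ τ (glueC C p)) (nodeVal C jb p.1) :=
    fun a b => by_contra fun c => hN' ⟨a, b, c⟩
  simp only [Set.mem_ofPred_eq, not_not]
  have hle : e ≤ ef ∧ e ≤ ea :=
    ⟨(min_le_left _ _).trans ((min_le_left _ _).trans (min_le_left _ _)),
      (min_le_left _ _).trans ((min_le_left _ _).trans (min_le_right _ _))⟩
  have hI' : ∀ e₁, e ≤ e₁ → ImageNear C (offJ τ (glueC C p)) (opBd β) e₁ p.1 := fun e₁ h₁ =>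
    ⟨hI.lip, fun j hj => (hI.img j hj).trans h₁, fun j hj => (hI.norm j hj).trans h₁⟩
  have hf := fun s => hfol C p.1 (offJ τ (glueC C p)) s hn0 hβτ hτ0 hτ1.le hu.1 (hI' ef hle.1)
  have hfz := fun s => hfa C p.1 (offJ τ (glueC C p)) s hn0 hβτ hτ0 hτ1.le hu.1 (hI' ea hle.2)
  refine pilot_big (e := e) (ea := ρ / 8) (t := t) (Λ := opBd β) (ηs := ηs) (jb := jb) hn0 hβτ hτ0
    hτ1.le hu.1 hu1 hE.κ_pos hE.η_pos hE.η_g hr hr1 hrη hrκ hrρ le_rfl (opBd_nonneg β) ht.le ht1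
    htr htρ (min_le_left _ _) ((min_le_left _ _).trans (min_le_right _ _)) (by omega) (by omega)
    (by omega) (by rw [hpb]; omega) (by rw [hpb, hpp]; omega) (hq1.trans (hpow _ (by omega))) ?_
    hq3 hS hI (hN hS (hD.mono (min_le_right _ _))) ?_
    fun j _ hj' => desc_follows (by omega)
      (fun l h1 h2 => (hd l (by omega)).2 h1) hf hj'
  · rw [hpb, hpp, hqpp, hqb, abs_sub_comm]
    exact (hgap _ _ (by omega) le_rfl).trans (hpow _ le_rfl)
  · have h := hfz (fun l => if l = 0 then k else K + 3 + l - 1) (Or.inr (if_pos rfl))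
      (fun l hl => ?_) K le_rfl
    · rw [if_neg (show ¬K = 0 by omega), show K + 3 + K - 1 = jb by omega] at h
      simp only [if_pos, show ¬k = 0 by omega, if_false] at h
      exact h
    · simp only [if_neg (show ¬l + 1 = 0 by omega), show K + 3 + (l + 1) - 1 = K + 3 + l by omega]
      refine ⟨by omega, by omega, ?_⟩
      rw [(hup l hl).2]

/-- The pilot works for small times. -/
theorem pilot_event_small {β τ T κ η g e' u₀ q₀ Cq ρ r t u₁ er : ℝ} (hβ : 0 ≤ β)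
    (hβτ : β ^ 2 = τ) (hτ : 0 < τ) (hτ1 : τ < 1) (hE : EdgeConst β τ T κ η g e' u₀ q₀ Cq)
    (hr : 0 < r) (hr1 : r ≤ 1) (hrη : 32 * r ^ 2 ≤ η ^ 3) (hrκ : 12 * τ * r ≤ κ) (hrρ : r ≤ ρ / 8)
    (her : 4 * er < κ * r) (ht : 0 < t) (hu₁ : 0 < u₁)
    (hur : u₁ + √u₁ * √2 ≤ er) (htu : √(t + u₁ / (1 - τ) + t) ≤ ρ / 4)
    {K : ℕ} (hKt : τ ^ K ≤ t) :
    ∃ A ≥ 0, ∃ c > 0, ∃ n₀ : ℕ, ∀ n ≥ n₀, ∀ u ∈ Set.Icc 0 T, u < u₁ →
      ∃ δ, ∃ C : Chain τ u δ (K + 3 + 0),
        pairLaw n (K + 3 + 0) {p | ¬(PilotEdge β (κ / 2) (η / 2) g ρ u₁ u K (offJ τ (glueC C p))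
            (obsY u p.1.1) ∧ PilotNear β ρ u₁ u K (offJ τ (glueC C p)) (obsY u p.1.1) fun _ => 1)}
          ≤ ENNReal.ofReal (A * exp (-(c * n))) := by
  set k := K + 3 + 0 with hk
  have hρ : 0 < ρ := by linarith
  obtain ⟨δ, hδ, hchain⟩ := exists_chain hτ hτ1.le T u₁ hu₁ (K + 3) 0 (by omega)
  obtain ⟨ef, hef, hfol⟩ := amp_follows k (K + 2) (opBd_nonneg β) (show 0 < ρ / 8 by positivity)
  set e := min ef e'
  have he : 0 < e := lt_min hef hE.e_pos
  obtain ⟨A1, hA1, c1, hc1, n1, E1⟩ := image_event hβ hβτ hτ hτ1.le k hδ he ht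
  obtain ⟨A2, hA2, c2, hc2, n2, E2⟩ := hE.zero k δ hδ
  obtain ⟨A3, hA3, c3, hc3, E3⟩ := rawStats_event k one_pos
  refine ⟨A1 + A3 + A2, by positivity, min (min c1 c3) c2, lt_min (lt_min hc1 hc3) hc2,
    max (max n1 n2) 1, fun n hn u hu hu1 => ?_⟩
  simp only [ge_iff_le, max_le_iff] at hn
  obtain ⟨⟨hn1, hn2⟩, hn0⟩ := hn
  obtain ⟨C, hd, -⟩ := hchain u hu fun h => absurd h (lt_irrefl 0)
  refine ⟨δ, C, ?_⟩
  have hn' : 0 < n := hn0
  have hR : pairLaw n k ({ω | ¬RawStats 1 ω} ×ˢ Set.univ)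
      ≤ ENNReal.ofReal (A3 * exp (-(c3 * n))) := by
    rw [pairLaw, Measure.prod_prod, measure_univ, mul_one]
    exact E3 n hn'
  refine (measure_mono fun p hp => ?_).trans (exp_bd_add (add_nonneg hA1 hA3) hA2
    (Nat.cast_nonneg n) (exp_bd_add hA1 hA3 (Nat.cast_nonneg n) (E1 n hn1 u C hu.1) hR)
    (E2 n hn2 u C hu.1))
  contrapose hp
  simp only [Set.mem_union, Set.mem_prod, Set.mem_univ, and_true, Set.mem_ofPred_eq, not_or,
    not_not] at hp
  obtain ⟨⟨⟨hS, hI, hD⟩, hRw⟩, hN'⟩ := hp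
  have hN : DiagSmall τ e' (glueC C p) → ∀ m : Fin n → ℝ, (∀ i, |m i| ≤ 1) →
      ∑ i, m i ^ 2 ≤ q₀ * n → NodeEdge β κ η g (offJ τ (glueC C p)) m :=
    fun a m b c => by_contra fun d => hN' ⟨a, m, b, c, d⟩
  simp only [Set.mem_ofPred_eq, not_not]
  have hI' : ImageNear C (offJ τ (glueC C p)) (opBd β) ef p.1 :=
    ⟨hI.lip, fun j hj => (hI.img j hj).trans (min_le_left _ _),
      fun j hj => (hI.norm j hj).trans (min_le_left _ _)⟩
  have hf := fun s => hfol C p.1 (offJ τ (glueC C p)) s hn' hβτ hτ.le hτ1.le hu.1 hI'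
  have hq0 : 0 ≤ q₀ * n := by
    have := hE.q_u
    have : 0 < u₀ / (1 - τ) := div_pos hE.u_pos (by linarith)
    exact mul_nonneg (by linarith) (Nat.cast_nonneg n)
  refine pilot_small (ea := ρ / 8) (ηs := t) (er := er) hn' hβτ hτ.le hu.1 hu1 hE.κ_pos hE.η_pos
    hE.η_g hr hr1 hrη hrκ hrρ le_rfl her ?_ (by omega) (fun j hj hj' => ?_) hS hRw.noise
    (hN (hD.mono (min_le_right _ _)) (fun _ => 0) (fun i => by simp) (by simpa using hq0))
    fun j _ hj' => desc_follows (by omega) (fun l h1 h2 => (hd l (by omega)).2 h1) hf hj'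
  · refine le_trans ?_ hur
    exact add_le_add hu1.le (mul_le_mul_of_nonneg_right (sqrt_le_sqrt hu1.le) (sqrt_nonneg _))
  · refine le_trans (sqrt_le_sqrt ?_) htu
    rw [(hd j (by omega)).1]
    have h1 := qdn_sub_qup_le hτ.le hu.1 hτ1.le j K
    rw [min_eq_right hj] at h1
    have := qup_le hτ.le hu.1 hτ1 K
    have := div_le_div_of_nonneg_right hu1.le (show 0 ≤ 1 - τ by linarith)
    linarith

/-- From a chain to the planted Gaussian pair. -/
lemma planted_transfer {β τ κ η g ρ u₁ u δ : ℝ} {K : ℕ} (hβ : 0 ≤ β) (hβτ : β ^ 2 = τ)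
    (hη : 0 < η) (hg : 0 < g) (C : Chain τ u δ k) {b : ENNReal}
    (h : pairLaw n k {p | ¬(PilotEdge β κ η g ρ u₁ u K (offJ τ (glueC C p)) (obsY u p.1.1) ∧
      PilotNear β ρ u₁ u K (offJ τ (glueC C p)) (obsY u p.1.1) fun _ => 1)} ≤ b) :
    ((gauss (Fin n × Fin n)).prod (gauss (Fin n)))
        {p | ¬PilotEdge β κ η g ρ u₁ u K (plantJ β p.1) (obsY u p.2)} ≤ b ∧
    ((gauss (Fin n × Fin n)).prod (gauss (Fin n)))
        {p | ¬PilotNear β ρ u₁ u K (plantJ β p.1) (obsY u p.2) fun _ => 1} ≤ b := by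
  have key : ∀ P : (Fin n → Fin n → ℝ) × (Fin n → ℝ) → Prop,
      IsClosed {q | P q} → (∀ q, PilotEdge β κ η g ρ u₁ u K q.1 q.2 ∧
        PilotNear β ρ u₁ u K q.1 q.2 (fun _ => 1) → P q) →
      ((gauss (Fin n × Fin n)).prod (gauss (Fin n))) {p | ¬P (plantJ β p.1, obsY u p.2)} ≤ b := by
    intro P hP himp
    have hm : MeasurableSet {p : (Fin n × Fin n → ℝ) × (Fin n → ℝ) |
        ¬P (plantJ β p.1, obsY u p.2)} :=
      (((continuous_plantJ_obsY β u).measurable) hP.measurableSet).compl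
    rw [← (measurePreserving_planMap C).measure_preimage hm.nullMeasurableSet]
    refine (measure_mono fun p hp => ?_).trans h
    intro hc
    refine hp (himp _ ?_)
    simp only [planMap, plantJ_rotArr hβ hβτ]
    exact hc
  exact ⟨key (fun q => PilotEdge β κ η g ρ u₁ u K q.1 q.2)
      (isClosed_pilotEdge β κ η g ρ u₁ u K hη hg) fun q hq => hq.1,
    key (fun q => PilotNear β ρ u₁ u K q.1 q.2 fun _ => 1)
      (isClosed_pilotNear β ρ u₁ u K fun _ => 1) fun q hq => hq.2⟩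

/-- The field statement at the planted configuration. -/
theorem plantedStatement {β : ℝ} (h0 : 0 < β) (h1 : β < 1) : PlantedStatement β := by
  intro T _ G _
  set τ := β ^ 2 with hτdef
  have hβτ : β ^ 2 = τ := rfl
  have hτ : 0 < τ := by positivity
  have hτ1 : τ < 1 := pow_lt_one₀ h0.le h1 two_ne_zero
  have h1τ : 0 < 1 - τ := by linarith
  obtain ⟨κ, η, g, e', u₀, q₀, Cq, hG, hCq, hE⟩ := exists_edgeConst hβτ hτ hτ1 T G
  have hκ := hE.κ_pos
  have hη := hE.η_pos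
  have hg : 0 < g := by linarith [hE.η_g]
  refine ⟨κ / 2, by positivity, η / 2, by positivity, g, hG, by linarith [hE.η_g], fun ρ hρ => ?_⟩
  set r := min (min (ρ / 8) 1) (min (κ / 12) (min η (η ^ 2) / 6))
  have hr : 0 < r := lt_min (lt_min (by positivity) one_pos)
    (lt_min (by positivity) (div_pos (lt_min hη (by positivity)) (by norm_num)))
  have hr1 : r ≤ 1 := (min_le_left _ _).trans (min_le_right _ _)
  have hrρ : r ≤ ρ / 8 := (min_le_left _ _).trans (min_le_left _ _)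
  have hrκ : 12 * τ * r ≤ κ := by
    have h2 : r ≤ κ / 12 := (min_le_right _ _).trans (min_le_left _ _)
    have h3 := mul_le_mul_of_nonneg_right hτ1.le hr.le
    linarith
  have hrη : 32 * r ^ 2 ≤ η ^ 3 := by
    have h2 : r ≤ min η (η ^ 2) / 6 := (min_le_right _ _).trans (min_le_right _ _)
    have h3 := mul_le_mul (h2.trans (div_le_div_of_nonneg_right (min_le_left _ _) (by norm_num)))
      (h2.trans (div_le_div_of_nonneg_right (min_le_right _ _) (by norm_num))) hr.le (by positivity)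
    have : 0 < η ^ 3 := by positivity
    rw [sq]
    linarith
  set er := κ * r / 5
  have her : 4 * er < κ * r := by
    have := mul_pos hκ hr
    simp only [er]; linarith
  set Λ := opBd β
  have hΛ : 0 ≤ Λ := opBd_nonneg β
  set a := min (ρ / 4) (min 1 (er / (Λ + 4)))
  have ha : 0 < a := lt_min (by positivity) (lt_min one_pos (by positivity))
  set t := a ^ 2 / 5
  have ht : 0 < t := by positivity
  have ha5 : √(5 * t) = a := by
    rw [show 5 * t = a ^ 2 by simp only [t]; ring, sqrt_sq ha.le]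
  have ht1 : t ≤ 1 := by
    have := pow_le_one₀ ha.le ((min_le_right _ _).trans (min_le_left _ _)) (n := 2)
    simp only [t]; linarith
  set s := min (min 1 (er / 3)) (min ((1 - τ) * a ^ 2 / 2) u₀)
  have hs : 0 < s := lt_min (lt_min one_pos (by positivity)) (lt_min (by positivity) hE.u_pos)
  set u₁ := s ^ 2
  have hu₁ : 0 < u₁ := by positivity
  have hs1 : s ≤ 1 := (min_le_left _ _).trans (min_le_left _ _)
  have hus : u₁ ≤ s := by
    simp only [u₁, sq]; exact mul_le_of_le_one_left hs.le hs1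
  have hur : u₁ + √u₁ * √2 ≤ er := by
    have h2 : √2 ≤ 2 := by rw [sqrt_le_left zero_le_two]; norm_num
    have h3 : s ≤ er / 3 := (min_le_left _ _).trans (min_le_right _ _)
    rw [sqrt_sq hs.le]
    have := mul_le_mul_of_nonneg_left h2 hs.le
    linarith
  have htu : √(t + u₁ / (1 - τ) + t) ≤ ρ / 4 := by
    refine le_trans ?_ (min_le_left (ρ / 4) (min 1 (er / (Λ + 4))))
    rw [sqrt_le_left ha.le]
    have h3 : u₁ / (1 - τ) ≤ a ^ 2 / 2 := by
      rw [div_le_iff₀ h1τ]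
      have : s ≤ (1 - τ) * a ^ 2 / 2 := (min_le_right _ _).trans (min_le_left _ _)
      linarith
    simp only [t]
    linarith [sq_nonneg a]
  have htr : 4 * ((Λ + 4) * √(5 * t)) < κ * r := by
    rw [ha5]
    have h3 : a ≤ er / (Λ + 4) := (min_le_right _ _).trans (min_le_right _ _)
    rw [le_div_iff₀ (by positivity)] at h3
    linarith
  have e1 : ∀ᶠ K : ℕ in atTop, τ ^ (K - 2) ≤ t :=
    ((tendsto_pow_atTop_nhds_zero_of_lt_one hτ.le hτ1).comp
      (tendsto_sub_atTop_nat 2)).eventually_le_const ht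
  have e2 : ∀ᶠ K : ℕ in atTop, Cq * (2 * (K:ℝ) + 6) ^ 2 * √(τ ^ (K - 1)) ≤ 1 := by
    have hlim := (tendsto_pow_const_mul_const_pow_of_abs_lt_one 2
      (r := √τ) (by rw [abs_of_nonneg (sqrt_nonneg _), ← sqrt_one]; exact sqrt_lt_sqrt hτ.le hτ1)
      ).const_mul (Cq * 64 / √τ)
    rw [mul_zero] at hlim
    filter_upwards [hlim.eventually_le_const one_pos, eventually_ge_atTop 1] with K hK hK1
    refine le_trans (le_trans (mul_le_mul_of_nonneg_right (mul_le_mul_of_nonneg_left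
      (pow_le_pow_left₀ (by positivity) (show 2 * (K:ℝ) + 6 ≤ 8 * K by
        have : (1:ℝ) ≤ K := by exact_mod_cast hK1
        linarith) 2) hCq) (sqrt_nonneg _)) (le_of_eq ?_)) hK
    obtain ⟨m, rfl⟩ : ∃ m, K = m + 1 := ⟨K - 1, by omega⟩
    have e : ∀ j : ℕ, √(τ ^ j) = √τ ^ j := fun j => by
      induction j with
      | zero => simp
      | succ j ih => rw [pow_succ τ, pow_succ √τ, sqrt_mul (pow_nonneg hτ.le j), ih]
    rw [Nat.add_sub_cancel, e, pow_succ √τ m]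
    have : √τ ≠ 0 := (sqrt_pos.2 hτ).ne'
    field_simp
    ring
  obtain ⟨K₀, hK₀⟩ := eventually_atTop.1 (e1.and e2)
  refine ⟨max K₀ 3, fun K hK => ?_⟩
  simp only [ge_iff_le, max_le_iff] at hK
  obtain ⟨hKt, hKq⟩ := hK₀ K hK.1
  obtain ⟨A1, -, c1, hc1, n1, E1⟩ := pilot_event_big h0.le hβτ hτ hτ1 hE hr hr1 hrη hrκ hrρ ht ht1
    htr (ha5.trans_le (min_le_left _ _)) hCq hu₁ hK.2 hKt hKq
  obtain ⟨A2, -, c2, hc2, n2, E2⟩ := pilot_event_small h0.le hβτ hτ hτ1 hE hr hr1 hrη hrκ hrρ her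
    ht hu₁ hur htu (le_trans (pow_le_pow_of_le_one hτ.le hτ1.le (Nat.sub_le K 2)) hKt)
  refine ⟨u₁, min (c1 / 2) (c2 / 2), lt_min (by positivity) (by positivity), ?_⟩
  filter_upwards [exp_absorb (A := A1) hc1, exp_absorb (A := A2) hc2, eventually_ge_atTop n1,
    eventually_ge_atTop n2] with n b1 b2 hn1 hn2 u hu
  have hle : ∀ c, min (c1 / 2) (c2 / 2) ≤ c →
      ENNReal.ofReal (exp (-(c * (n:ℝ)))) ≤ ENNReal.ofReal (exp (-(min (c1 / 2) (c2 / 2) * n))) :=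
    fun c hc => ENNReal.ofReal_le_ofReal (exp_le_exp.2 (neg_le_neg
      (mul_le_mul_of_nonneg_right hc (Nat.cast_nonneg n))))
  rcases lt_or_ge u u₁ with hlt | hge
  · obtain ⟨δ, C, h⟩ := E2 n hn2 u hu hlt
    exact planted_transfer h0.le hβτ (by positivity) hg C (h.trans
      ((ENNReal.ofReal_le_ofReal b2).trans (hle _ (min_le_right _ _))))
  · obtain ⟨δ, C, h⟩ := E1 n hn1 u hu hge
    exact planted_transfer h0.le hβτ (by positivity) hg C (h.trans
      ((ENNReal.ofReal_le_ofReal b1).trans (hle _ (min_le_left _ _))))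

end Vale.Agent.P150.Beta1
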