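import Vale.Agent.P150.Beta1.Trap.FreeEnergy
import Vale.Agent.P150.Beta1.PassTwo.Planted
import Vale.Agent.P150.Beta1.Conc

/-!
# The partition function is not below its mean by an exponential factor, for `β ≤ 1`

Second moment, then concentration of the logarithm.
-/

namespace Vale.Agent.P150.Beta1

open MeasureTheory ProbabilityTheory Finset Filter Real
open scoped Topology

variable {n : ℕ}

/-- The direction in which the energy of `x` grows. -/
noncomputable def planCoef (β : ℝ) (x : Fin n → Bool) : Fin n × Fin n → ℝ :=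
  fun p => if p.1 < p.2 then β / √n * (spins x p.1 * spins x p.2) else 0

lemma energy_eq_lin (β : ℝ) (g : Fin n × Fin n → ℝ) (x : Fin n → Bool) :
    energy (skCoupling β g) 0 x = lin (planCoef β x) g := by
  rw [Trap.energy_zero_eq, quad_skCoupling, lin, lin, sum_div]
  refine sum_congr rfl fun p _ => ?_
  simp only [radCoef, planCoef]
  split_ifs <;> ring

/-- The common squared length of the planting directions. -/
noncomputable def planLen (β : ℝ) (n : ℕ) : ℝ :=
  ∑ p : Fin n × Fin n, if p.1 < p.2 then β ^ 2 / n else 0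

lemma sqn_planCoef (β : ℝ) (x : Fin n → Bool) : sqn (planCoef β x) = planLen β n := by
  refine sum_congr rfl fun p _ => ?_
  simp only [planCoef]
  split_ifs
  · rw [mul_pow, mul_pow, Trap.spins_sq, Trap.spins_sq, div_pow, sq_sqrt (Nat.cast_nonneg n)]
    ring
  · simp

/-- Likelihood ratio of the couplings: planted mixture against the standard law. -/
noncomputable def lrat (β : ℝ) (g : Fin n × Fin n → ℝ) : ℝ :=
  (∑ x : Fin n → Bool, shiftW (planCoef β x) g) / 2 ^ n

lemma shiftW_pos {κ : Type*} [Fintype κ] (a g : κ → ℝ) : 0 < shiftW a g := exp_pos _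

lemma lrat_pos (β : ℝ) (g : Fin n × Fin n → ℝ) : 0 < lrat β g :=
  div_pos (sum_pos (fun x _ => shiftW_pos _ g) univ_nonempty) (by positivity)

/-- The Gibbs measure as a ratio of planting densities. -/
lemma gibbs_eq_shiftW (β : ℝ) (g : Fin n × Fin n → ℝ) (x : Fin n → Bool) :
    gibbs (skCoupling β g) 0 x = shiftW (planCoef β x) g / (2 ^ n * lrat β g) := by
  rw [lrat, mul_div_cancel₀ _ (by positivity : (2:ℝ) ^ n ≠ 0)]
  simp only [gibbs, energy_eq_lin, shiftW, sqn_planCoef, exp_sub, ← sum_div]
  rw [div_div_div_cancel_right₀ (exp_pos _).ne']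

lemma pair_sum_eq (w : Fin n → ℝ) :
    2 * (∑ i, ∑ j, if i < j then w i * w j else 0) + ∑ i, w i ^ 2 = (∑ i, w i) ^ 2 := by
  have h : ∀ i j, (if i < j then w i * w j else 0) + (if j < i then w j * w i else 0)
      + (if i = j then w i * w j else 0) = w i * w j := fun i j => by
    rcases lt_trichotomy i j with h | h | h
    · simp [h, h.not_gt, h.ne]
    · subst h; simp
    · simp [h, h.not_gt, h.ne', mul_comm]
  have hs : ∑ i, ∑ j, (if j < i then w j * w i else 0)
      = ∑ i, ∑ j, if i < j then w i * w j else 0 := sum_comm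
  calc _ = ∑ i, ∑ j, ((if i < j then w i * w j else 0) + (if j < i then w j * w i else 0)
        + (if i = j then w i * w j else 0)) := by
        simp only [sum_add_distrib, hs, sum_ite_eq, mem_univ, if_true, sq]
        ring
    _ = _ := by simp only [h, sq, sum_mul_sum]

/-- Overlap bound of two planting directions. -/
lemma lin_planCoef_le {β : ℝ} (hβ : β ^ 2 ≤ 1) (x z : Fin n → Bool) :
    lin (planCoef β x) (planCoef β z) ≤ (∑ i, spins x i * spins z i) ^ 2 / (2 * n) := by
  set w := fun i => spins x i * spins z i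
  have e : lin (planCoef β x) (planCoef β z)
      = β ^ 2 / n * ∑ i, ∑ j, if i < j then w i * w j else 0 := by
    rw [lin, Fintype.sum_prod_type, mul_sum]
    refine sum_congr rfl fun i _ => ?_
    rw [mul_sum]
    refine sum_congr rfl fun j _ => ?_
    simp only [planCoef]
    split_ifs
    · rw [show β / √n * (spins x i * spins x j) * (β / √n * (spins z i * spins z j))
        = β ^ 2 / (√n * √n) * (w i * w j) by simp only [w]; ring,
        Real.mul_self_sqrt (Nat.cast_nonneg n)]
    · simp
  have h := pair_sum_eq w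
  have hsq : 0 ≤ ∑ i, w i ^ 2 := sum_nonneg fun i _ => sq_nonneg _
  rw [e]
  set P := ∑ i, ∑ j, if i < j then w i * w j else 0
  have h2 : P ≤ (∑ i, w i) ^ 2 / 2 := by linarith
  calc β ^ 2 / n * P ≤ β ^ 2 / n * ((∑ i, w i) ^ 2 / 2) :=
        mul_le_mul_of_nonneg_left h2 (by positivity)
    _ ≤ 1 / n * ((∑ i, w i) ^ 2 / 2) := by gcongr
    _ = _ := by ring

/-- Number of configurations of given magnetisation, against the Chernoff bound. -/
lemma sum_exp_sq_le (hn : 0 < n) :
    ∑ w : Fin n → Bool, exp ((∑ i, spins w i) ^ 2 / (2 * n)) ≤ (n + 1) * 2 ^ n := by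
  have hn' : (0 : ℝ) < n := Nat.cast_pos.2 hn
  set f : (Fin n → Bool) → ℕ := fun w => (univ.filter fun i => w i = true).card
  have hmaps : ∀ w ∈ (univ : Finset (Fin n → Bool)), f w ∈ range (n + 1) := fun w _ =>
    mem_range.2 (Nat.lt_succ_of_le ((card_filter_le _ _).trans (by simp)))
  have hS : ∀ w, ∑ i, spins w i = 2 * (f w : ℝ) - n := fun w => by
    have e : ∀ i, spins w i = 2 * (if w i = true then (1:ℝ) else 0) - 1 := fun i => by
      cases h : w i <;> simp [spins, spin, h] <;> norm_num
    simp only [e, sum_sub_distrib, ← mul_sum, sum_boole, f, sum_const, card_univ, Fintype.card_fin,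
      nsmul_eq_mul, mul_one]
  rw [← sum_fiberwise_of_maps_to hmaps]
  calc ∑ k ∈ range (n + 1), ∑ w ∈ univ with f w = k, exp ((∑ i, spins w i) ^ 2 / (2 * n))
      ≤ ∑ _k ∈ range (n + 1), (2:ℝ) ^ n := sum_le_sum fun k _ => by
        set s : ℝ := 2 * k - n
        set t := s / n
        have hfib : ∀ w ∈ univ.filter (fun w => f w = k), ∑ i, spins w i = s := fun w hw => by
          rw [hS, (mem_filter.1 hw).2]
        have hall : ((univ.filter fun w => f w = k).card : ℝ) * exp (t * s)
            ≤ (2:ℝ) ^ n * exp (n * (t ^ 2 / 2)) := by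
          calc _ = ∑ w ∈ univ.filter (fun w => f w = k), exp (t * ∑ i, spins w i) := by
                rw [sum_congr rfl fun w hw => by rw [hfib w hw], sum_const, nsmul_eq_mul]
            _ ≤ ∑ w : Fin n → Bool, exp (t * ∑ i, spins w i) :=
                sum_le_univ_sum_of_nonneg fun w => (exp_pos _).le
            _ = (2 * cosh t) ^ n := by
                simp only [mul_sum, exp_sum, spins]
                rw [← Fintype.prod_sum fun (_ : Fin n) (b : Bool) => exp (t * spin b)]
                simp [spin, cosh_eq, prod_const]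
                ring
            _ ≤ (2 * exp (t ^ 2 / 2)) ^ n :=
                pow_le_pow_left₀ (by linarith [one_le_cosh t])
                  (mul_le_mul_of_nonneg_left (cosh_le_exp_half_sq t) zero_le_two) n
            _ = _ := by rw [mul_pow, ← exp_nat_mul]
        rw [sum_congr rfl fun w hw => by rw [hfib w hw], sum_const, nsmul_eq_mul]
        refine le_of_mul_le_mul_right ?_ (exp_pos (n * (t ^ 2 / 2)))
        rw [mul_assoc, ← exp_add]
        refine le_of_eq_of_le ?_ hall
        congr 2
        simp only [t]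
        field_simp
        ring
    _ = _ := by simp

lemma spins_xnor (x z : Fin n → Bool) (i : Fin n) :
    spins x i * spins z i = spins (fun l => x l == z l) i := by
  cases hx : x i <;> cases hz : z i <;> simp [spins, spin, hx, hz]

/-- The second moment. -/
theorem integral_lrat_sq_le {β : ℝ} (hβ : β ^ 2 ≤ 1) (hn : 0 < n) :
    Integrable (fun g => lrat β g ^ 2) (gauss (Fin n × Fin n)) ∧
      ∫ g, lrat β g ^ 2 ∂gauss (Fin n × Fin n) ≤ n + 1 := by
  have e : ∀ x z : Fin n → Bool, ∀ g, shiftW (planCoef β x) g * shiftW (planCoef β z) g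
      = exp (lin (planCoef β x) (planCoef β z)) * shiftW (planCoef β x + planCoef β z) g := by
    intro x z g
    simp only [shiftW, ← exp_add]
    congr 1
    simp only [lin, sqn, Pi.add_apply, add_mul, add_sq, sum_add_distrib, mul_assoc, ← mul_sum]
    ring
  have e2 : ∀ g, lrat β g ^ 2 = ∑ x : Fin n → Bool, ∑ z : Fin n → Bool,
      exp (lin (planCoef β x) (planCoef β z)) / (2 ^ n * 2 ^ n)
        * shiftW (planCoef β x + planCoef β z) g := fun g => by
    rw [lrat, sq, div_mul_div_comm, sum_mul_sum]
    simp only [sum_div, e]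
    exact sum_congr rfl fun x _ => sum_congr rfl fun z _ => by ring
  have hi : ∀ x z : Fin n → Bool, Integrable (fun g =>
      exp (lin (planCoef β x) (planCoef β z)) / (2 ^ n * 2 ^ n)
        * shiftW (planCoef β x + planCoef β z) g) (gauss (Fin n × Fin n)) :=
    fun x z => (integrable_shiftW _).const_mul _
  simp only [e2]
  refine ⟨integrable_finsetSum _ fun x _ => integrable_finsetSum _ fun z _ => hi x z, ?_⟩
  rw [integral_finsetSum _ fun x _ => integrable_finsetSum _ fun z _ => hi x z]
  simp only [integral_finsetSum _ fun z _ => hi _ z, integral_const_mul, PassTwo.integral_shiftW,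
    mul_one, ← sum_div]
  rw [div_le_iff₀ (by positivity)]
  calc ∑ x : Fin n → Bool, ∑ z : Fin n → Bool, exp (lin (planCoef β x) (planCoef β z))
      ≤ ∑ _x : Fin n → Bool, ∑ w : Fin n → Bool, exp ((∑ i, spins w i) ^ 2 / (2 * n)) :=
        sum_le_sum fun x _ => by
          have hinv : Function.Involutive fun (z : Fin n → Bool) => fun l => x l == z l :=
            fun z => funext fun l => by
              change (x l == (x l == z l)) = z l
              cases x l <;> cases z l <;> rfl
          rw [← Equiv.sum_comp hinv.toPerm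
            fun w => exp ((∑ i, spins w i) ^ 2 / (2 * (n : ℝ)))]
          refine sum_le_sum fun z _ => exp_le_exp.2 ((lin_planCoef_le hβ x z).trans (le_of_eq ?_))
          rw [Function.Involutive.coe_toPerm, sum_congr rfl fun i _ => spins_xnor x z i]
    _ ≤ ∑ _x : Fin n → Bool, ((n:ℝ) + 1) * 2 ^ n := sum_le_sum fun _ _ => sum_exp_sq_le hn
    _ = _ := by simp; ring

lemma integral_lrat (β : ℝ) :
    Integrable (lrat (n := n) β) (gauss (Fin n × Fin n)) ∧
      ∫ g, lrat β g ∂gauss (Fin n × Fin n) = 1 := by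
  have hi : ∀ x : Fin n → Bool, Integrable (shiftW (planCoef β x)) (gauss (Fin n × Fin n)) :=
    fun x => integrable_shiftW _
  unfold lrat
  refine ⟨(integrable_finsetSum _ fun x _ => hi x).div_const _, ?_⟩
  rw [integral_div, integral_finsetSum _ fun x _ => hi x]
  simp [PassTwo.integral_shiftW]

lemma continuous_lrat (β : ℝ) : Continuous (lrat (n := n) β) := by
  unfold lrat shiftW lin
  fun_prop

/-- The logarithm of the likelihood ratio is Lipschitz. -/
lemma log_lrat_lipschitz {β : ℝ} (hβ : β ^ 2 ≤ 1) (g h : Fin n × Fin n → ℝ) :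
    |log (lrat β g) - log (lrat β h)| ≤ √n * √(∑ p, (g p - h p) ^ 2) := by
  have key : ∀ g h : Fin n × Fin n → ℝ,
      log (lrat β g) ≤ log (lrat β h) + √n * √(∑ p, (g p - h p) ^ 2) := by
    intro g h
    set d := √n * √(∑ p, (g p - h p) ^ 2)
    rw [← log_exp d, ← log_mul (lrat_pos β h).ne' (exp_pos d).ne']
    refine log_le_log (lrat_pos β g) ?_
    rw [lrat, lrat, div_mul_eq_mul_div, sum_mul]
    refine div_le_div_of_nonneg_right (sum_le_sum fun x _ => ?_) (by positivity)
    rw [shiftW, shiftW, ← exp_add, exp_le_exp]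
    have h1 := sum_mul_le_sqrt_mul_sqrt univ (planCoef β x) fun p => g p - h p
    have h2 : √(∑ p, planCoef β x p ^ 2) ≤ √(n : ℝ) := by
      refine sqrt_le_sqrt (le_of_eq_of_le (sqn_planCoef β x) ?_)
      rcases Nat.eq_zero_or_pos n with rfl | hn
      · simp [planLen]
      calc planLen β n ≤ ∑ _p : Fin n × Fin n, 1 / (n : ℝ) := sum_le_sum fun p _ => by
            split_ifs
            · gcongr
            · positivity
        _ = n := by simp
    have h3 := mul_le_mul_of_nonneg_right h2 (sqrt_nonneg (∑ p, (g p - h p) ^ 2))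
    simp only [lin, mul_sub, sum_sub_distrib] at h1 ⊢
    linarith
  have e : ∑ p, (h p - g p) ^ 2 = ∑ p, (g p - h p) ^ 2 := sum_congr rfl fun p _ => by ring
  have h2 := key h g
  rw [e] at h2
  exact abs_le.2 ⟨by linarith [key g h], by linarith [key g h]⟩

lemma lrat_pz {β : ℝ} (hβ : β ^ 2 ≤ 1) (hn : 0 < n) :
    1 / (4 * ((n : ℝ) + 1))
      ≤ (gauss (Fin n × Fin n)).real {g | 1 / 2 ≤ lrat β g} := by
  obtain ⟨i1, e1⟩ := integral_lrat (n := n) β
  obtain ⟨i2, e2⟩ := integral_lrat_sq_le hβ hn
  set A := {g : Fin n × Fin n → ℝ | 1 / 2 ≤ lrat β g}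
  have hA : MeasurableSet A := measurableSet_le measurable_const (continuous_lrat β).measurable
  set t := 1 / (2 * ((n : ℝ) + 1))
  have ht : 0 < t := by positivity
  have iA : Integrable (A.indicator (1 : (Fin n × Fin n → ℝ) → ℝ)) (gauss (Fin n × Fin n)) :=
    (integrable_const (1:ℝ)).indicator hA
  have hpt : ∀ g, lrat β g ≤ 1 / 2 + (t / 2 * lrat β g ^ 2 + 1 / (2 * t) * A.indicator 1 g) := by
    intro g
    have h2 : 0 ≤ t / 2 * lrat β g ^ 2 := by positivity
    by_cases hg : g ∈ A
    · rw [Set.indicator_of_mem hg, Pi.one_apply, mul_one]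
      have h3 : t / 2 * lrat β g ^ 2 + 1 / (2 * t) - lrat β g = (t * lrat β g - 1) ^ 2 / (2 * t) := by
        field_simp
        ring
      have : 0 ≤ (t * lrat β g - 1) ^ 2 / (2 * t) := by positivity
      linarith
    · rw [Set.indicator_of_notMem hg, mul_zero, add_zero]
      simp only [A, Set.mem_ofPred_eq, not_le] at hg
      linarith
  have h := integral_mono i1 ((integrable_const (1/2 : ℝ)).fun_add
    ((i2.const_mul _).fun_add (iA.const_mul _))) hpt
  rw [e1, integral_add (integrable_const _) ((i2.const_mul _).fun_add (iA.const_mul _)),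
    integral_add (i2.const_mul _) (iA.const_mul _), integral_const_mul, integral_const_mul,
    integral_indicator_one hA] at h
  simp only [integral_const, probReal_univ, smul_eq_mul, one_mul] at h
  have h4 := mul_le_mul_of_nonneg_left e2 (show 0 ≤ t / 2 by positivity)
  have h5 : t / 2 * ((n : ℝ) + 1) = 1 / 4 := by simp only [t]; field_simp; ring
  have h6 : 1 / (2 * t) = (n : ℝ) + 1 := by simp only [t]; field_simp
  rw [h6] at h
  rw [div_le_iff₀ (by positivity)]
  linarith

/-- The likelihood ratio is not exponentially small. -/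
theorem lrat_tail {β δ : ℝ} (hβ : β ^ 2 ≤ 1) (hδ : 0 < δ) :
    ∀ᶠ n : ℕ in atTop, (gauss (Fin n × Fin n)).real {g | lrat β g < exp (-(δ * n))}
      ≤ exp (-(δ ^ 2 / 64 * n)) := by
  have hlim : Tendsto (fun n : ℕ => 4 * ((n : ℝ) + 1) * exp (-(δ ^ 2 / 64 * n))) atTop (𝓝 0) := by
    have ha : 0 < δ ^ 2 / 64 := by positivity
    have h1 := (tendsto_rpow_mul_exp_neg_mul_atTop_nhds_zero 1 _ ha).comp
      (tendsto_natCast_atTop_atTop (R := ℝ))
    have h2 := (tendsto_rpow_mul_exp_neg_mul_atTop_nhds_zero 0 _ ha).comp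
      (tendsto_natCast_atTop_atTop (R := ℝ))
    have h := (h1.add h2).const_mul 4
    simp only [Function.comp_apply, rpow_one, rpow_zero, add_zero, mul_zero, neg_mul] at h
    exact h.congr fun n => by ring
  filter_upwards [eventually_gt_atTop 0, hlim.eventually (eventually_lt_nhds one_pos),
    eventually_ge_atTop ⌈4 / δ⌉₊] with n hn hsmall hn4
  have hn' : (0 : ℝ) < n := Nat.cast_pos.2 hn
  set μ := gauss (Fin n × Fin n)
  set F := fun g : Fin n × Fin n → ℝ => log (lrat β g) with hF
  have hc : Continuous F := (continuous_lrat β).log fun g => (lrat_pos β g).ne'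
  have hL : 0 < √(n : ℝ) := sqrt_pos.2 hn'
  have hcn : Continuous fun g => -F g := hc.neg
  have hs1 : 0 ≤ δ / 4 * n := by positivity
  have hup := lipschitz_tail hc hL (log_lrat_lipschitz hβ) hs1
  have hdn := lipschitz_tail hcn hL (fun g h => by
    rw [neg_sub_neg, abs_sub_comm]
    exact log_lrat_lipschitz hβ g h) (show 0 ≤ δ / 2 * n by positivity)
  rw [integral_neg] at hdn
  set M := ∫ g, F g ∂μ
  have hlog2 : log 2 ≤ δ / 4 * n := by
    have h1 := (Nat.le_ceil (4 / δ)).trans (Nat.cast_le.2 hn4)
    rw [div_le_iff₀ hδ] at h1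
    linarith [log_le_sub_one_of_pos (zero_lt_two' ℝ)]
  have hM : -(δ / 2 * n) ≤ M := by
    by_contra hM
    have hsub : {g | 1 / 2 ≤ lrat β g} ⊆ {g | M + δ / 4 * n ≤ F g} := fun g hg => by
      have h1 : log (1 / 2) ≤ F g := log_le_log (by norm_num) hg
      rw [one_div, log_inv] at h1
      show M + δ / 4 * n ≤ F g
      linarith
    have h2 := ((lrat_pz hβ hn).trans (measureReal_mono hsub)).trans hup
    rw [sq_sqrt hn'.le, show (δ / 4 * n) ^ 2 / (4 * n) = δ ^ 2 / 64 * n by field_simp; ring,
      div_le_iff₀ (by positivity)] at h2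
    linarith
  refine le_trans (measureReal_mono fun g hg => ?_) (hdn.trans ?_)
  · show -M + δ / 2 * n ≤ -F g
    have h1 : F g ≤ -(δ * n) := by
      rw [hF, ← log_exp (-(δ * n))]
      exact log_le_log (lrat_pos β g) (le_of_lt hg)
    linarith
  · rw [sq_sqrt hn'.le, exp_le_exp, neg_le_neg_iff,
      show (δ / 2 * n) ^ 2 / (4 * n) = δ ^ 2 / 16 * n by field_simp; ring]
    have : 0 ≤ δ ^ 2 * n := by positivity
    linarith

end Vale.Agent.P150.Beta1
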