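import Vale.Agent.P150.Beta1.Fields.Planted
import Vale.Agent.P150.Beta1.Fields.Gauge
import Vale.Agent.P150.Beta1.Fields.SecondMoment

/-!
# From the planted form of the field statement to the quenched one

A pilot that depends only on couplings and field is near a TAP point with an edge; by Bayes its
neighbourhood also carries the Gibbs samples. The quenched law is contiguous to the planted one up
to `exp (o (n))`, and signs of the sites carry any planted configuration to all plus.
-/

namespace Vale.Agent.P150.Beta1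

open MeasureTheory ProbabilityTheory Finset Filter Real
open Local (wgt fld p0)
open scoped Topology

variable {n : ℕ} {β κ η gmax ρ u₁ u ε : ℝ} {K : ℕ}

/-- The field observed at time `u` at the configuration `x`. -/
noncomputable def obsField (u : ℝ) (x : Fin n → Bool) (ξ : Fin n → ℝ) : Fin n → ℝ :=
  fun i => u * spins x i + √u * ξ i

lemma continuous_obsField (u : ℝ) (x : Fin n → Bool) : Continuous (obsField u x) := by
  unfold obsField
  fun_prop

/-- Fields without a TAP point with an edge near the pilot. -/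
def noEdge (β κ η gmax ρ u₁ u : ℝ) (K : ℕ) :
    Set ((Fin n → Fin n → ℝ) × (Fin n → ℝ)) :=
  {q | ¬PilotEdge β κ η gmax ρ u₁ u K q.1 q.2}

/-- Fields from which the iterates of `x` miss the pilot. -/
def notNear (β ρ u₁ u : ℝ) (K : ℕ) (x : Fin n → Bool) :
    Set ((Fin n → Fin n → ℝ) × (Fin n → ℝ)) :=
  {q | ¬PilotNear β ρ u₁ u K q.1 q.2 (spins x)}

lemma measurableSet_noEdge (hη : 0 < η) (hg : 0 < gmax) :
    MeasurableSet (noEdge (n := n) β κ η gmax ρ u₁ u K) :=
  (isClosed_pilotEdge β κ η gmax ρ u₁ u K hη hg).isOpen_compl.measurableSet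

lemma measurableSet_notNear (x : Fin n → Bool) :
    MeasurableSet (notNear β ρ u₁ u K x) :=
  (isClosed_pilotNear β ρ u₁ u K (spins x)).isOpen_compl.measurableSet

/-- Gibbs mass of the configurations that miss the pilot. -/
noncomputable def missMass (β ρ u₁ u : ℝ) (K : ℕ) (J : Fin n → Fin n → ℝ) (y : Fin n → ℝ) : ℝ :=
  mean (gibbs J y) fun z => (Prod.mk J ⁻¹' notNear β ρ u₁ u K z).indicator 1 y

lemma missMass_mem (J : Fin n → Fin n → ℝ) (y : Fin n → ℝ) :
    missMass β ρ u₁ u K J y ∈ Set.Icc (0 : ℝ) 1 := by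
  refine ⟨sum_nonneg fun z _ => mul_nonneg (gibbs_pos z).le
    (Set.indicator_nonneg (fun _ _ => zero_le_one) _), le_of_le_of_eq (sum_le_sum fun z _ =>
      mul_le_of_le_one_right (gibbs_pos z).le ?_) gibbs_sum⟩
  by_cases h : y ∈ Prod.mk J ⁻¹' notNear β ρ u₁ u K z <;> simp [h]

lemma measurable_missMass (J : Fin n → Fin n → ℝ) : Measurable (missMass β ρ u₁ u K J) := by
  unfold missMass mean
  refine Finset.measurable_sum _ fun z _ => ((Continuous.measurable ?_)).mul
    (measurable_one.indicator (measurable_prodMk_left (measurableSet_notNear z)))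
  simp only [gibbs, energy]
  exact Continuous.div₀ (by fun_prop) (by fun_prop) fun y => partition_pos.ne'

/-- A field with an edge near the pilot and little mass away from the pilot is good. -/
lemma goodField_of_pilot {J : Fin n → Fin n → ℝ} {y : Fin n → ℝ}
    (hE : PilotEdge β κ η gmax ρ u₁ u K J y) (hM : missMass β ρ u₁ u K J y ≤ ε) :
    GoodField β κ η gmax ρ K ε J y := by
  classical
  obtain ⟨m, hm, hd⟩ := hE
  obtain ⟨γ, hγm, hγ⟩ := hm.tapEdge
  refine ⟨γ, hγ, le_trans (sum_le_sum fun z _ => mul_le_mul_of_nonneg_left ?_ (gibbs_pos z).le) hM⟩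
  beta_reduce
  rw [hγm]
  by_cases h : PilotNear β ρ u₁ u K J y (spins z)
  · rw [if_pos]
    · exact Set.indicator_nonneg (fun _ _ => zero_le_one) _
    intro j hj hj'
    set a := ampA β J y (spins z) j
    set p := pilot β u₁ u K J y
    have h1 : ∑ i, (a i - m i) ^ 2 ≤ 2 * ∑ i, (a i - p i) ^ 2 + 2 * ∑ i, (m i - p i) ^ 2 := by
      rw [mul_sum, mul_sum, ← sum_add_distrib]
      exact sum_le_sum fun i _ => by linarith [sq_nonneg (a i + m i - 2 * p i)]
    have h2 := h j hj hj'
    rw [Fintype.card_fin]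
    linarith
  · rw [Set.indicator_of_mem (show y ∈ Prod.mk J ⁻¹' notNear β ρ u₁ u K z from h)]
    split_ifs <;> norm_num

lemma badProb_le {J : Fin n → Fin n → ℝ} (hε : 0 < ε) (x : Fin n → Bool) :
    badProb β κ η gmax ρ K ε u J x
      ≤ (gauss (Fin n)).real (obsField u x ⁻¹' (Prod.mk J ⁻¹' noEdge β κ η gmax ρ u₁ u K))
        + ε⁻¹ * ∫ ξ, missMass β ρ u₁ u K J (obsField u x ξ) ∂gauss (Fin n) := by
  refine (measureReal_mono (μ := gauss (Fin n))
    (s₂ := obsField u x ⁻¹' (Prod.mk J ⁻¹' noEdge β κ η gmax ρ u₁ u K)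
      ∪ {ξ | ε ≤ missMass β ρ u₁ u K J (obsField u x ξ)}) fun ξ hξ => ?_).trans
    ((measureReal_union_le _ _).trans (add_le_add le_rfl ?_))
  · by_contra h
    simp only [Set.mem_union, Set.mem_preimage, Set.mem_ofPred_eq, noEdge, not_or, not_not,
      not_le] at h
    exact hξ (goodField_of_pilot h.1 h.2.le)
  · rw [le_inv_mul_iff₀ hε]
    exact mul_meas_ge_le_integral_of_nonneg (Eventually.of_forall fun ξ => (missMass_mem J _).1)
      (Integrable.of_bound ((measurable_missMass J).comp
        (continuous_obsField u x).measurable).aestronglyMeasurable 1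
        (ae_of_all _ fun ξ => by
          rw [norm_eq_abs, abs_of_nonneg (missMass_mem J _).1]; exact (missMass_mem J _).2)) ε

/-- Bayes: the mass away from the pilot is, in planted mean, the planted probability of a miss. -/
lemma mean_missMass (J : Fin n → Fin n → ℝ) (hu : 0 ≤ u) :
    mean (p0 J) (fun x => ∫ ξ, missMass β ρ u₁ u K J (obsField u x ξ) ∂gauss (Fin n))
      = mean (p0 J) fun x =>
          (gauss (Fin n)).real (obsField u x ⁻¹' (Prod.mk J ⁻¹' notNear β ρ u₁ u K x)) := by
  have hS : ∀ z, MeasurableSet (Prod.mk J ⁻¹' notNear β ρ u₁ u K z) := fun z =>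
    measurable_prodMk_left (measurableSet_notNear z)
  have hf := (PassTwo.continuous_fld (ι := Fin n) u).measurable
  have h1 := (PassTwo.integral_wgt_mean J hu
    (fun g (_ : Fin n → Bool) => missMass β ρ u₁ u K J (fld u g))
    (fun _ => (measurable_missMass J).comp hf) (B := 1) fun g _ => by
      rw [abs_of_nonneg (missMass_mem J _).1]; exact (missMass_mem J _).2).2
  have h2 := (PassTwo.integral_wgt_mean J hu
    (fun g z => (Prod.mk J ⁻¹' notNear β ρ u₁ u K z).indicator 1 (fld u g))
    (fun z => (measurable_one.indicator (hS z)).comp hf) (B := 1) fun g z => by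
      by_cases h : fld u g ∈ Prod.mk J ⁻¹' notNear β ρ u₁ u K z <;> simp [h]).2
  have e : ∀ g, mean (gibbs J (fld u g)) (fun _ => missMass β ρ u₁ u K J (fld u g))
      = mean (gibbs J (fld u g)) fun z =>
          (Prod.mk J ⁻¹' notNear β ρ u₁ u K z).indicator 1 (fld u g) := fun g => by
    rw [show mean (gibbs J (fld u g)) (fun _ => missMass β ρ u₁ u K J (fld u g))
      = missMass β ρ u₁ u K J (fld u g) by simp [mean, ← sum_mul, gibbs_sum]]
    rfl
  simp only [e] at h1
  rw [h1] at h2
  refine Eq.trans (Eq.trans ?_ h2) ?_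
  · refine sum_congr rfl fun x _ => congrArg _ ?_
    beta_reduce
    rw [PassTwo.plantedMean, ← integral_shift (PassTwo.plant u x)
      (F := fun g => missMass β ρ u₁ u K J (fld u g)) ((measurable_missMass J).comp hf)]
    simp only [PassTwo.fld_add_plant hu]
    rfl
  · refine sum_congr rfl fun x _ => congrArg _ ?_
    exact PassTwo.plantedMean_indicator hu x (hS x)

/-- Slices of a set in the product. -/
lemma integral_slice {α γ : Type*} [MeasurableSpace α] [MeasurableSpace γ] (μ : Measure α)
    (ν : Measure γ) [IsProbabilityMeasure μ] [IsProbabilityMeasure ν] {S : Set (α × γ)}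
    (hS : MeasurableSet S) :
    Measurable (fun a => ν.real (Prod.mk a ⁻¹' S)) ∧
      ∫ a, ν.real (Prod.mk a ⁻¹' S) ∂μ = (μ.prod ν).real S := by
  refine ⟨(measurable_measure_prodMk_left hS).ennreal_toReal, ?_⟩
  simp only [measureReal_def]
  rw [integral_toReal (measurable_measure_prodMk_left hS).aemeasurable
    (ae_of_all _ fun a => measure_lt_top _ _), Measure.prod_apply hS]

/-- Couplings shifted by a planting are the planted couplings in another gauge. -/
lemma skCoupling_add_planCoef (β : ℝ) (g : Fin n × Fin n → ℝ) (x : Fin n → Bool) :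
    skCoupling β (g + planCoef β x)
      = flipJ (spins x) (plantJ β fun p => spins x p.1 * spins x p.2 * g p) := by
  funext i j
  have hsq : ∀ l, spins x l * spins x l = 1 := fun l => by rw [← sq]; exact Trap.spins_sq x l
  rcases lt_trichotomy i j with h | rfl | h
  · simp only [skCoupling, flipJ, plantJ, if_pos h, Pi.add_apply, planCoef, if_neg h.ne]
    calc β / √n * (g (i, j) + β / √n * (spins x i * spins x j))
        = β / √n * g (i, j) + β ^ 2 / (√n * √n) * (spins x i * spins x j) := by ring
      _ = _ := by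
          rw [Real.mul_self_sqrt (Nat.cast_nonneg n)]
          linear_combination (-(β / √n * g (i, j)) * (spins x j * spins x j)) * hsq i
            + (-(β / √n * g (i, j))) * hsq j
  · simp [skCoupling, flipJ, plantJ]
  · simp only [skCoupling, flipJ, plantJ, if_pos h, if_neg h.not_gt, Pi.add_apply, planCoef,
      if_neg h.ne']
    calc β / √n * (g (j, i) + β / √n * (spins x j * spins x i))
        = β / √n * g (j, i) + β ^ 2 / (√n * √n) * (spins x i * spins x j) := by ring
      _ = _ := by
          rw [Real.mul_self_sqrt (Nat.cast_nonneg n)]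
          linear_combination (-(β / √n * g (j, i)) * (spins x j * spins x j)) * hsq i
            + (-(β / √n * g (j, i))) * hsq j

/-- Planting at `x` gives probabilities at all plus. -/
lemma planted_prob_le (x : Fin n → Bool) {T S : Set ((Fin n → Fin n → ℝ) × (Fin n → ℝ))}
    (hT : MeasurableSet T)
    (himp : ∀ J y, (flipJ (spins x) J, flipV (spins x) y) ∈ S → (J, y) ∈ T) :
    ((gauss (Fin n × Fin n)).prod (gauss (Fin n))).real
        {p | (skCoupling β (p.1 + planCoef β x), obsField u x p.2) ∈ S}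
      ≤ ((gauss (Fin n × Fin n)).prod (gauss (Fin n))).real
        {p | (plantJ β p.1, obsY u p.2) ∈ T} := by
  have hsq : ∀ l, spins x l * spins x l = 1 := fun l => by rw [← sq]; exact Trap.spins_sq x l
  have hmp := (measurePreserving_sign (fun p : Fin n × Fin n => spins x p.1 * spins x p.2)
    (fun p => by linear_combination spins x p.2 * spins x p.2 * hsq p.1 + hsq p.2)).prod
    (measurePreserving_sign (fun l => spins x l) hsq)
  have hm : MeasurableSet {p : (Fin n × Fin n → ℝ) × (Fin n → ℝ) |
      (plantJ β p.1, obsY u p.2) ∈ T} := (continuous_plantJ_obsY β u).measurable hT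
  simp only [measureReal_def]
  rw [← hmp.measure_preimage hm.nullMeasurableSet]
  refine ENNReal.toReal_mono (measure_ne_top _ _) (measure_mono fun p hp => himp _ _ ?_)
  simp only [Set.mem_ofPred_eq] at hp
  rw [skCoupling_add_planCoef] at hp
  have e : flipV (spins x) (obsY u fun l => spins x l * p.2 l) = obsField u x p.2 := funext fun l => by
    simp only [flipV, obsY, obsField]
    linear_combination (√u * p.2 l) * hsq l
  rw [← e] at hp
  exact hp

/-- The quantity that Markov's inequality is applied to. -/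
noncomputable def mixTerm (β : ℝ) (A : (Fin n → Bool) → (Fin n × Fin n → ℝ) → ℝ)
    (g : Fin n × Fin n → ℝ) : ℝ :=
  (∑ x : Fin n → Bool, shiftW (planCoef β x) g * A x g) / 2 ^ n

lemma mixTerm_integral {A : (Fin n → Bool) → (Fin n × Fin n → ℝ) → ℝ} (hA : ∀ x, Measurable (A x))
    (hA1 : ∀ x g, A x g ∈ Set.Icc (0:ℝ) 1) {b : ℝ}
    (hb : ∀ x, ∫ g, A x (g + planCoef β x) ∂gauss (Fin n × Fin n) ≤ b) :
    Integrable (mixTerm β A) (gauss (Fin n × Fin n)) ∧
      ∫ g, mixTerm β A g ∂gauss (Fin n × Fin n) ≤ b := by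
  have hi : ∀ x, Integrable (fun g => shiftW (planCoef β x) g * A x g) (gauss (Fin n × Fin n)) :=
    fun x => PassTwo.integrable_mul_bdd (integrable_shiftW _) (hA x) (B := 1) fun g => by
      rw [abs_of_nonneg (hA1 x g).1]; exact (hA1 x g).2
  unfold mixTerm
  refine ⟨(integrable_finsetSum _ fun x _ => hi x).div_const _, ?_⟩
  rw [integral_div, integral_finsetSum _ fun x _ => hi x, div_le_iff₀ (by positivity)]
  calc ∑ x, ∫ g, shiftW (planCoef β x) g * A x g ∂gauss (Fin n × Fin n)
      ≤ ∑ _x : Fin n → Bool, b := sum_le_sum fun x _ => by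
        rw [← integral_shift _ (hA x)]; exact hb x
    _ = _ := by simp [mul_comm]

/-- One time: outside a likelihood event and a Markov event the field statement holds. -/
theorem quenched_le {p r : ℝ} {δ : ℝ} (hη : 0 < η) (hg : 0 < gmax) (hu : 0 ≤ u)
    (hε : 0 < ε)
    (hP : ((gauss (Fin n × Fin n)).prod (gauss (Fin n))).real
      {q | ¬PilotEdge β κ η gmax ρ u₁ u K (plantJ β q.1) (obsY u q.2)} ≤ p)
    (hN : ((gauss (Fin n × Fin n)).prod (gauss (Fin n))).real
      {q | ¬PilotNear β ρ u₁ u K (plantJ β q.1) (obsY u q.2) fun _ => 1} ≤ p)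
    (hL : (gauss (Fin n × Fin n)).real {g | lrat β g < exp (-(δ * n))} ≤ r) :
    (gauss (Fin n × Fin n)).real
      {g | ε < mean (gibbs (skCoupling β g) 0) (badProb β κ η gmax ρ K ε u (skCoupling β g))}
    ≤ r + (p + ε⁻¹ * p) / (ε * exp (-(δ * n))) := by
  set μ := gauss (Fin n × Fin n)
  set ν := gauss (Fin n)
  set obs : (Fin n → Bool) → (Fin n × Fin n → ℝ) × (Fin n → ℝ) →
      (Fin n → Fin n → ℝ) × (Fin n → ℝ) := fun x q => (skCoupling β q.1, obsField u x q.2)
  have hobs : ∀ x, Measurable (obs x) := fun x =>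
    ((continuous_pi fun i => continuous_pi fun j => (Words.skCoupling_continuous β i j).comp
      continuous_fst).prodMk ((continuous_obsField u x).comp continuous_snd)).measurable
  set SE := fun x => obs x ⁻¹' noEdge β κ η gmax ρ u₁ u K
  set SN := fun x => obs x ⁻¹' notNear β ρ u₁ u K x
  have hSE : ∀ x, MeasurableSet (SE x) := fun x => hobs x (measurableSet_noEdge hη hg)
  have hSN : ∀ x, MeasurableSet (SN x) := fun x => hobs x (measurableSet_notNear x)
  set A := fun x g => ν.real (Prod.mk g ⁻¹' SE x)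
  set B := fun x g => ν.real (Prod.mk g ⁻¹' SN x)
  have hA := fun x => integral_slice μ ν (hSE x)
  have hB := fun x => integral_slice μ ν (hSN x)
  have h01 : ∀ (S : Set ((Fin n × Fin n → ℝ) × (Fin n → ℝ))) g,
      ν.real (Prod.mk g ⁻¹' S) ∈ Set.Icc (0:ℝ) 1 := fun S g =>
    ⟨measureReal_nonneg, measureReal_le_one⟩
  have hadd : ∀ x, Measurable fun g : Fin n × Fin n → ℝ => g + planCoef β x := fun x => by fun_prop
  have hshift : ∀ (x : Fin n → Bool) {S : Set ((Fin n × Fin n → ℝ) × (Fin n → ℝ))},
      MeasurableSet S → ∫ g, ν.real (Prod.mk (g + planCoef β x) ⁻¹' S) ∂μ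
        = (μ.prod ν).real {q | (q.1 + planCoef β x, q.2) ∈ S} := fun x S hS => by
    exact (integral_slice μ ν (((hadd x).comp measurable_fst).prodMk measurable_snd hS)).2
  obtain ⟨iA, eA⟩ := mixTerm_integral (β := β) (fun x => (hA x).1) (fun x g => h01 _ g) (b := p)
    fun x => by
      rw [hshift x (hSE x)]
      refine le_trans ?_ hP
      exact planted_prob_le (S := noEdge β κ η gmax ρ u₁ u K) (T := noEdge β κ η gmax ρ u₁ u K) x
        (measurableSet_noEdge hη hg)
        fun J y h hJ => h (pilotEdge_flip (fun l => by rw [← sq]; exact Trap.spins_sq x l) hJ)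
  have hone : (spins fun _ : Fin n => true) = fun _ => (1:ℝ) := by funext l; simp [spins, spin]
  obtain ⟨iB, eB⟩ := mixTerm_integral (β := β) (fun x => (hB x).1) (fun x g => h01 _ g) (b := p)
    fun x => by
      rw [hshift x (hSN x)]
      refine le_trans ?_ hN
      refine le_of_le_of_eq (planted_prob_le (S := notNear β ρ u₁ u K x)
        (T := notNear β ρ u₁ u K fun _ => true) x
        (measurableSet_notNear _) fun J y h hJ => h ?_) ?_
      · have h2 := pilotNear_flip (s := spins x) (fun l => by rw [← sq]; exact Trap.spins_sq x l) hJ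
        convert h2 using 1
        funext l
        simp [flipV, spins, spin]
      · simp only [notNear, Set.mem_ofPred_eq, hone]
        rfl
  set Φ := fun g => mixTerm β A g + ε⁻¹ * mixTerm β B g with hΦ
  have hΦ0 : ∀ g, 0 ≤ Φ g := fun g => add_nonneg
    (div_nonneg (sum_nonneg fun x _ => mul_nonneg (shiftW_pos _ g).le measureReal_nonneg)
      (by positivity))
    (mul_nonneg (inv_pos.2 hε).le (div_nonneg
      (sum_nonneg fun x _ => mul_nonneg (shiftW_pos _ g).le measureReal_nonneg) (by positivity)))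
  have hkey : ∀ g, mean (gibbs (skCoupling β g) 0) (badProb β κ η gmax ρ K ε u (skCoupling β g))
      ≤ Φ g / lrat β g := by
    intro g
    set J := skCoupling β g
    have h1 : mean (gibbs J 0) (badProb β κ η gmax ρ K ε u J)
        ≤ mean (p0 J) (fun x => A x g) + ε⁻¹ * mean (p0 J) (fun x => B x g) := by
      rw [show mean (p0 J) (fun x => B x g)
        = mean (p0 J) (fun x => ν.real (obsField u x ⁻¹' (Prod.mk J ⁻¹' notNear β ρ u₁ u K x)))
        from rfl, ← mean_missMass (β := β) (ρ := ρ) (u₁ := u₁) (K := K) J hu]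
      simp only [mean, mul_sum, ← sum_add_distrib]
      refine sum_le_sum fun x _ => ?_
      refine (mul_le_mul_of_nonneg_left (badProb_le (u₁ := u₁) hε x) (gibbs_pos x).le).trans
        (le_of_eq ?_)
      rw [mul_add, mul_left_comm]
      rfl
    refine h1.trans (le_of_eq ?_)
    have hl := (lrat_pos β g).ne'
    have e : ∀ f : (Fin n → Bool) → ℝ, mean (p0 J) f
        = (∑ x, shiftW (planCoef β x) g * f x) / 2 ^ n / lrat β g := fun f => by
      simp only [mean, p0, J, gibbs_eq_shiftW, sum_div]
      exact sum_congr rfl fun x _ => by field_simp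
    simp only [e, hΦ, mixTerm]
    ring
  have hthr : 0 < ε * exp (-(δ * n)) := mul_pos hε (exp_pos _)
  refine (measureReal_mono (s₂ := {g | lrat β g < exp (-(δ * n))} ∪
    {g | ε * exp (-(δ * n)) ≤ Φ g}) fun g hg' => ?_).trans
    ((measureReal_union_le _ _).trans (add_le_add hL ?_))
  · rcases lt_or_ge (lrat β g) (exp (-(δ * n))) with h | h
    · exact Or.inl h
    · refine Or.inr ?_
      have h2 : ε * lrat β g ≤ Φ g :=
        ((lt_div_iff₀ (lrat_pos β g)).1 (lt_of_lt_of_le hg' (hkey g))).le
      exact (mul_le_mul_of_nonneg_left h hε.le).trans h2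
  · rw [le_div_iff₀ hthr, mul_comm]
    refine (mul_meas_ge_le_integral_of_nonneg (Eventually.of_forall hΦ0)
      (iA.fun_add (iB.const_mul _)) _).trans ?_
    rw [hΦ, integral_add iA (iB.const_mul _), integral_const_mul]
    exact add_le_add eA (mul_le_mul_of_nonneg_left eB (inv_pos.2 hε).le)

/-- The field statement. -/
theorem fieldsStatement_of_planted {β : ℝ} (h0 : 0 < β) (h1 : β < 1) :
    PlantedStatement β → FieldsStatement β := by
  intro hP T hT G hG
  obtain ⟨κ, hκ, η, hη, gmax, hgG, hηg, hP⟩ := hP T hT G hG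
  refine ⟨κ, hκ, η, hη, gmax, hgG, fun ρ hρ => ?_⟩
  obtain ⟨K₀, hP⟩ := hP ρ hρ
  refine ⟨K₀, fun K hK => ?_⟩
  obtain ⟨u₁, c₀, hc₀, hP⟩ := hP K hK
  set δ := c₀ / 8 with hδ
  set a := min (c₀ / 2) (δ ^ 2 / 64) with ha
  have hδ0 : 0 < δ := by positivity
  have ha0 : 0 < a := lt_min (by positivity) (by positivity)
  set c := min (a / 2) (c₀ / 8) with hc
  have hc0 : 0 < c := lt_min (by positivity) (by positivity)
  refine ⟨c, hc0, ?_⟩
  filter_upwards [hP, lrat_tail (δ := δ) (pow_le_one₀ h0.le h1.le) hδ0,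
    exp_absorb (A := 3) ha0] with n hn hL habs u hu
  obtain ⟨hE, hN⟩ := hn u hu
  have hE' := ENNReal.toReal_le_of_le_ofReal (exp_pos _).le hE
  have hN' := ENNReal.toReal_le_of_le_ofReal (exp_pos _).le hN
  have h := quenched_le (κ := κ) (ε := exp (-(c * n))) hη (by linarith) hu.1 (exp_pos _)
    hE' hN' hL
  refine (ENNReal.le_ofReal_iff_toReal_le (measure_ne_top _ _) (exp_pos _).le).2
    (h.trans ?_)
  have hn0 : (0:ℝ) ≤ n := Nat.cast_nonneg n
  have hca : c ≤ a / 2 := min_le_left _ _
  have hc8 : c ≤ c₀ / 8 := min_le_right _ _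
  have hexp : ∀ b, a ≤ b → exp (-(b * n)) ≤ exp (-(a * n)) := fun b hb =>
    exp_le_exp.2 (neg_le_neg (mul_le_mul_of_nonneg_right hb hn0))
  have e1 : (exp (-(c₀ * n)) + (exp (-(c * n)))⁻¹ * exp (-(c₀ * n)))
      / (exp (-(c * n)) * exp (-(δ * n))) ≤ 2 * exp (-(a * n)) := by
    rw [← exp_neg, ← exp_add, ← exp_add, add_div, ← exp_sub, ← exp_sub, two_mul]
    refine add_le_add (exp_le_exp.2 ?_) (exp_le_exp.2 ?_)
    · have : a * n ≤ (c₀ - c - δ) * n :=
        mul_le_mul_of_nonneg_right (by linarith [min_le_left (c₀ / 2) (δ ^ 2 / 64)]) hn0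
      linarith
    · have : a * n ≤ (c₀ - 2 * c - δ) * n :=
        mul_le_mul_of_nonneg_right (by linarith [min_le_left (c₀ / 2) (δ ^ 2 / 64)]) hn0
      linarith
  have e2 : exp (-(δ ^ 2 / 64 * n)) ≤ exp (-(a * n)) := hexp _ (min_le_right _ _)
  have e3 : exp (-(a / 2 * n)) ≤ exp (-(c * n)) :=
    exp_le_exp.2 (neg_le_neg (mul_le_mul_of_nonneg_right hca hn0))
  linarith

/-- The field statement for all `β < 1`. -/
theorem fieldsStatement {β : ℝ} (h0 : 0 < β) (h1 : β < 1) : FieldsStatement β :=
  fieldsStatement_of_planted h0 h1 (plantedStatement h0 h1)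

end Vale.Agent.P150.Beta1
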